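import Mathlib

/-!
# Box BD, unit ABS: inequalities in `ℝ≥0∞` (Mathlib only; architect helper266)

Every statement is a leaf (10-80 lines).  Tools: `ENNReal.lintegral_Lp_add_le`, `ENNReal.lintegral_mul_norm_pow_le`, `ENNReal.lintegral_prod_norm_pow_le`, `ENNReal.inner_le_Lp_mul_Lq`, `ENNReal.rpow_*`.
Conventions of `ℝ≥0∞`: `0 * ∞ = 0`, `x ^ (0:ℝ) = 1`, `0 ^ (negative) = ∞`.
-/

set_option autoImplicit false
open MeasureTheory Set
open scoped ENNReal NNReal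

namespace Claimed.Agent.BD

variable {α : Type*} [MeasurableSpace α] {μ : Measure α} {ι : Type*}

/-- Minkowski for finite sums (induction on `s`, `ENNReal.lintegral_Lp_add_le`). -/
theorem abs_minkowski {q : ℝ} (hq : 1 ≤ q) (s : Finset ι) (f : ι → α → ℝ≥0∞)
    (hf : ∀ j ∈ s, AEMeasurable (f j) μ) :
    (∫⁻ x, (∑ j ∈ s, f j x) ^ q ∂μ) ^ (1 / q) ≤ ∑ j ∈ s, (∫⁻ x, f j x ^ q ∂μ) ^ (1 / q) := by
  classical
  have hq0 : 0 < q := by linarith
  induction s using Finset.induction_on with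
  | empty =>
    simp [ENNReal.zero_rpow_of_pos hq0, hq0]
  | insert j s hj ih =>
    have h1 : AEMeasurable (f j) μ := hf j (Finset.mem_insert_self _ _)
    have h2 : AEMeasurable (fun x => ∑ i ∈ s, f i x) μ :=
      Finset.aemeasurable_fun_sum s fun i hi => hf i (Finset.mem_insert_of_mem hi)
    have h3 := ENNReal.lintegral_Lp_add_le h1 h2 hq
    simp only [Finset.sum_insert hj]
    exact h3.trans (add_le_add le_rfl (ih fun i hi => hf i (Finset.mem_insert_of_mem hi)))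

/-- `‖(∑ c_j²)^(1/2)‖_p ≤ (∑ ‖c_j‖_p²)^(1/2)` written for the `p`-th powers `a_j = c_j^p` (`abs_minkowski` with `q = p/2`, `f j = a j ^ (2/p)`). -/
theorem abs_l2Lp {p : ℝ} (hp : 2 ≤ p) (s : Finset ι) (a : ι → α → ℝ≥0∞)
    (ha : ∀ j ∈ s, AEMeasurable (a j) μ) :
    ∫⁻ x, (∑ j ∈ s, a j x ^ (2 / p)) ^ (p / 2) ∂μ ≤ (∑ j ∈ s, (∫⁻ x, a j x ∂μ) ^ (2 / p)) ^ (p / 2) := by
  have hp0 : 0 < p := by linarith
  have hq : 1 ≤ p / 2 := by linarith
  have hq0 : 0 < p / 2 := by linarith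
  have h := abs_minkowski (μ := μ) hq s (fun j x => a j x ^ (2 / p)) (fun j hj => (ha j hj).pow_const _)
  have e1 : ∀ y : ℝ≥0∞, (y ^ (2 / p)) ^ (p / 2) = y := by
    intro y
    rw [← ENNReal.rpow_mul]
    have : 2 / p * (p / 2) = 1 := by field_simp
    rw [this, ENNReal.rpow_one]
  have e2 : 1 / (p / 2) = 2 / p := by field_simp
  simp only [e1, e2] at h
  have h' := ENNReal.rpow_le_rpow h hq0.le
  rwa [e1] at h'

/-- Hölder for a geometric mean of `m` functions (`ENNReal.lintegral_prod_norm_pow_le`). -/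
theorem abs_holder_prod {m : ℕ} (hm : 0 < m) (f : Fin m → α → ℝ≥0∞) (hf : ∀ i, AEMeasurable (f i) μ) :
    ∫⁻ x, ∏ i, f i x ^ (1 / (m : ℝ)) ∂μ ≤ ∏ i, (∫⁻ x, f i x ∂μ) ^ (1 / (m : ℝ)) := by
  have hm' : (m : ℝ) ≠ 0 := by exact_mod_cast hm.ne'
  refine ENNReal.lintegral_prod_norm_pow_le Finset.univ (fun i _ => hf i) ?_ (fun i _ => by positivity)
  rw [Finset.sum_const, Finset.card_univ, Fintype.card_fin, nsmul_eq_mul]
  field_simp

/-- Hölder with exponents `κ`, `1 - κ` (`ENNReal.lintegral_mul_norm_pow_le`; the cases `κ = 0, 1` by hand). -/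
theorem abs_holder_two {κ : ℝ} (h0 : 0 ≤ κ) (h1 : κ ≤ 1) (f g : α → ℝ≥0∞) (hf : AEMeasurable f μ)
    (hg : AEMeasurable g μ) :
    ∫⁻ x, f x ^ κ * g x ^ (1 - κ) ∂μ ≤ (∫⁻ x, f x ∂μ) ^ κ * (∫⁻ x, g x ∂μ) ^ (1 - κ) :=
  ENNReal.lintegral_mul_norm_pow_le hf hg h0 (by linarith) (by ring)

/-- the same for finite sums (counting measure, or `ENNReal.inner_le_Lp_mul_Lq`). -/
theorem abs_holder_sum {κ : ℝ} (h0 : 0 ≤ κ) (h1 : κ ≤ 1) (s : Finset ι) (a b : ι → ℝ≥0∞) :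
    ∑ j ∈ s, a j ^ κ * b j ^ (1 - κ) ≤ (∑ j ∈ s, a j) ^ κ * (∑ j ∈ s, b j) ^ (1 - κ) := by
  let _ : MeasurableSpace s := ⊤
  have h := abs_holder_two (μ := (Measure.count : Measure s)) h0 h1 (fun j => a j) (fun j => b j)
    (measurable_from_top).aemeasurable (measurable_from_top).aemeasurable
  simp only [lintegral_count, tsum_fintype] at h
  rw [← Finset.sum_coe_sort s (fun j => a j ^ κ * b j ^ (1 - κ)), ← Finset.sum_coe_sort s a,
    ← Finset.sum_coe_sort s b]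
  exact h

/-- Jensen on a finite measure (`abs_holder_two` with `g = 1`). -/
theorem abs_jensen {β : ℝ} (h0 : 0 ≤ β) (h1 : β ≤ 1) (f : α → ℝ≥0∞) (hf : AEMeasurable f μ) :
    ∫⁻ x, f x ^ β ∂μ ≤ (∫⁻ x, f x ∂μ) ^ β * μ univ ^ (1 - β) := by
  have h := abs_holder_two (μ := μ) h0 h1 f (fun _ => 1) hf aemeasurable_const
  simpa using h

/-- **the weight trick** which replaces the pigeonholing in the ball inflation: Hölder with `λ_j = m_j^(θ-1)`:
`g^θ = (λ g)^θ (m^θ)^(1-θ)` termwise (if `m = 0` then `g = 0`), then `abs_holder_sum`. -/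
theorem abs_weight_trick {θ : ℝ} (h0 : 0 < θ) (h1 : θ ≤ 1) (s : Finset ι) (g m : ι → ℝ≥0∞)
    (hm : ∀ j ∈ s, m j ≠ ∞) (h : ∀ j ∈ s, m j = 0 → g j = 0) :
    ∑ j ∈ s, g j ^ θ ≤ (∑ j ∈ s, m j ^ (θ - 1) * g j) ^ θ * (∑ j ∈ s, m j ^ θ) ^ (1 - θ) := by
  refine le_trans (Finset.sum_le_sum fun j hj => ?_)
    (abs_holder_sum h0.le h1 s (fun j => m j ^ (θ - 1) * g j) (fun j => m j ^ θ))
  by_cases hz : m j = 0
  · rw [h j hj hz, ENNReal.zero_rpow_of_pos h0]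
    exact zero_le
  · rw [ENNReal.mul_rpow_of_nonneg _ _ h0.le, ← ENNReal.rpow_mul, ← ENNReal.rpow_mul, mul_right_comm,
      ← ENNReal.rpow_add _ _ hz (hm j hj)]
    have : (θ - 1) * θ + θ * (1 - θ) = 0 := by ring
    rw [this, ENNReal.rpow_zero, one_mul]

/-- Cauchy-Schwarz. -/
theorem abs_cs (s : Finset ι) (a : ι → ℝ≥0∞) :
    ∑ j ∈ s, a j ≤ (s.card : ℝ≥0∞) ^ (1 / 2 : ℝ) * (∑ j ∈ s, a j ^ (2 : ℝ)) ^ (1 / 2 : ℝ) := by
  have h := ENNReal.inner_le_Lp_mul_Lq s (fun _ => (1 : ℝ≥0∞)) a (Real.HolderConjugate.two_two)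
  simpa using h

/-- log-convexity of the `L^t` norms (any measure): `1/t = κ/a + (1-κ)/b`.  (`f^t = (f^a)^(κ t/a) (f^b)^((1-κ) t/b)`, the two exponents add up to `1`, `abs_holder_two`.) -/
theorem abs_interp {t a b κ : ℝ} (ht : 0 < t) (ha : 0 < a) (hb : 0 < b) (h0 : 0 ≤ κ) (h1 : κ ≤ 1)
    (h : 1 / t = κ / a + (1 - κ) / b) (f : α → ℝ≥0∞) (hf : AEMeasurable f μ) :
    (∫⁻ x, f x ^ t ∂μ) ^ (1 / t) ≤ (∫⁻ x, f x ^ a ∂μ) ^ (κ / a) * (∫⁻ x, f x ^ b ∂μ) ^ ((1 - κ) / b) := by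
  have hk0 : 0 ≤ κ * t / a := by positivity
  have hsum : κ * t / a + (1 - κ) * t / b = 1 := by
    have : κ * t / a + (1 - κ) * t / b = t * (κ / a + (1 - κ) / b) := by ring
    rw [this, ← h]
    field_simp
  have hk0' : 0 ≤ (1 - κ) * t / b := by
    have : 0 ≤ 1 - κ := by linarith
    positivity
  have hk1 : κ * t / a ≤ 1 := by linarith
  have e1 : 1 - κ * t / a = (1 - κ) * t / b := by linarith
  have hH := abs_holder_two (μ := μ) hk0 hk1 (fun x => f x ^ a) (fun x => f x ^ b) (hf.pow_const _) (hf.pow_const _)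
  have hpt : ∀ x, (f x ^ a) ^ (κ * t / a) * (f x ^ b) ^ (1 - κ * t / a) = f x ^ t := by
    intro x
    rw [e1, ← ENNReal.rpow_mul, ← ENNReal.rpow_mul, ← ENNReal.rpow_add_of_nonneg _ _ (by positivity) (by
      have : 0 ≤ 1 - κ := by linarith
      positivity)]
    congr 1
    have h2 : a * (κ * t / a) = κ * t := by field_simp
    have h3 : b * ((1 - κ) * t / b) = (1 - κ) * t := by field_simp
    rw [h2, h3]
    ring
  simp only [hpt] at hH
  have h4 := ENNReal.rpow_le_rpow hH (one_div_nonneg.2 ht.le)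
  rw [ENNReal.mul_rpow_of_nonneg _ _ (one_div_nonneg.2 ht.le), ← ENNReal.rpow_mul, ← ENNReal.rpow_mul, e1] at h4
  have h5 : κ * t / a * (1 / t) = κ / a := by field_simp
  have h6 : (1 - κ) * t / b * (1 / t) = (1 - κ) / b := by field_simp
  rwa [h5, h6] at h4

/-- comparison of `L^a` and `L^b`, `a ≤ b`, on a finite measure (`abs_jensen` with `β = a/b`). -/
theorem abs_Lp_mono {a b : ℝ} (ha : 0 < a) (hab : a ≤ b) (f : α → ℝ≥0∞) (hf : AEMeasurable f μ) :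
    (∫⁻ x, f x ^ a ∂μ) ^ (1 / a) ≤ (∫⁻ x, f x ^ b ∂μ) ^ (1 / b) * μ univ ^ (1 / a - 1 / b) := by
  have hb : 0 < b := lt_of_lt_of_le ha hab
  have h0 : 0 ≤ a / b := by positivity
  have h1 : a / b ≤ 1 := (div_le_one hb).2 hab
  have h := abs_jensen (μ := μ) h0 h1 (fun x => f x ^ b) (hf.pow_const _)
  have e : ∀ x, (f x ^ b) ^ (a / b) = f x ^ a := by
    intro x
    rw [← ENNReal.rpow_mul]
    congr 1
    field_simp
  simp only [e] at h
  have h2 := ENNReal.rpow_le_rpow h (one_div_nonneg.2 ha.le)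
  rw [ENNReal.mul_rpow_of_nonneg _ _ (one_div_nonneg.2 ha.le), ← ENNReal.rpow_mul, ← ENNReal.rpow_mul] at h2
  have h3 : a / b * (1 / a) = 1 / b := by field_simp
  have h4 : (1 - a / b) * (1 / a) = 1 / a - 1 / b := by field_simp
  rwa [h3, h4] at h2

/-- convolution form of Jensen: `(∫ f K)^t ≤ (∫ K)^(t-1) ∫ f^t K`. -/
theorem abs_jensen_ker {t : ℝ} (ht : 1 ≤ t) (f K : α → ℝ≥0∞) (hf : AEMeasurable f μ) (hK : AEMeasurable K μ) :
    (∫⁻ x, f x * K x ∂μ) ^ t ≤ (∫⁻ x, K x ∂μ) ^ (t - 1) * ∫⁻ x, f x ^ t * K x ∂μ := by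
  have ht0 : 0 < t := by linarith
  have h0 : 0 ≤ 1 / t := by positivity
  have h1 : 1 / t ≤ 1 := by
    rw [div_le_one ht0]
    exact ht
  have h := abs_holder_two (μ := μ) h0 h1 (fun x => f x ^ t * K x) K ((hf.pow_const _).mul hK) hK
  have e : ∀ x, (f x ^ t * K x) ^ (1 / t) * K x ^ (1 - 1 / t) = f x * K x := by
    intro x
    rw [ENNReal.mul_rpow_of_nonneg _ _ h0, ← ENNReal.rpow_mul, mul_assoc,
      ← ENNReal.rpow_add_of_nonneg _ _ h0 (by linarith)]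
    have h2 : t * (1 / t) = 1 := by field_simp
    have h3 : 1 / t + (1 - 1 / t) = 1 := by ring
    rw [h2, h3, ENNReal.rpow_one, ENNReal.rpow_one]
  simp only [e] at h
  have h2 := ENNReal.rpow_le_rpow h ht0.le
  rw [ENNReal.mul_rpow_of_nonneg _ _ ht0.le, ← ENNReal.rpow_mul, ← ENNReal.rpow_mul] at h2
  have h3 : 1 / t * t = 1 := by field_simp
  have h4 : (1 - 1 / t) * t = t - 1 := by field_simp
  rw [h3, h4, ENNReal.rpow_one, mul_comm] at h2
  exact h2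

end Claimed.Agent.BD
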