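import Mathlib

/-!
# Lib/BD/Geo: unit U8a of the l2 decoupling package (plan: report 850)          (helper63; PROVED, no sorry)

PAPER-FREE, Defs-free, Mathlib only.  `V` = finite dimensional real inner product space, `k = finrank V`.

GEOMETRIC DICHOTOMY of the Bourgain-Guth step.  A finite set `S` of points (centres of `1/K`-caps):
* either `k+1` of them are TRANSVERSE, stably under perturbations of size `r` (`2^(k+2) r ≤ lam`),
* or all of `S` lies in a slab `|⟪x - x0, n⟫| < lam`, `‖n‖ = 1`.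

Transversality is stated WITHOUT determinants (`BdgTrans B A`):
  `∑ |t i| ≤ B (‖∑ t i • ξ i‖ + |∑ t i|)` for ALL `ξ i ∈ A i` and all real `t`,
i.e. the vectors `(ξ i, 1) ∈ V × ℝ` are independent with an explicit constant.

EXITS
* `bdg_dichotomy`       translation invariant form
* `bdg_trans_or_slab`   `S` in the ball of radius `M`: `BdgTrans (1 + 2^(k+2) (M + r + 1) / lam)` of the closed `r`-balls, or slab
* `bdg_trans_or_slab_idx`  the same for an indexed family of centres `ctr : ι → V`, `s : Finset ι`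
* `bdg_frame`           frame map `L : V × ℝ ≃ ℝ^(k+1)`, `L (ξ i, 1) = e_i`, `∑ |L w i| ≤ B (‖w.1‖ + |w.2|)`
* `bdg_frame_dir`       the same for the tube directions `(-2 ξ i, 1)`
* `BdgTrans.mono`, `BdgTrans.injective`

PROOF.  Greedy FARTHEST choice (`bdg_step`): maximise `⟪x - c 0, n⟫` over `x ∈ S` and unit `n` normal to the chain
(compactness; no projections).  This gives unit vectors `e i` and heights `h i ≥ lam` with a triangular structure
`⟪c l - c 0, e i⟫ = 0` (`l < i`), `= h i` (`l = i`), `|⟪x - c 0, e i⟫| ≤ h i` (all `x ∈ S`): `BdgChain`.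
Back substitution (`bdg_row`, `bdg_backsub`, `bdg_stable`) then gives the stable lower bound.
-/

set_option autoImplicit false
open Finset Module
open scoped BigOperators RealInnerProductSpace

namespace Claimed.Agent.BD

/-- back substitution: `s j ≤ a + ∑_{i > j} s i` for `1 ≤ j ≤ k` gives `∑_{i ∈ (k-m, k]} s i ≤ (2^m - 1) a`. -/
theorem bdg_backsub (s : ℕ → ℝ) (a : ℝ) (k : ℕ)
    (h : ∀ j, 1 ≤ j → j ≤ k → s j ≤ a + ∑ i ∈ Ioc j k, s i) (m : ℕ) (hm : m ≤ k) :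
    ∑ i ∈ Ioc (k - m) k, s i ≤ (2 ^ m - 1) * a := by
  induction m with
  | zero => simp
  | succ m ih =>
    have ih' := ih (by omega)
    have e1 : k - m = (k - (m + 1)) + 1 := by omega
    have h1 := h (k - m) (by omega) (by omega)
    have h2 : ∑ i ∈ Ioc (k - (m + 1)) k, s i = s (k - m) + ∑ i ∈ Ioc (k - m) k, s i := by
      rw [← Finset.sum_Ioc_consecutive s (show k - (m + 1) ≤ k - m by omega) (show k - m ≤ k by omega)]
      congr 1
      rw [e1, Nat.Ioc_succ_singleton, Finset.sum_singleton]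
    rw [h2, pow_succ]
    nlinarith [h1, ih']

variable {V : Type*} [NormedAddCommGroup V] [InnerProductSpace ℝ V]

/-- a greedy chain of length `j`: points `c 0, …, c j` of `S`, unit vectors `e 1, …, e j`, heights `h i ≥ lam`. -/
def BdgChain (S : Finset V) (lam : ℝ) (j : ℕ) (c e : ℕ → V) (h : ℕ → ℝ) : Prop :=
  (∀ i ≤ j, c i ∈ S) ∧ ∀ i, 1 ≤ i → i ≤ j → ‖e i‖ = 1 ∧ lam ≤ h i ∧ ⟪c i - c 0, e i⟫ = h i ∧
    (∀ l < i, ⟪c l - c 0, e i⟫ = 0) ∧ ∀ x ∈ S, |⟪x - c 0, e i⟫| ≤ h i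

/-- fewer than `finrank V` vectors have a common unit normal -/
theorem bdg_exists_normal [FiniteDimensional ℝ V] (j : ℕ) (hj : j < finrank ℝ V) (b : ℕ → V) :
    ∃ n : V, ‖n‖ = 1 ∧ ∀ i < j, ⟪b i, n⟫ = 0 := by
  classical
  set W : Submodule ℝ V := Submodule.span ℝ (Set.range (fun i : Fin j => b i)) with hW
  have h1 : finrank ℝ W ≤ j := by
    have := finrank_range_le_card (R := ℝ) (fun i : Fin j => b i)
    simpa [Set.finrank] using this
  have h2 := Submodule.finrank_add_finrank_orthogonal W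
  have h3 : 0 < finrank ℝ Wᗮ := by omega
  obtain ⟨⟨x, hx⟩, hx0⟩ := (Module.finrank_pos_iff_exists_ne_zero (R := ℝ) (M := Wᗮ)).1 h3
  have hx0' : x ≠ 0 := fun h => hx0 (by ext; simpa using h)
  have hn : ‖x‖ ≠ 0 := norm_ne_zero_iff.2 hx0'
  refine ⟨‖x‖⁻¹ • x, ?_, ?_⟩
  · rw [norm_smul, norm_inv, norm_norm, inv_mul_cancel₀ hn]
  · intro i hi
    have : b i ∈ W := Submodule.subset_span ⟨⟨i, hi⟩, rfl⟩
    rw [inner_smul_right, (Submodule.mem_orthogonal W x).1 hx _ this, mul_zero]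

/-- one greedy step: farthest point from the span of the chain -/
theorem bdg_step [FiniteDimensional ℝ V] (S : Finset V) (lam : ℝ) (j : ℕ) (hj : j < finrank ℝ V)
    (c e : ℕ → V) (h : ℕ → ℝ) (hc : BdgChain S lam j c e h) :
    (∃ n : V, ‖n‖ = 1 ∧ ∀ x ∈ S, |⟪x - c 0, n⟫| < lam) ∨
      ∃ c' e' h', BdgChain S lam (j + 1) c' e' h' := by
  classical
  obtain ⟨hcS, hce⟩ := hc
  set N : Set V := {n : V | ‖n‖ = 1 ∧ ∀ l ≤ j, ⟪c l - c 0, n⟫ = 0} with hN
  have hNne : N.Nonempty := by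
    obtain ⟨n, hn1, hn2⟩ := bdg_exists_normal j hj (fun i => c (i + 1) - c 0)
    refine ⟨n, hn1, fun l hl => ?_⟩
    rcases Nat.eq_zero_or_pos l with rfl | hl0
    · simp
    · have := hn2 (l - 1) (by omega)
      rwa [show l - 1 + 1 = l by omega] at this
  have hNcl : IsClosed N := by
    have : N = {n : V | ‖n‖ = 1} ∩ ⋂ l : ℕ, ⋂ _ : l ≤ j, {n : V | ⟪c l - c 0, n⟫ = 0} := by
      ext n; simp [hN]
    rw [this]
    refine (isClosed_eq continuous_norm continuous_const).inter ?_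
    refine isClosed_iInter fun l => isClosed_iInter fun _ => ?_
    exact isClosed_eq (continuous_const.inner continuous_id) continuous_const
  have hNcpt : IsCompact N := by
    refine (isCompact_sphere (0 : V) 1).of_isClosed_subset hNcl ?_
    intro n hn
    simpa using hn.1
  have hK : IsCompact ((S : Set V) ×ˢ N) := S.finite_toSet.isCompact.prod hNcpt
  have hKne : ((S : Set V) ×ˢ N).Nonempty :=
    Set.Nonempty.prod ⟨c 0, hcS 0 (Nat.zero_le _)⟩ hNne
  have hf : ContinuousOn (fun p : V × V => ⟪p.1 - c 0, p.2⟫) ((S : Set V) ×ˢ N) :=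
    (Continuous.inner (continuous_fst.sub continuous_const) continuous_snd).continuousOn
  obtain ⟨⟨x0, n0⟩, ⟨hx0, hn0⟩, hmax⟩ := hK.exists_isMaxOn hKne hf
  have hx0' : x0 ∈ S := hx0
  have hneg : -n0 ∈ N := ⟨by rw [norm_neg]; exact hn0.1, fun l hl => by rw [inner_neg_right, hn0.2 l hl, neg_zero]⟩
  have habs : ∀ x ∈ S, |⟪x - c 0, n0⟫| ≤ ⟪x0 - c 0, n0⟫ := by
    intro x hx
    have h1 : ⟪x - c 0, n0⟫ ≤ ⟪x0 - c 0, n0⟫ := hmax (a := (x, n0)) ⟨hx, hn0⟩
    have h2 : ⟪x - c 0, -n0⟫ ≤ ⟪x0 - c 0, n0⟫ := hmax (a := (x, -n0)) ⟨hx, hneg⟩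
    rw [inner_neg_right] at h2
    exact abs_le.2 ⟨by linarith, h1⟩
  by_cases hH : ⟪x0 - c 0, n0⟫ < lam
  · exact Or.inl ⟨n0, hn0.1, fun x hx => lt_of_le_of_lt (habs x hx) hH⟩
  · right
    push Not at hH
    have hne : ∀ i ≤ j, i ≠ j + 1 := fun i hi => by omega
    refine ⟨Function.update c (j + 1) x0, Function.update e (j + 1) n0,
      Function.update h (j + 1) ⟪x0 - c 0, n0⟫, ?_, ?_⟩
    · intro i hi
      rcases Nat.lt_or_ge i (j + 1) with h1 | h1
      · rw [Function.update_of_ne (by omega)]; exact hcS i (by omega)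
      · have : i = j + 1 := by omega
        subst this
        rw [Function.update_self]; exact hx0'
    · intro i hi1 hi2
      have hc0 : Function.update c (j + 1) x0 0 = c 0 := Function.update_of_ne (by omega) _ _
      rw [hc0]
      rcases Nat.lt_or_ge i (j + 1) with h1 | h1
      · have hi : i ≠ j + 1 := by omega
        rw [Function.update_of_ne hi, Function.update_of_ne hi, Function.update_of_ne hi]
        obtain ⟨a1, a2, a3, a4, a5⟩ := hce i hi1 (by omega)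
        refine ⟨a1, a2, a3, fun l hl => ?_, a5⟩
        rw [Function.update_of_ne (by omega)]
        exact a4 l hl
      · have : i = j + 1 := by omega
        subst this
        rw [Function.update_self, Function.update_self, Function.update_self]
        refine ⟨hn0.1, hH, rfl, fun l hl => ?_, habs⟩
        rw [Function.update_of_ne (by omega)]
        exact hn0.2 l (by omega)

/-- the triangular inequality for one index `j` -/
theorem bdg_row (S : Finset V) (lam r : ℝ) (k : ℕ) (c e : ℕ → V) (h : ℕ → ℝ)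
    (hc : BdgChain S lam k c e h) (ξ : ℕ → V) (hξ : ∀ i ≤ k, ‖ξ i - c i‖ ≤ r) (t : ℕ → ℝ)
    (j : ℕ) (hj1 : 1 ≤ j) (hjk : j ≤ k) :
    h j * |t j| ≤ ‖∑ i ∈ Ioc 0 k, t i • (ξ i - ξ 0)‖ + h j * ∑ i ∈ Ioc j k, |t i|
      + 2 * r * ∑ i ∈ Ioc 0 k, |t i| := by
  obtain ⟨hcS, hce⟩ := hc
  obtain ⟨a1, a2, a3, a4, a5⟩ := hce j hj1 hjk
  have hh0 : 0 ≤ h j := le_trans (abs_nonneg _) (a5 _ (hcS 0 (Nat.zero_le _)))
  set u := ∑ i ∈ Ioc 0 k, t i • (ξ i - ξ 0) with hu
  have e1 : ⟪u, e j⟫ = ∑ i ∈ Ioc 0 k, t i * ⟪c i - c 0, e j⟫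
      + ∑ i ∈ Ioc 0 k, t i * ⟪(ξ i - c i) - (ξ 0 - c 0), e j⟫ := by
    rw [hu, sum_inner, ← Finset.sum_add_distrib]
    refine Finset.sum_congr rfl fun i _ => ?_
    rw [inner_smul_left, ← mul_add, ← inner_add_left]
    congr 2
    abel
  have e2 : ∑ i ∈ Ioc 0 k, t i * ⟪c i - c 0, e j⟫ = t j * h j + ∑ i ∈ Ioc j k, t i * ⟪c i - c 0, e j⟫ := by
    obtain ⟨j', rfl⟩ : ∃ j', j = j' + 1 := ⟨j - 1, by omega⟩
    rw [← Finset.sum_Ioc_consecutive _ (Nat.zero_le (j' + 1)) hjk,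
      ← Finset.sum_Ioc_consecutive _ (Nat.zero_le j') (Nat.le_succ j'), Nat.Ioc_succ_singleton,
      Finset.sum_singleton, a3]
    rw [Finset.sum_eq_zero, zero_add]
    intro i hi
    rw [a4 i (by have := (Finset.mem_Ioc.1 hi).2; omega), mul_zero]
  have b1 : |⟪u, e j⟫| ≤ ‖u‖ := by
    have := abs_real_inner_le_norm u (e j)
    rwa [a1, mul_one] at this
  have b2 : |∑ i ∈ Ioc j k, t i * ⟪c i - c 0, e j⟫| ≤ h j * ∑ i ∈ Ioc j k, |t i| := by
    rw [Finset.mul_sum]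
    refine (Finset.abs_sum_le_sum_abs _ _).trans (Finset.sum_le_sum fun i hi => ?_)
    rw [abs_mul, mul_comm]
    exact mul_le_mul_of_nonneg_right (a5 _ (hcS i (Finset.mem_Ioc.1 hi).2)) (abs_nonneg _)
  have b3 : |∑ i ∈ Ioc 0 k, t i * ⟪(ξ i - c i) - (ξ 0 - c 0), e j⟫| ≤ 2 * r * ∑ i ∈ Ioc 0 k, |t i| := by
    rw [Finset.mul_sum]
    refine (Finset.abs_sum_le_sum_abs _ _).trans (Finset.sum_le_sum fun i hi => ?_)
    rw [abs_mul, mul_comm]
    refine mul_le_mul_of_nonneg_right ?_ (abs_nonneg _)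
    have := abs_real_inner_le_norm ((ξ i - c i) - (ξ 0 - c 0)) (e j)
    rw [a1, mul_one] at this
    refine this.trans ((norm_sub_le _ _).trans ?_)
    have := hξ i (Finset.mem_Ioc.1 hi).2
    have := hξ 0 (Nat.zero_le _)
    linarith
  have e3 : t j * h j = ⟪u, e j⟫ - ∑ i ∈ Ioc j k, t i * ⟪c i - c 0, e j⟫
      - ∑ i ∈ Ioc 0 k, t i * ⟪(ξ i - c i) - (ξ 0 - c 0), e j⟫ := by
    rw [e1, e2]; ring
  calc h j * |t j| = |t j * h j| := by rw [abs_mul, abs_of_nonneg hh0, mul_comm]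
    _ ≤ _ := by
      rw [e3]
      refine (abs_sub _ _).trans (add_le_add ((abs_sub _ _).trans (add_le_add b1 b2)) b3)

/-- STABILITY of a full greedy chain under perturbations of size `r ≤ lam / 2^(k+2)` -/
theorem bdg_stable (S : Finset V) (lam r : ℝ) (hlam : 0 < lam) (hr : 0 ≤ r) (k : ℕ)
    (hrl : 2 ^ (k + 2) * r ≤ lam) (c e : ℕ → V) (h : ℕ → ℝ)
    (hc : BdgChain S lam k c e h) (ξ : ℕ → V) (hξ : ∀ i ≤ k, ‖ξ i - c i‖ ≤ r) (t : ℕ → ℝ) :
    ∑ i ∈ Ioc 0 k, |t i| ≤ 2 ^ (k + 1) / lam * ‖∑ i ∈ Ioc 0 k, t i • (ξ i - ξ 0)‖ := by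
  set u := ‖∑ i ∈ Ioc 0 k, t i • (ξ i - ξ 0)‖ with hu
  set T := ∑ i ∈ Ioc 0 k, |t i| with hT
  have hT0 : 0 ≤ T := Finset.sum_nonneg fun _ _ => abs_nonneg _
  have hu0 : 0 ≤ u := norm_nonneg _
  have key := bdg_backsub (fun i => |t i|) ((u + 2 * r * T) / lam) k (fun j hj1 hjk => by
    have h1 := bdg_row S lam r k c e h hc ξ hξ t j hj1 hjk
    have h2 : lam ≤ h j := (hc.2 j hj1 hjk).2.1
    have h3 : 0 < h j := lt_of_lt_of_le hlam h2
    have h4 : |t j| ≤ (u + 2 * r * T) / h j + ∑ i ∈ Ioc j k, |t i| := by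
      rw [div_add' _ _ _ h3.ne', le_div_iff₀ h3]
      linarith
    have h5 : (u + 2 * r * T) / h j ≤ (u + 2 * r * T) / lam :=
      div_le_div_of_nonneg_left (by positivity) hlam h2
    show |t j| ≤ _
    linarith) k le_rfl
  rw [Nat.sub_self] at key
  change T ≤ _ at key
  have hp : (0 : ℝ) < 2 ^ k := by positivity
  have h6 : T * lam ≤ 2 ^ k * (u + 2 * r * T) := by
    have h7 : (2 ^ k - 1) * ((u + 2 * r * T) / lam) ≤ 2 ^ k * ((u + 2 * r * T) / lam) :=
      mul_le_mul_of_nonneg_right (by linarith) (by positivity)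
    have h8 := key.trans h7
    rwa [← mul_div_assoc, le_div_iff₀ hlam] at h8
  have h9 : 2 ^ k * (2 * r * T) ≤ lam * T / 2 := by
    have : 2 ^ (k + 2) * r * T ≤ lam * T := mul_le_mul_of_nonneg_right hrl hT0
    rw [pow_add] at this
    nlinarith
  rw [div_mul_eq_mul_div, le_div_iff₀ hlam, pow_succ]
  nlinarith

/-- the greedy algorithm: a chain of any length `j ≤ finrank V`, or a thin slab -/
theorem bdg_greedy [FiniteDimensional ℝ V] (S : Finset V) (hS : S.Nonempty) (lam : ℝ) (j : ℕ)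
    (hj : j ≤ finrank ℝ V) :
    (∃ n x0 : V, ‖n‖ = 1 ∧ ∀ x ∈ S, |⟪x - x0, n⟫| < lam) ∨ ∃ c e h, BdgChain S lam j c e h := by
  induction j with
  | zero =>
    obtain ⟨x, hx⟩ := hS
    exact Or.inr ⟨fun _ => x, fun _ => 0, fun _ => 0, fun _ _ => hx, fun i h1 h2 => by omega⟩
  | succ j ih =>
    rcases ih (by omega) with h | ⟨c, e, h, hc⟩
    · exact Or.inl h
    · rcases bdg_step S lam j (by omega) c e h hc with ⟨n, hn, h2⟩ | h2
      · exact Or.inl ⟨n, c 0, hn, h2⟩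
      · exact Or.inr h2

theorem bdg_sum_Ioc {M : Type*} [AddCommMonoid M] (g : ℕ → M) (k : ℕ) :
    ∑ i ∈ Ioc 0 k, g i = ∑ i : Fin k, g (i + 1) := by
  rw [Fin.sum_univ_eq_sum_range (fun i => g (i + 1)) k]
  induction k with
  | zero => simp
  | succ k ih => rw [Finset.sum_Ioc_succ_top (Nat.zero_le _), Finset.sum_range_succ, ih]

/-- **U8a, translation invariant form.**  `S` a finite set of points of `V`, `k = finrank V ≥ 1`, `2^(k+2) r ≤ lam`.
Either `k+1` points `c i` of `S` are transverse, STABLY under perturbations of size `r`,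
or `S` lies in an open slab of half width `lam`. -/
theorem bdg_dichotomy [FiniteDimensional ℝ V] (hk : 0 < finrank ℝ V) (S : Finset V) {lam r : ℝ}
    (hlam : 0 < lam) (hr : 0 ≤ r) (hrl : 2 ^ (finrank ℝ V + 2) * r ≤ lam) :
    (∃ c : Fin (finrank ℝ V + 1) → V, (∀ i, c i ∈ S) ∧
      ∀ ξ : Fin (finrank ℝ V + 1) → V, (∀ i, ‖ξ i - c i‖ ≤ r) → ∀ t : Fin (finrank ℝ V + 1) → ℝ,
        ∑ i, |t i| ≤ |∑ i, t i| + 2 ^ (finrank ℝ V + 2) / lam * ‖∑ i, t i • (ξ i - ξ 0)‖) ∨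
    ∃ n x0 : V, ‖n‖ = 1 ∧ ∀ x ∈ S, |⟪x - x0, n⟫| < lam := by
  classical
  rcases S.eq_empty_or_nonempty with rfl | hS
  · obtain ⟨n, hn, -⟩ := bdg_exists_normal 0 hk (fun _ => (0 : V))
    exact Or.inr ⟨n, 0, hn, by simp⟩
  rcases bdg_greedy S hS lam (finrank ℝ V) le_rfl with h | ⟨c, e, h, hc⟩
  · exact Or.inr h
  left
  generalize finrank ℝ V = k at *
  refine ⟨fun i => c i, fun i => hc.1 i (by have := i.2; omega), fun ξ hξ t => ?_⟩
  set ξ' : ℕ → V := fun i => if h : i < k + 1 then ξ ⟨i, h⟩ else 0 with hξ'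
  set t' : ℕ → ℝ := fun i => if h : i < k + 1 then t ⟨i, h⟩ else 0 with ht'
  have hx : ∀ i : Fin (k + 1), ξ' i = ξ i := fun i => by
    show (if h : (i : ℕ) < k + 1 then ξ ⟨i, h⟩ else 0) = ξ i
    rw [dif_pos i.2]
  have ht : ∀ i : Fin (k + 1), t' i = t i := fun i => by
    show (if h : (i : ℕ) < k + 1 then t ⟨i, h⟩ else 0) = t i
    rw [dif_pos i.2]
  have hxs : ∀ i : Fin k, ξ' (i + 1) = ξ i.succ := fun i => hx i.succ
  have hts : ∀ i : Fin k, t' (i + 1) = t i.succ := fun i => ht i.succ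
  have hx0 : ξ' 0 = ξ 0 := hx 0
  have key := bdg_stable S lam r hlam hr k hrl c e h hc ξ' (fun i hi => by
    have := hξ ⟨i, by omega⟩
    rwa [← hx ⟨i, by omega⟩] at this) t'
  rw [bdg_sum_Ioc, bdg_sum_Ioc] at key
  simp only [hxs, hts, hx0] at key
  have e1 : ∑ i, t i • (ξ i - ξ 0) = ∑ i : Fin k, t i.succ • (ξ i.succ - ξ 0) := by
    rw [Fin.sum_univ_succ]; simp
  rw [e1, Fin.sum_univ_succ, Fin.sum_univ_succ]
  set T := ∑ i : Fin k, |t i.succ| with hT
  have h1 : |∑ i : Fin k, t i.succ| ≤ T := Finset.abs_sum_le_sum_abs _ _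
  have h2 : |t 0| ≤ |t 0 + ∑ i : Fin k, t i.succ| + T := by
    have : t 0 = (t 0 + ∑ i : Fin k, t i.succ) - ∑ i : Fin k, t i.succ := by ring
    calc |t 0| = |(t 0 + ∑ i : Fin k, t i.succ) - ∑ i : Fin k, t i.succ| := by rw [← this]
      _ ≤ _ := (abs_sub _ _).trans (by linarith)
  have h3 : (2 : ℝ) ^ (k + 2) / lam = 2 * (2 ^ (k + 1) / lam) := by rw [pow_succ]; ring
  rw [h3]
  linarith

/-- `B`-transversality of a family of subsets of `V` (think: caps of the paraboloid over `A i`), without determinants: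
the vectors `(ξ i, 1) ∈ V × ℝ` are quantitatively independent for ALL choices `ξ i ∈ A i`. -/
def BdgTrans {ι : Type*} [Fintype ι] (B : ℝ) (A : ι → Set V) : Prop :=
  ∀ ξ : ι → V, (∀ i, ξ i ∈ A i) → ∀ t : ι → ℝ, ∑ i, |t i| ≤ B * (‖∑ i, t i • ξ i‖ + |∑ i, t i|)

theorem BdgTrans.mono {ι : Type*} [Fintype ι] {B B' : ℝ} {A A' : ι → Set V} (h : BdgTrans B A)
    (hB : B ≤ B') (hA : ∀ i, A' i ⊆ A i) : BdgTrans B' A' := fun ξ hξ t =>
  (h ξ (fun i => hA i (hξ i)) t).trans (mul_le_mul_of_nonneg_right hB (by positivity))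

/-- **U8a.**  `S` a finite set of points of the ball of radius `M`.  Either the closed `r`-balls around `k+1` points of `S`
are transverse with constant `1 + 2^(k+2) (M + r + 1) / lam`, or `S` lies in an open slab of half width `lam`. -/
theorem bdg_trans_or_slab [FiniteDimensional ℝ V] (hk : 0 < finrank ℝ V) (S : Finset V) {lam r M : ℝ}
    (hlam : 0 < lam) (hr : 0 ≤ r) (hrl : 2 ^ (finrank ℝ V + 2) * r ≤ lam) (hM : ∀ x ∈ S, ‖x‖ ≤ M) :
    (∃ c : Fin (finrank ℝ V + 1) → V, (∀ i, c i ∈ S) ∧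
      BdgTrans (1 + 2 ^ (finrank ℝ V + 2) * (M + r + 1) / lam) (fun i => Metric.closedBall (c i) r)) ∨
    ∃ n x0 : V, ‖n‖ = 1 ∧ ∀ x ∈ S, |⟪x - x0, n⟫| < lam := by
  rcases bdg_dichotomy hk S hlam hr hrl with ⟨c, hc, h⟩ | h
  · refine Or.inl ⟨c, hc, fun ξ hξ t => ?_⟩
    have hξ' : ∀ i, ‖ξ i - c i‖ ≤ r := fun i => by
      have := hξ i
      rwa [Metric.mem_closedBall, dist_eq_norm] at this
    have h1 := h ξ hξ' t
    have h0 : ‖ξ 0‖ ≤ M + r := by
      have : ξ 0 = c 0 + (ξ 0 - c 0) := by abel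
      rw [this]
      exact (norm_add_le _ _).trans (add_le_add (hM _ (hc 0)) (hξ' 0))
    have h2 : ‖∑ i, t i • (ξ i - ξ 0)‖ ≤ ‖∑ i, t i • ξ i‖ + |∑ i, t i| * (M + r) := by
      have : ∑ i, t i • (ξ i - ξ 0) = ∑ i, t i • ξ i - (∑ i, t i) • ξ 0 := by
        simp only [smul_sub, Finset.sum_sub_distrib, Finset.sum_smul]
      rw [this]
      refine (norm_sub_le _ _).trans (add_le_add le_rfl ?_)
      rw [norm_smul, Real.norm_eq_abs]
      exact mul_le_mul_of_nonneg_left h0 (abs_nonneg _)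
    set Q := (2 : ℝ) ^ (finrank ℝ V + 2) / lam with hQ
    have hQ0 : 0 ≤ Q := by positivity
    have hMr : 0 ≤ M + r := le_trans (norm_nonneg _) h0
    have e : 1 + 2 ^ (finrank ℝ V + 2) * (M + r + 1) / lam = 1 + Q * (M + r + 1) := by rw [hQ]; ring
    rw [e]
    have h3 := mul_le_mul_of_nonneg_left h2 hQ0
    have a1 : 0 ≤ ‖∑ i, t i • ξ i‖ := norm_nonneg _
    have a2 : 0 ≤ |∑ i, t i| := abs_nonneg _
    nlinarith [mul_nonneg hQ0 a1, mul_nonneg hQ0 a2, mul_nonneg (mul_nonneg hQ0 hMr) a1]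
  · exact Or.inr h

/-- the FRAME MAP of a transverse family: the linear isomorphism `V × ℝ ≃ ℝ^(k+1)` with `(ξ i, 1) ↦ e_i`,
of `ℓ¹` norm at most `B`. -/
theorem bdg_frame [FiniteDimensional ℝ V] {B : ℝ} {A : Fin (finrank ℝ V + 1) → Set V}
    (hA : BdgTrans B A) (ξ : Fin (finrank ℝ V + 1) → V) (hξ : ∀ i, ξ i ∈ A i) :
    ∃ L : (V × ℝ) ≃ₗ[ℝ] (Fin (finrank ℝ V + 1) → ℝ), (∀ i, L (ξ i, 1) = Pi.single i 1) ∧
      (∀ t, L.symm t = (∑ i, t i • ξ i, ∑ i, t i)) ∧ ∀ w, ∑ i, |L w i| ≤ B * (‖w.1‖ + |w.2|) := by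
  classical
  let Φ : (Fin (finrank ℝ V + 1) → ℝ) →ₗ[ℝ] V × ℝ :=
    { toFun := fun t => (∑ i, t i • ξ i, ∑ i, t i)
      map_add' := fun s t => by
        simp only [Pi.add_apply, add_smul, Finset.sum_add_distrib, Prod.mk_add_mk]
      map_smul' := fun a t => by
        simp only [Pi.smul_apply, smul_eq_mul, mul_smul, ← Finset.smul_sum, ← Finset.mul_sum,
          RingHom.id_apply, Prod.smul_mk, smul_eq_mul] }
  have hΦ : ∀ t, Φ t = (∑ i, t i • ξ i, ∑ i, t i) := fun _ => rfl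
  have hinj : Function.Injective Φ := by
    rw [← LinearMap.ker_eq_bot, LinearMap.ker_eq_bot']
    intro t ht
    have h1 := hA ξ hξ t
    rw [hΦ, Prod.mk_eq_zero] at ht
    rw [ht.1, ht.2, norm_zero, abs_zero, add_zero, mul_zero] at h1
    funext i
    have h2 : |t i| ≤ ∑ i, |t i| := Finset.single_le_sum (f := fun i => |t i|) (fun _ _ => abs_nonneg _) (Finset.mem_univ i)
    exact abs_eq_zero.1 (le_antisymm (h2.trans h1) (abs_nonneg _))
  have hdim : finrank ℝ (Fin (finrank ℝ V + 1) → ℝ) = finrank ℝ (V × ℝ) := by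
    simp
  let E := LinearMap.linearEquivOfInjective Φ hinj hdim
  have hE : ∀ t, E t = (∑ i, t i • ξ i, ∑ i, t i) := fun t => by
    rw [LinearMap.linearEquivOfInjective_apply, hΦ]
  refine ⟨E.symm, fun i => ?_, fun t => ?_, fun w => ?_⟩
  · rw [LinearEquiv.symm_apply_eq, hE]
    simp [Pi.single_apply]
  · rw [LinearEquiv.symm_symm, hE]
  · have h1 := hA ξ hξ (E.symm w)
    have h2 := hE (E.symm w)
    rw [LinearEquiv.apply_symm_apply] at h2
    have h3 : w.1 = ∑ i, (E.symm w) i • ξ i := congrArg Prod.fst h2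
    have h4 : w.2 = ∑ i, (E.symm w) i := congrArg Prod.snd h2
    rw [h3, h4]
    exact h1

/-- transverse sets are pairwise "different": the index is determined by any common point -/
theorem BdgTrans.injective {ι : Type*} [Fintype ι] {B : ℝ} {A : ι → Set V} (h : BdgTrans B A)
    (hne : ∀ i, (A i).Nonempty) {i j : ι} {x : V} (hi : x ∈ A i) (hj : x ∈ A j) : i = j := by
  classical
  by_contra hij
  choose y hy using hne
  have h1 := h (Function.update (Function.update y i x) j x) (fun l => by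
    by_cases hl : l = j
    · subst hl; rw [Function.update_self]; exact hj
    · rw [Function.update_of_ne hl]
      by_cases hl' : l = i
      · subst hl'; rw [Function.update_self]; exact hi
      · rw [Function.update_of_ne hl']; exact hy l) (Pi.single i 1 - Pi.single j 1)
  have hji : j ≠ i := fun h => hij h.symm
  have e1 : ∑ l, (Pi.single i 1 - Pi.single j 1 : ι → ℝ) l •
      (Function.update (Function.update y i x) j x) l = 0 := by
    simp only [Pi.sub_apply, sub_smul, Finset.sum_sub_distrib, Pi.single_apply, ite_smul, one_smul,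
      zero_smul, Finset.sum_ite_eq', Finset.mem_univ, if_true, Function.update_self]
    rw [Function.update_of_ne hij, Function.update_self, sub_self]
  have e2 : ∑ l, (Pi.single i 1 - Pi.single j 1 : ι → ℝ) l = 0 := by
    simp [Finset.sum_sub_distrib]
  rw [e1, e2, norm_zero, abs_zero, add_zero, mul_zero] at h1
  have h2 : |(Pi.single i 1 - Pi.single j 1 : ι → ℝ) i| ≤ ∑ l, |(Pi.single i 1 - Pi.single j 1 : ι → ℝ) l| :=
    Finset.single_le_sum (f := fun l => |(Pi.single i 1 - Pi.single j 1 : ι → ℝ) l|)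
      (fun _ _ => abs_nonneg _) (Finset.mem_univ i)
  have h3 : (Pi.single i 1 - Pi.single j 1 : ι → ℝ) i = 1 := by
    simp [hij]
  rw [h3, abs_one] at h2
  linarith

/-- **U8a for an indexed family of centres.** -/
theorem bdg_trans_or_slab_idx [FiniteDimensional ℝ V] (hk : 0 < finrank ℝ V) {ι : Type*} (s : Finset ι)
    (ctr : ι → V) {lam r M : ℝ} (hlam : 0 < lam) (hr : 0 ≤ r) (hrl : 2 ^ (finrank ℝ V + 2) * r ≤ lam)
    (hM : ∀ a ∈ s, ‖ctr a‖ ≤ M) :
    (∃ a : Fin (finrank ℝ V + 1) → ι, (∀ i, a i ∈ s) ∧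
      BdgTrans (1 + 2 ^ (finrank ℝ V + 2) * (M + r + 1) / lam)
        (fun i => Metric.closedBall (ctr (a i)) r)) ∨
    ∃ n x0 : V, ‖n‖ = 1 ∧ ∀ a ∈ s, |⟪ctr a - x0, n⟫| < lam := by
  classical
  rcases bdg_trans_or_slab hk (s.image ctr) hlam hr hrl (fun x hx => by
    obtain ⟨a, ha, rfl⟩ := Finset.mem_image.1 hx
    exact hM a ha) with ⟨c, hc, h⟩ | ⟨n, x0, hn, h⟩
  · left
    have : ∀ i, ∃ a ∈ s, ctr a = c i := fun i => Finset.mem_image.1 (hc i)
    choose a ha hac using this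
    refine ⟨a, ha, ?_⟩
    simpa only [hac] using h
  · exact Or.inr ⟨n, x0, hn, fun a ha => h _ (Finset.mem_image_of_mem _ ha)⟩

/-- the frame map for the TUBE DIRECTIONS `(-2 ξ i, 1)` (normals of the paraboloid `τ = |ξ|^2`). -/
theorem bdg_frame_dir [FiniteDimensional ℝ V] {B : ℝ} {A : Fin (finrank ℝ V + 1) → Set V}
    (hA : BdgTrans B A) (ξ : Fin (finrank ℝ V + 1) → V) (hξ : ∀ i, ξ i ∈ A i) :
    ∃ L : (V × ℝ) ≃ₗ[ℝ] (Fin (finrank ℝ V + 1) → ℝ), (∀ i, L ((-2 : ℝ) • ξ i, 1) = Pi.single i 1) ∧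
      (∀ t, L.symm t = (∑ i, t i • ((-2 : ℝ) • ξ i), ∑ i, t i)) ∧
      ∀ w, ∑ i, |L w i| ≤ B * (‖w.1‖ + |w.2|) := by
  obtain ⟨L, h1, h2, h3⟩ := bdg_frame hA ξ hξ
  have hB : 0 ≤ B := by
    have := h3 (0, 1)
    simp only [norm_zero, abs_one, zero_add, mul_one] at this
    exact le_trans (Finset.sum_nonneg fun _ _ => abs_nonneg _) this
  let D : (V × ℝ) ≃ₗ[ℝ] (V × ℝ) :=
    LinearEquiv.prodCongr (LinearEquiv.smulOfNeZero ℝ V (-(1 / 2) : ℝ) (by norm_num)) (LinearEquiv.refl ℝ ℝ)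
  have hD : ∀ w : V × ℝ, D w = ((-(1 / 2) : ℝ) • w.1, w.2) := fun w => rfl
  have hDs : ∀ w : V × ℝ, D.symm w = ((-2 : ℝ) • w.1, w.2) := fun w => by
    rw [LinearEquiv.symm_apply_eq, hD]
    ext
    · simp only [smul_smul]; norm_num
    · rfl
  refine ⟨D.trans L, fun i => ?_, fun t => ?_, fun w => ?_⟩
  · rw [LinearEquiv.trans_apply, hD]
    simp only [smul_smul]
    norm_num
    exact h1 i
  · rw [LinearEquiv.trans_symm, LinearEquiv.trans_apply, h2, hDs]
    simp only [Finset.smul_sum, smul_smul, mul_comm]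
  · rw [LinearEquiv.trans_apply, hD]
    refine (h3 _).trans (mul_le_mul_of_nonneg_left ?_ hB)
    simp only [norm_smul, norm_neg, Real.norm_eq_abs]
    have : |(1 / 2 : ℝ)| = 1 / 2 := abs_of_pos (by norm_num)
    rw [this]
    have := norm_nonneg w.1
    linarith

end Claimed.Agent.BD
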