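import Claimed.Agent.Lib.BD.Defs
import Claimed.Agent.Lib.BD.Geo

/-!
# Lib/BD/GeoT: unit U8a in the language of `Defs.lean` (`Trans`)          (helper63; PROVED, no sorry)

* `bdg_Trans_iff`  for `k+1` points, `ν > 0`:  `Trans ν ξ ↔ ∀ t, ∑ |t i| ≤ |∑ t i| + (1/ν) ‖∑ t i • (ξ i - ξ 0)‖`   (EXACT duality)
* `bdg_Trans_stable`   `Trans ν ξ`, `‖ξ' i - ξ i‖ ≤ r`  ⟹  `Trans (ν - r) ξ'`
* `bdg_Trans_or_slab`, `bdg_Trans_or_slab_idx`   **U8a**: a `(k+1)`-tuple of `S` with `Trans (lam / 2^(k+2))`, or `S` in the slab `|⟪x - x0, n⟫| < lam`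
* `bdg_Trans_BdgTrans`, `bdg_Trans_frame`, `bdg_Trans_frame_dir`   frame maps for the MK adapter: `L (ξ i, 1) = e_i` resp. `L (-2 ξ i, 1) = e_i`,
  `∑ |L w i| ≤ (1 + (M + 1)/ν) (‖w.1‖ + |w.2|)` when `‖ξ 0‖ ≤ M`.
-/

set_option autoImplicit false
open Finset Module
open scoped BigOperators RealInnerProductSpace

namespace Claimed.Agent.BD

variable {V : Type} [NormedAddCommGroup V] [InnerProductSpace ℝ V]

theorem bdg_Trans_stable {m : ℕ} {ν r : ℝ} {ξ ξ' : Fin m → V} (h : Trans ν ξ)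
    (hr : ∀ i, ‖ξ' i - ξ i‖ ≤ r) : Trans (ν - r) ξ' := by
  intro n hn c
  obtain ⟨i, hi⟩ := h n hn c
  refine ⟨i, ?_⟩
  have h1 : |inner ℝ n (ξ' i - ξ i)| ≤ r := by
    have := abs_real_inner_le_norm n (ξ' i - ξ i)
    rw [hn, one_mul] at this
    exact this.trans (hr i)
  have h2 : inner ℝ n (ξ' i) - c = (inner ℝ n (ξ i) - c) + inner ℝ n (ξ' i - ξ i) := by
    rw [inner_sub_right]; ring
  rw [h2]
  have h3 := abs_sub_abs_le_abs_sub (inner ℝ n (ξ i) - c) (-(inner ℝ n (ξ' i - ξ i)))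
  rw [abs_neg, sub_neg_eq_add] at h3
  linarith

theorem Trans.mono {m : ℕ} {ν ν' : ℝ} {ξ : Fin m → V} (h : Trans ν ξ) (hν : ν' ≤ ν) : Trans ν' ξ :=
  fun n hn c => (h n hn c).imp fun _ hi => hν.trans hi

/-- the invariant inequality gives `BdgTrans` of the singletons -/
theorem bdg_inv_BdgTrans {m : ℕ} {Q M : ℝ} (hQ : 0 ≤ Q) {ξ : Fin (m + 1) → V} (hM : ‖ξ 0‖ ≤ M)
    (h : ∀ t : Fin (m + 1) → ℝ, ∑ i, |t i| ≤ |∑ i, t i| + Q * ‖∑ i, t i • (ξ i - ξ 0)‖) :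
    BdgTrans (1 + Q * (M + 1)) (fun i => {ξ i}) := by
  intro ζ hζ t
  have hζ' : ζ = ξ := funext fun i => hζ i
  subst hζ'
  have h1 := h t
  have h2 : ‖∑ i, t i • (ζ i - ζ 0)‖ ≤ ‖∑ i, t i • ζ i‖ + |∑ i, t i| * M := by
    have : ∑ i, t i • (ζ i - ζ 0) = ∑ i, t i • ζ i - (∑ i, t i) • ζ 0 := by
      simp only [smul_sub, Finset.sum_sub_distrib, Finset.sum_smul]
    rw [this]
    refine (norm_sub_le _ _).trans (add_le_add le_rfl ?_)
    rw [norm_smul, Real.norm_eq_abs]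
    exact mul_le_mul_of_nonneg_left hM (abs_nonneg _)
  have hM0 : 0 ≤ M := le_trans (norm_nonneg _) hM
  have h3 := mul_le_mul_of_nonneg_left h2 hQ
  have a1 : 0 ≤ ‖∑ i, t i • ζ i‖ := norm_nonneg _
  have a2 : 0 ≤ |∑ i, t i| := abs_nonneg _
  nlinarith [mul_nonneg hQ a1, mul_nonneg hQ a2, mul_nonneg (mul_nonneg hQ hM0) a1]

/-- the invariant inequality with constant `Q` gives `Trans (1/Q)` -/
theorem bdg_Trans_of_inv [FiniteDimensional ℝ V] {Q : ℝ} (hQ : 0 < Q) {ξ : Fin (finrank ℝ V + 1) → V}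
    (h : ∀ t : Fin (finrank ℝ V + 1) → ℝ, ∑ i, |t i| ≤ |∑ i, t i| + Q * ‖∑ i, t i • (ξ i - ξ 0)‖) :
    Trans (1 / Q) ξ := by
  intro n hn c
  by_contra hcon
  push Not at hcon
  obtain ⟨L, -, hL, -⟩ := bdg_frame (bdg_inv_BdgTrans hQ.le le_rfl h) ξ (fun i => rfl)
  set t := L (n, 0) with ht
  have h1 := hL t
  rw [ht, LinearEquiv.symm_apply_apply, ← ht] at h1
  have h2 : n = ∑ i, t i • ξ i := congrArg Prod.fst h1
  have h3 : (0 : ℝ) = ∑ i, t i := congrArg Prod.snd h1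
  have h4 : ∑ i, |t i| ≤ Q := by
    have := h t
    have e : ∑ i, t i • (ξ i - ξ 0) = n := by
      simp only [smul_sub, Finset.sum_sub_distrib, ← Finset.sum_smul, ← h3, zero_smul, sub_zero]
      exact h2.symm
    rwa [e, ← h3, abs_zero, zero_add, hn, mul_one] at this
  have h5 : (1 : ℝ) = ∑ i, t i * (inner ℝ n (ξ i) - c) := by
    have : inner ℝ n n = (1 : ℝ) := by rw [real_inner_self_eq_norm_sq, hn]; norm_num
    rw [← this]
    conv_lhs => rw [h2, inner_sum]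
    simp only [mul_sub, Finset.sum_sub_distrib, ← Finset.sum_mul, ← h3, zero_mul, sub_zero,
      inner_smul_right]
    rw [← h2]
  have hex : ∃ i, t i ≠ 0 := by
    by_contra hall
    push Not at hall
    rw [Finset.sum_eq_zero (fun i _ => by rw [hall i, zero_mul])] at h5
    norm_num at h5
  obtain ⟨i0, hi0⟩ := hex
  have h6 : ∑ i, t i * (inner ℝ n (ξ i) - c) < ∑ i, |t i| * (1 / Q) := by
    refine Finset.sum_lt_sum (fun i _ => ?_) ⟨i0, Finset.mem_univ _, ?_⟩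
    · refine (le_abs_self _).trans ?_
      rw [abs_mul]
      exact mul_le_mul_of_nonneg_left (hcon i).le (abs_nonneg _)
    · refine lt_of_le_of_lt (le_abs_self _) ?_
      rw [abs_mul]
      exact mul_lt_mul_of_pos_left (hcon i0) (abs_pos.2 hi0)
  rw [← Finset.sum_mul, ← h5] at h6
  have h7 : (∑ i, |t i|) * (1 / Q) ≤ 1 := by
    rw [mul_one_div, div_le_one hQ]; exact h4
  linarith

/-- `Trans ν` gives the invariant inequality with constant `1/ν` (affine interpolation of the signs) -/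
theorem bdg_inv_of_Trans [FiniteDimensional ℝ V] {ν : ℝ} (hν : 0 < ν) {ξ : Fin (finrank ℝ V + 1) → V}
    (h : Trans ν ξ) (t : Fin (finrank ℝ V + 1) → ℝ) :
    ∑ i, |t i| ≤ |∑ i, t i| + 1 / ν * ‖∑ i, t i • (ξ i - ξ 0)‖ := by
  classical
  let Ψ : V × ℝ →ₗ[ℝ] (Fin (finrank ℝ V + 1) → ℝ) :=
    { toFun := fun w i => inner ℝ w.1 (ξ i) - w.2
      map_add' := fun a b => by
        funext i
        simp only [Prod.fst_add, Prod.snd_add, inner_add_left, Pi.add_apply]; ring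
      map_smul' := fun a b => by
        funext i
        simp only [Prod.smul_fst, Prod.smul_snd, inner_smul_left, Pi.smul_apply, smul_eq_mul,
          RingHom.id_apply, conj_trivial]; ring }
  have hΨ : ∀ w i, Ψ w i = inner ℝ w.1 (ξ i) - w.2 := fun _ _ => rfl
  -- the key bound: `ν ‖m‖ ≤ max |Ψ (m,a) i|`
  have hkey : ∀ w : V × ℝ, ∃ i, ν * ‖w.1‖ ≤ |Ψ w i| := by
    intro w
    by_cases hw : w.1 = 0
    · exact ⟨0, by rw [hw, norm_zero, mul_zero]; exact abs_nonneg _⟩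
    · have hn : 0 < ‖w.1‖ := norm_pos_iff.2 hw
      obtain ⟨i, hi⟩ := h (‖w.1‖⁻¹ • w.1) (by rw [norm_smul, norm_inv, norm_norm, inv_mul_cancel₀ hn.ne'])
        (‖w.1‖⁻¹ * w.2)
      refine ⟨i, ?_⟩
      rw [inner_smul_left, conj_trivial, ← mul_sub, abs_mul, abs_of_pos (inv_pos.2 hn)] at hi
      rw [hΨ]
      calc ν * ‖w.1‖ ≤ (‖w.1‖⁻¹ * |inner ℝ w.1 (ξ i) - w.2|) * ‖w.1‖ :=
            mul_le_mul_of_nonneg_right hi hn.le
        _ = _ := by field_simp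
  have hinj : Function.Injective Ψ := by
    rw [← LinearMap.ker_eq_bot, LinearMap.ker_eq_bot']
    intro w hw
    obtain ⟨i, hi⟩ := hkey w
    rw [hw, Pi.zero_apply, abs_zero] at hi
    have h1 : ‖w.1‖ = 0 := by
      have := norm_nonneg w.1
      nlinarith
    have h2 : w.1 = 0 := norm_eq_zero.1 h1
    have h3 := congrFun hw 0
    rw [hΨ, h2, inner_zero_left, Pi.zero_apply] at h3
    ext
    · rw [h2]; rfl
    · simp only [Prod.snd_zero]; linarith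
  have hdim : finrank ℝ (V × ℝ) = finrank ℝ (Fin (finrank ℝ V + 1) → ℝ) := by simp
  have hsurj : Function.Surjective Ψ :=
    (LinearMap.injective_iff_surjective_of_finrank_eq_finrank hdim).1 hinj
  obtain ⟨w, hw⟩ := hsurj (fun i => if 0 ≤ t i then 1 else -1)
  have hs : ∀ i, Ψ w i = if 0 ≤ t i then 1 else -1 := fun i => congrFun hw i
  have hs1 : ∀ i, |Ψ w i| = 1 := fun i => by rw [hs]; split_ifs <;> simp
  have hts : ∀ i, |t i| = t i * Ψ w i := fun i => by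
    rw [hs]; split_ifs with h0
    · rw [abs_of_nonneg h0, mul_one]
    · rw [abs_of_neg (not_le.1 h0)]; ring
  have hm : ‖w.1‖ ≤ 1 / ν := by
    obtain ⟨i, hi⟩ := hkey w
    rw [hs1] at hi
    rw [le_div_iff₀ hν]; linarith
  have e1 : ∑ i, |t i| = inner ℝ w.1 (∑ i, t i • (ξ i - ξ 0)) + (∑ i, t i) * Ψ w 0 := by
    rw [inner_sum, Finset.sum_mul, ← Finset.sum_add_distrib]
    refine Finset.sum_congr rfl fun i _ => ?_
    rw [hts, hΨ, hΨ, inner_smul_right, inner_sub_right]; ring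
  rw [e1]
  have b1 : inner ℝ w.1 (∑ i, t i • (ξ i - ξ 0)) ≤ 1 / ν * ‖∑ i, t i • (ξ i - ξ 0)‖ :=
    (real_inner_le_norm _ _).trans (mul_le_mul_of_nonneg_right hm (norm_nonneg _))
  have b2 : (∑ i, t i) * Ψ w 0 ≤ |∑ i, t i| := by
    refine (le_abs_self _).trans ?_
    rw [abs_mul, hs1, mul_one]
  linarith

/-- EXACT duality between the width definition `Trans` and the `ℓ¹` lower bound. -/
theorem bdg_Trans_iff [FiniteDimensional ℝ V] {ν : ℝ} (hν : 0 < ν) (ξ : Fin (finrank ℝ V + 1) → V) :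
    Trans ν ξ ↔ ∀ t : Fin (finrank ℝ V + 1) → ℝ,
      ∑ i, |t i| ≤ |∑ i, t i| + 1 / ν * ‖∑ i, t i • (ξ i - ξ 0)‖ := by
  refine ⟨fun h t => bdg_inv_of_Trans hν h t, fun h => ?_⟩
  have := bdg_Trans_of_inv (Q := 1 / ν) (by positivity) h
  rwa [one_div_one_div] at this

/-- **U8a.**  Either `k+1` points of `S` are `lam / 2^(k+2)`-transverse, or `S` lies in a slab of half width `lam`. -/
theorem bdg_Trans_or_slab [FiniteDimensional ℝ V] (hk : 0 < finrank ℝ V) (S : Finset V) {lam : ℝ}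
    (hlam : 0 < lam) :
    (∃ c : Fin (finrank ℝ V + 1) → V, (∀ i, c i ∈ S) ∧ Trans (lam / 2 ^ (finrank ℝ V + 2)) c) ∨
    ∃ n x0 : V, ‖n‖ = 1 ∧ ∀ x ∈ S, |inner ℝ (x - x0) n| < lam := by
  rcases bdg_dichotomy hk S hlam le_rfl (by rw [mul_zero]; exact hlam.le) with ⟨c, hc, h⟩ | h
  · refine Or.inl ⟨c, hc, ?_⟩
    have := bdg_Trans_of_inv (Q := 2 ^ (finrank ℝ V + 2) / lam) (by positivity)
      (h c (fun i => by rw [sub_self, norm_zero]))
    rwa [one_div_div] at this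
  · exact Or.inr h

/-- **U8a for an indexed family of centres.** -/
theorem bdg_Trans_or_slab_idx [FiniteDimensional ℝ V] (hk : 0 < finrank ℝ V) {ι : Type*} (s : Finset ι)
    (ctr : ι → V) {lam : ℝ} (hlam : 0 < lam) :
    (∃ a : Fin (finrank ℝ V + 1) → ι, (∀ i, a i ∈ s) ∧
      Trans (lam / 2 ^ (finrank ℝ V + 2)) (fun i => ctr (a i))) ∨
    ∃ n x0 : V, ‖n‖ = 1 ∧ ∀ a ∈ s, |inner ℝ (ctr a - x0) n| < lam := by
  classical
  rcases bdg_Trans_or_slab hk (s.image ctr) hlam with ⟨c, hc, h⟩ | ⟨n, x0, hn, h⟩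
  · left
    have : ∀ i, ∃ a ∈ s, ctr a = c i := fun i => Finset.mem_image.1 (hc i)
    choose a ha hac using this
    refine ⟨a, ha, ?_⟩
    simpa only [hac] using h
  · exact Or.inr ⟨n, x0, hn, fun a ha => h _ (Finset.mem_image_of_mem _ ha)⟩

/-- `Trans ν` ⟹ `BdgTrans` of the singletons. -/
theorem bdg_Trans_BdgTrans [FiniteDimensional ℝ V] {ν M : ℝ} (hν : 0 < ν)
    {ξ : Fin (finrank ℝ V + 1) → V} (h : Trans ν ξ) (hM : ‖ξ 0‖ ≤ M) :
    BdgTrans (1 + 1 / ν * (M + 1)) (fun i => {ξ i}) :=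
  bdg_inv_BdgTrans (by positivity) hM (bdg_inv_of_Trans hν h)

/-- frame map of a transverse tuple: `(ξ i, 1) ↦ e_i`. -/
theorem bdg_Trans_frame [FiniteDimensional ℝ V] {ν M : ℝ} (hν : 0 < ν)
    {ξ : Fin (finrank ℝ V + 1) → V} (h : Trans ν ξ) (hM : ‖ξ 0‖ ≤ M) :
    ∃ L : (V × ℝ) ≃ₗ[ℝ] (Fin (finrank ℝ V + 1) → ℝ), (∀ i, L (ξ i, 1) = Pi.single i 1) ∧
      (∀ t, L.symm t = (∑ i, t i • ξ i, ∑ i, t i)) ∧
      ∀ w, ∑ i, |L w i| ≤ (1 + 1 / ν * (M + 1)) * (‖w.1‖ + |w.2|) :=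
  bdg_frame (bdg_Trans_BdgTrans hν h hM) ξ (fun _ => rfl)

/-- frame map for the tube directions: `(-2 ξ i, 1) ↦ e_i`. -/
theorem bdg_Trans_frame_dir [FiniteDimensional ℝ V] {ν M : ℝ} (hν : 0 < ν)
    {ξ : Fin (finrank ℝ V + 1) → V} (h : Trans ν ξ) (hM : ‖ξ 0‖ ≤ M) :
    ∃ L : (V × ℝ) ≃ₗ[ℝ] (Fin (finrank ℝ V + 1) → ℝ), (∀ i, L ((-2 : ℝ) • ξ i, 1) = Pi.single i 1) ∧
      (∀ t, L.symm t = (∑ i, t i • ((-2 : ℝ) • ξ i), ∑ i, t i)) ∧
      ∀ w, ∑ i, |L w i| ≤ (1 + 1 / ν * (M + 1)) * (‖w.1‖ + |w.2|) :=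
  bdg_frame_dir (bdg_Trans_BdgTrans hν h hM) ξ (fun _ => rfl)

end Claimed.Agent.BD
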