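import Mathlib

/-!
# Box BD (l2 decoupling for the paraboloid; plan = report 850 of helper203), NUMERIC HALF, file 1: U8d + U10      (architect helper281)

Mathlib only; no definition of the analytic part is used.  `D m` stands for the global grid constant `Dec_V(m,p)` (caps of side `2^-m`, `δ = 4^-m`) as a REAL number.
Inputs (all are explicit inequalities, produced by U4a, U5, U8c + U9):
* `htriv`  `D m ≤ 2^(η0 m)`                              (U4a, `η0 = k/2`)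
* `hsub`   `D (m+n) ≤ C0 D m D n`                         (U5)
* `hA`     `A a ≤ C_ε 2^(ε a)`                            (lower dimensional constant, induction on `k`;  `K = 2^a`)
* `hrec`   for `m = 2^s j`, `j ≥ j0(s, ε, a)`:
  `D m ≤ A a * D (m - a - c) + C(s,ε,a) 2^((ε + L/2^s) m) ∏_{l=2}^{s} D (m - m/2^(l-1) - c2)^((1-κ) κ^(s-l))`        (U8c with the bound of U9 for `MDec`)
Exit: `bdn_main : ∀ ε > 0, ∃ C, ∀ m, D m ≤ C 2^(ε m)`   for `1/2 < κ ≤ 1`.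
-/

set_option autoImplicit false

namespace Claimed.Agent.BD

open scoped BigOperators

noncomputable section

/-- `η ≥ 0` is an admissible exponent of `D` -/
def BdnEx (D : ℕ → ℝ) (η : ℝ) : Prop := 0 ≤ η ∧ ∃ C : ℝ, 1 ≤ C ∧ ∀ m : ℕ, D m ≤ C * (2:ℝ) ^ (η * m)

theorem bdn_ex_of_le {D : ℕ → ℝ} {η C : ℝ} (hη : 0 ≤ η) (h : ∀ m : ℕ, D m ≤ C * (2:ℝ) ^ (η * m)) : BdnEx D η := by
  refine ⟨hη, max C 1, le_max_right _ _, fun m => (h m).trans ?_⟩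
  exact mul_le_mul_of_nonneg_right (le_max_left _ _) (by positivity)

theorem bdn_ex_mono {D : ℕ → ℝ} {η η' : ℝ} (h : BdnEx D η) (hle : η ≤ η') : BdnEx D η' := by
  obtain ⟨h0, C, hC, hD⟩ := h
  refine ⟨h0.trans hle, C, hC, fun m => (hD m).trans ?_⟩
  refine mul_le_mul_of_nonneg_left ?_ (by linarith)
  exact Real.rpow_le_rpow_of_exponent_le (by norm_num) (mul_le_mul_of_nonneg_right hle (by positivity))

/-- the weights of the iteration -/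
def bdnW (κ : ℝ) (s l : ℕ) : ℝ := (1 - κ) * κ ^ (s - l)

/-- `∑_{l=2}^{s} (1-κ) κ^(s-l) = 1 - κ^(s-1)` -/
theorem bdn_sum_w (κ : ℝ) (s : ℕ) (hs : 1 ≤ s) : ∑ l ∈ Finset.Icc 2 s, bdnW κ s l = 1 - κ ^ (s - 1) := by
  obtain ⟨n, rfl⟩ : ∃ n, s = n + 1 := ⟨s - 1, by omega⟩
  clear hs
  induction n with
  | zero => simp
  | succ n ih =>
    rw [Finset.sum_Icc_succ_top (by omega)]
    have h1 : ∑ l ∈ Finset.Icc 2 (n + 1), bdnW κ (n + 1 + 1) l = κ * ∑ l ∈ Finset.Icc 2 (n + 1), bdnW κ (n + 1) l := by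
      rw [Finset.mul_sum]
      refine Finset.sum_congr rfl fun l hl => ?_
      have hl2 := (Finset.mem_Icc.1 hl).2
      unfold bdnW
      have e : n + 1 + 1 - l = (n + 1 - l) + 1 := by omega
      rw [e, pow_succ]
      ring
    rw [h1, ih]
    unfold bdnW
    simp only [Nat.add_sub_cancel, Nat.sub_self, pow_zero]
    ring

/-- the contraction factor `γ_s = ∑_{l=2}^{s} (1-κ) κ^(s-l) (1 - 2^(1-l))` -/
def bdnGam (κ : ℝ) (s : ℕ) : ℝ := ∑ l ∈ Finset.Icc 2 s, bdnW κ s l * (1 - 1 / (2:ℝ) ^ (l - 1))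

theorem bdn_w_nonneg {κ : ℝ} (h0 : 0 ≤ κ) (h1 : κ ≤ 1) (s l : ℕ) : 0 ≤ bdnW κ s l :=
  mul_nonneg (by linarith) (pow_nonneg h0 _)

theorem bdn_fac_mem (l : ℕ) : 0 ≤ 1 - 1 / (2:ℝ) ^ (l - 1) ∧ 1 - 1 / (2:ℝ) ^ (l - 1) ≤ 1 := by
  have h1 : (1:ℝ) ≤ (2:ℝ) ^ (l - 1) := one_le_pow₀ (by norm_num)
  have h2 : 1 / (2:ℝ) ^ (l - 1) ≤ 1 := by
    rw [div_le_one (by linarith)]
    exact h1
  have h3 : 0 ≤ 1 / (2:ℝ) ^ (l - 1) := by positivity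
  constructor <;> linarith

theorem bdn_gam_nonneg {κ : ℝ} (h0 : 0 ≤ κ) (h1 : κ ≤ 1) (s : ℕ) : 0 ≤ bdnGam κ s := by
  exact Finset.sum_nonneg fun l _ => mul_nonneg (bdn_w_nonneg h0 h1 s l) (bdn_fac_mem l).1

/-- `1 - γ_s ≥ κ^(s-1)` -/
theorem bdn_gam_le {κ : ℝ} (h0 : 0 ≤ κ) (h1 : κ ≤ 1) (s : ℕ) (hs : 1 ≤ s) : bdnGam κ s ≤ 1 - κ ^ (s - 1) := by
  rw [← bdn_sum_w κ s hs]
  refine Finset.sum_le_sum fun l _ => ?_
  exact mul_le_of_le_one_right (bdn_w_nonneg h0 h1 s l) (bdn_fac_mem l).2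

theorem bdn_sum_w_le {κ : ℝ} (h0 : 0 ≤ κ) (s : ℕ) : ∑ l ∈ Finset.Icc 2 s, bdnW κ s l ≤ 1 := by
  rcases Nat.eq_zero_or_pos s with rfl | hs
  · simp
  · rw [bdn_sum_w κ s hs]
    have := pow_nonneg h0 (s - 1)
    linarith

/-- the product of the lower constants under an admissible exponent.   PLAN: `D n ^ w ≤ (C 2^(η n))^w = C^w 2^(η n w)` (`Real.rpow_le_rpow`, `Real.mul_rpow`, `← Real.rpow_mul`), `n_l ≤ m (1 - 1/2^(l-1))` in `ℝ`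
because `2^(l-1) ∣ 2^s j` for `l ≤ s` (`Nat.cast_div`), `∏ C^(w l) = C^(∑ w) ≤ C` by `bdn_sum_w` (`Real.rpow_le_self_of_one_le`-type: `C^x ≤ C^1`), `∏ 2^(x l) = 2^(∑ x l)` (`Real.rpow_sum_of_pos` or induction). -/
theorem bdn_prod_le {D : ℕ → ℝ} (hD0 : ∀ m, 0 ≤ D m) {η C : ℝ} (hη : 0 ≤ η) (hC : 1 ≤ C) (hD : ∀ m : ℕ, D m ≤ C * (2:ℝ) ^ (η * m))
    {κ : ℝ} (h0 : 0 ≤ κ) (h1 : κ ≤ 1) (s c2 j : ℕ) :
    ∏ l ∈ Finset.Icc 2 s, D (2 ^ s * j - 2 ^ s * j / 2 ^ (l - 1) - c2) ^ bdnW κ s l ≤ C * (2:ℝ) ^ (bdnGam κ s * η * ((2 ^ s * j : ℕ) : ℝ)) := by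
  have hC0 : 0 < C := by linarith
  have hterm : ∀ l ∈ Finset.Icc 2 s, D (2 ^ s * j - 2 ^ s * j / 2 ^ (l - 1) - c2) ^ bdnW κ s l ≤
      C ^ bdnW κ s l * (2:ℝ) ^ (bdnW κ s l * (1 - 1 / (2:ℝ) ^ (l - 1)) * (η * ((2 ^ s * j : ℕ) : ℝ))) := by
    intro l hl
    have hl2 := (Finset.mem_Icc.1 hl).2
    have hw := bdn_w_nonneg h0 h1 s l
    have hdvd : 2 ^ (l - 1) ∣ 2 ^ s * j := Dvd.dvd.mul_right (pow_dvd_pow 2 (by omega)) j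
    have hn : ((2 ^ s * j - 2 ^ s * j / 2 ^ (l - 1) - c2 : ℕ) : ℝ) ≤
        (1 - 1 / (2:ℝ) ^ (l - 1)) * ((2 ^ s * j : ℕ) : ℝ) := by
      have e1 : ((2 ^ s * j - 2 ^ s * j / 2 ^ (l - 1) - c2 : ℕ) : ℝ) ≤ ((2 ^ s * j - 2 ^ s * j / 2 ^ (l - 1) : ℕ) : ℝ) := by
        exact_mod_cast Nat.sub_le _ _
      have e2 : ((2 ^ s * j - 2 ^ s * j / 2 ^ (l - 1) : ℕ) : ℝ) =
          ((2 ^ s * j : ℕ) : ℝ) - ((2 ^ s * j / 2 ^ (l - 1) : ℕ) : ℝ) := Nat.cast_sub (Nat.div_le_self _ _)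
      have e3 : ((2 ^ s * j / 2 ^ (l - 1) : ℕ) : ℝ) = ((2 ^ s * j : ℕ) : ℝ) / ((2 ^ (l - 1) : ℕ) : ℝ) :=
        Nat.cast_div hdvd (by positivity)
      have e4 : ((2 ^ (l - 1) : ℕ) : ℝ) = (2:ℝ) ^ (l - 1) := by push_cast; rfl
      rw [e3, e4] at e2
      rw [e2] at e1
      refine e1.trans (le_of_eq ?_)
      ring
    calc D (2 ^ s * j - 2 ^ s * j / 2 ^ (l - 1) - c2) ^ bdnW κ s l
        ≤ (C * (2:ℝ) ^ (η * ((2 ^ s * j - 2 ^ s * j / 2 ^ (l - 1) - c2 : ℕ) : ℝ))) ^ bdnW κ s l :=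
          Real.rpow_le_rpow (hD0 _) (hD _) hw
      _ = C ^ bdnW κ s l * (2:ℝ) ^ (η * ((2 ^ s * j - 2 ^ s * j / 2 ^ (l - 1) - c2 : ℕ) : ℝ) * bdnW κ s l) := by
          rw [Real.mul_rpow hC0.le (by positivity), ← Real.rpow_mul (by norm_num)]
      _ ≤ _ := by
          refine mul_le_mul_of_nonneg_left ?_ (by positivity)
          refine Real.rpow_le_rpow_of_exponent_le (by norm_num) ?_
          have := mul_le_mul_of_nonneg_left hn (mul_nonneg hη hw)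
          nlinarith [this]
  refine (Finset.prod_le_prod (fun l _ => Real.rpow_nonneg (hD0 _) _) hterm).trans ?_
  rw [Finset.prod_mul_distrib, ← Real.rpow_sum_of_pos hC0, ← Real.rpow_sum_of_pos (by norm_num : (0:ℝ) < 2)]
  have e : ∑ l ∈ Finset.Icc 2 s, bdnW κ s l * (1 - 1 / (2:ℝ) ^ (l - 1)) * (η * ((2 ^ s * j : ℕ) : ℝ)) =
      bdnGam κ s * η * ((2 ^ s * j : ℕ) : ℝ) := by
    unfold bdnGam
    rw [← Finset.sum_mul]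
    ring
  rw [e]
  refine mul_le_mul_of_nonneg_right ?_ (by positivity)
  calc C ^ (∑ l ∈ Finset.Icc 2 s, bdnW κ s l) ≤ C ^ (1:ℝ) := Real.rpow_le_rpow_of_exponent_le hC (bdn_sum_w_le h0 s)
    _ = C := Real.rpow_one C

/-- **U8d**: the linear recursion along the multiples of `N`.   PLAN: strong induction on `j`; `j < J0`: `hbase` and `1 ≤ 2^..`, `0 ≤ G`;
`j ≥ J0`: `Aa * E (j-b) ≤ Aa * G * 2^(θ N (j-b)) ≤ (G/2) 2^(θ N j)` (`Real.rpow_add`, `N*j = N*(j-b) + N*b`) and `P ≤ G/2`. -/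
theorem bdn_lin_rec {E : ℕ → ℝ} {N b J0 : ℕ} {Aa G θ P : ℝ} (hθ : 0 ≤ θ) (hAa0 : 0 ≤ Aa) (hAa : Aa * 2 ≤ (2:ℝ) ^ (θ * ((N * b : ℕ) : ℝ))) (hb1 : 1 ≤ b) (hb : b ≤ J0)
    (hG : 2 * P ≤ G) (hP : 0 ≤ P) (hbase : ∀ j < J0, E j ≤ G) (hrec : ∀ j ≥ J0, E j ≤ Aa * E (j - b) + P * (2:ℝ) ^ (θ * ((N * j : ℕ) : ℝ))) :
    ∀ j, E j ≤ G * (2:ℝ) ^ (θ * ((N * j : ℕ) : ℝ)) := by
  have hG0 : 0 ≤ G := by linarith
  intro j
  induction j using Nat.strong_induction_on with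
  | _ j ih =>
    rcases lt_or_ge j J0 with hj | hj
    · have h1 : (1:ℝ) ≤ (2:ℝ) ^ (θ * ((N * j : ℕ) : ℝ)) :=
        Real.one_le_rpow (by norm_num) (mul_nonneg hθ (Nat.cast_nonneg _))
      calc E j ≤ G := hbase j hj
        _ = G * 1 := (mul_one G).symm
        _ ≤ _ := mul_le_mul_of_nonneg_left h1 hG0
    · have hjb : j - b < j := by omega
      have h1 := ih (j - b) hjb
      have h2 := hrec j hj
      have e1 : ((N * j : ℕ) : ℝ) = ((N * (j - b) : ℕ) : ℝ) + ((N * b : ℕ) : ℝ) := by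
        rw [← Nat.cast_add, ← Nat.mul_add]
        congr 2
        omega
      have e2 : (2:ℝ) ^ (θ * ((N * j : ℕ) : ℝ)) =
          (2:ℝ) ^ (θ * ((N * (j - b) : ℕ) : ℝ)) * (2:ℝ) ^ (θ * ((N * b : ℕ) : ℝ)) := by
        rw [e1, mul_add, Real.rpow_add (by norm_num)]
      have hx : 0 < (2:ℝ) ^ (θ * ((N * (j - b) : ℕ) : ℝ)) := by positivity
      have h3 : Aa * E (j - b) ≤ Aa * (G * (2:ℝ) ^ (θ * ((N * (j - b) : ℕ) : ℝ))) := mul_le_mul_of_nonneg_left h1 hAa0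
      have h4 : G * (2:ℝ) ^ (θ * ((N * (j - b) : ℕ) : ℝ)) * (Aa * 2) ≤
          G * (2:ℝ) ^ (θ * ((N * (j - b) : ℕ) : ℝ)) * (2:ℝ) ^ (θ * ((N * b : ℕ) : ℝ)) :=
        mul_le_mul_of_nonneg_left hAa (mul_nonneg hG0 hx.le)
      have hy : 0 < (2:ℝ) ^ (θ * ((N * j : ℕ) : ℝ)) := by positivity
      have h5 : 2 * P * (2:ℝ) ^ (θ * ((N * j : ℕ) : ℝ)) ≤ G * (2:ℝ) ^ (θ * ((N * j : ℕ) : ℝ)) :=
        mul_le_mul_of_nonneg_right hG hy.le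
      rw [e2] at h5 h2 ⊢
      nlinarith [h2, h3, h4, h5]

/-- the choice of the step length -/
theorem bdn_choose_b (θ CA : ℝ) (hθ : 0 < θ) (N c a0 : ℕ) (hN : 1 ≤ N) :
    ∃ b : ℕ, 1 ≤ b ∧ c ≤ N * b ∧ a0 ≤ N * b - c ∧ 2 * CA ≤ (2:ℝ) ^ (θ / 2 * ((N * b : ℕ) : ℝ)) := by
  obtain ⟨n, hn⟩ := exists_nat_ge (2 * CA)
  obtain ⟨b0, hb0⟩ := exists_nat_ge ((n:ℝ) / (θ / 2))
  refine ⟨1 + (c + a0) + b0, by omega, ?_, ?_, ?_⟩
  · have : 1 * (1 + (c + a0) + b0) ≤ N * (1 + (c + a0) + b0) := Nat.mul_le_mul_right _ hN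
    omega
  · have : 1 * (1 + (c + a0) + b0) ≤ N * (1 + (c + a0) + b0) := Nat.mul_le_mul_right _ hN
    omega
  · have h1 : (b0 : ℝ) ≤ ((N * (1 + (c + a0) + b0) : ℕ) : ℝ) := by
      have : 1 * (1 + (c + a0) + b0) ≤ N * (1 + (c + a0) + b0) := Nat.mul_le_mul_right _ hN
      exact_mod_cast (by omega : b0 ≤ N * (1 + (c + a0) + b0))
    have h2 : (n:ℝ) ≤ θ / 2 * ((N * (1 + (c + a0) + b0) : ℕ) : ℝ) := by
      have h3 := (div_le_iff₀ (by positivity : (0:ℝ) < θ / 2)).1 (hb0.trans h1)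
      linarith
    have h4 : (n:ℝ) ≤ (2:ℝ) ^ (n:ℝ) := by
      rw [Real.rpow_natCast]
      exact_mod_cast (Nat.lt_two_pow_self (n := n)).le
    exact hn.trans (h4.trans (Real.rpow_le_rpow_of_exponent_le (by norm_num) h2))

/-- **one step of the bootstrap**.   PLAN: `θ := ε + L/2^s + γ η > 0`, `N := 2^s`.  `C_A` from `hA (θ/2)`.  Choose `b ≥ 1` with `c ≤ N b`, `a0 ≤ a := N b - c`, `2 C_A ≤ 2^((θ/2) N b)`; then `A a * 2 ≤ 2^(θ N b)`.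
`C, j0` from `hrec ε a`; `J0 := max b j0`; for `j ≥ J0`: `N j - a - c = N (j - b)`; `bdn_prod_le` with the constant of `hη`; `P := max C 0 * Cη`, `G := max (2P) (2^(η0 N J0))`; `bdn_lin_rec` for `E j := D (N j)`.
General `m = N (m/N) + m % N`: `hsub`, `htriv` for the remainder (`≤ 2^(η0 N)`), `C0 ≤ max C0 0`; exit through `bdn_ex_of_le`. -/
theorem bdn_step (D A : ℕ → ℝ) (η0 κ L C0 : ℝ) (c c2 a0 : ℕ) (hD0 : ∀ m, 0 ≤ D m) (hη0 : 0 ≤ η0) (htriv : ∀ m : ℕ, D m ≤ (2:ℝ) ^ (η0 * m))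
    (hκ0 : 0 ≤ κ) (hκ1 : κ ≤ 1) (hL : 0 ≤ L) (hsub : ∀ m n, D (m + n) ≤ C0 * D m * D n) (hA0 : ∀ a, 0 ≤ A a)
    (hA : ∀ ε : ℝ, 0 < ε → ∃ C : ℝ, ∀ a : ℕ, A a ≤ C * (2:ℝ) ^ (ε * a))
    (s : ℕ) (hs : 1 ≤ s)
    (hrec : ∀ ε : ℝ, 0 < ε → ∀ a ≥ a0, ∃ (C : ℝ) (j0 : ℕ), ∀ j ≥ j0,
      D (2 ^ s * j) ≤ A a * D (2 ^ s * j - a - c) + C * (2:ℝ) ^ ((ε + L / 2 ^ s) * ((2 ^ s * j : ℕ) : ℝ))
        * ∏ l ∈ Finset.Icc 2 s, D (2 ^ s * j - 2 ^ s * j / 2 ^ (l - 1) - c2) ^ bdnW κ s l)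
    {η : ℝ} (hη : BdnEx D η) {ε : ℝ} (hε : 0 < ε) : BdnEx D (ε + L / 2 ^ s + bdnGam κ s * η) := by
  obtain ⟨hη0', Cη, hCη, hDη⟩ := hη
  have hγ := bdn_gam_nonneg hκ0 hκ1 s
  have hθ : 0 < ε + L / 2 ^ s + bdnGam κ s * η := by
    have h1 : 0 ≤ L / 2 ^ s := by positivity
    have h2 : 0 ≤ bdnGam κ s * η := mul_nonneg hγ hη0'
    linarith
  generalize hθdef : ε + L / 2 ^ s + bdnGam κ s * η = θ at hθ ⊢
  have hN : 1 ≤ 2 ^ s := Nat.one_le_two_pow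
  obtain ⟨CA, hCA⟩ := hA (θ / 2) (by positivity)
  obtain ⟨b, hb1, hcb, ha0, hb2⟩ := bdn_choose_b θ CA hθ (2 ^ s) c a0 hN
  have hCA0 : 0 ≤ CA := by
    have h1 := hCA 0
    have h2 := hA0 0
    simp only [Nat.cast_zero, mul_zero, Real.rpow_zero, mul_one] at h1
    linarith
  obtain ⟨C, j0, hCj⟩ := hrec ε hε (2 ^ s * b - c) ha0
  -- the bound for `A a`
  have hAa : A (2 ^ s * b - c) * 2 ≤ (2:ℝ) ^ (θ * ((2 ^ s * b : ℕ) : ℝ)) := by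
    have h1 := hCA (2 ^ s * b - c)
    have h2 : (2:ℝ) ^ (θ / 2 * ((2 ^ s * b - c : ℕ) : ℝ)) ≤ (2:ℝ) ^ (θ / 2 * ((2 ^ s * b : ℕ) : ℝ)) := by
      refine Real.rpow_le_rpow_of_exponent_le (by norm_num) (mul_le_mul_of_nonneg_left ?_ (by positivity))
      exact_mod_cast Nat.sub_le _ _
    have e : (2:ℝ) ^ (θ * ((2 ^ s * b : ℕ) : ℝ)) =
        (2:ℝ) ^ (θ / 2 * ((2 ^ s * b : ℕ) : ℝ)) * (2:ℝ) ^ (θ / 2 * ((2 ^ s * b : ℕ) : ℝ)) := by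
      rw [← Real.rpow_add (by norm_num)]
      congr 1
      ring
    rw [e]
    have hx : 0 < (2:ℝ) ^ (θ / 2 * ((2 ^ s * b : ℕ) : ℝ)) := by positivity
    calc A (2 ^ s * b - c) * 2 ≤ CA * (2:ℝ) ^ (θ / 2 * ((2 ^ s * b - c : ℕ) : ℝ)) * 2 := by linarith
      _ ≤ CA * (2:ℝ) ^ (θ / 2 * ((2 ^ s * b : ℕ) : ℝ)) * 2 := by
          have := mul_le_mul_of_nonneg_left h2 hCA0
          linarith
      _ = 2 * CA * (2:ℝ) ^ (θ / 2 * ((2 ^ s * b : ℕ) : ℝ)) := by ring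
      _ ≤ _ := mul_le_mul_of_nonneg_right hb2 hx.le
  have hP0 : 0 ≤ max C 0 * Cη := mul_nonneg (le_max_right _ _) (by linarith)
  -- the recursion for `E j = D (N j)`
  have hrec' : ∀ j ≥ max b j0, D (2 ^ s * j) ≤ A (2 ^ s * b - c) * D (2 ^ s * (j - b)) +
      max C 0 * Cη * (2:ℝ) ^ (θ * ((2 ^ s * j : ℕ) : ℝ)) := by
    intro j hj
    have hjb : b ≤ j := (le_max_left _ _).trans hj
    have h1 := hCj j ((le_max_right _ _).trans hj)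
    have e1 : 2 ^ s * j - (2 ^ s * b - c) - c = 2 ^ s * (j - b) := by
      rw [Nat.mul_sub]
      have : 2 ^ s * b ≤ 2 ^ s * j := Nat.mul_le_mul_left _ hjb
      omega
    rw [e1] at h1
    refine h1.trans (add_le_add le_rfl ?_)
    have h2 := bdn_prod_le hD0 hη0' hCη hDη hκ0 hκ1 s c2 j
    have h3 : 0 ≤ ∏ l ∈ Finset.Icc 2 s, D (2 ^ s * j - 2 ^ s * j / 2 ^ (l - 1) - c2) ^ bdnW κ s l :=
      Finset.prod_nonneg fun l _ => Real.rpow_nonneg (hD0 _) _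
    have hx : 0 < (2:ℝ) ^ ((ε + L / 2 ^ s) * ((2 ^ s * j : ℕ) : ℝ)) := by positivity
    have e2 : (2:ℝ) ^ (θ * ((2 ^ s * j : ℕ) : ℝ)) = (2:ℝ) ^ ((ε + L / 2 ^ s) * ((2 ^ s * j : ℕ) : ℝ)) *
        (2:ℝ) ^ (bdnGam κ s * η * ((2 ^ s * j : ℕ) : ℝ)) := by
      rw [← Real.rpow_add (by norm_num), ← hθdef]
      congr 1
      ring
    rw [e2]
    calc C * (2:ℝ) ^ ((ε + L / 2 ^ s) * ((2 ^ s * j : ℕ) : ℝ)) *
          ∏ l ∈ Finset.Icc 2 s, D (2 ^ s * j - 2 ^ s * j / 2 ^ (l - 1) - c2) ^ bdnW κ s l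
        ≤ max C 0 * (2:ℝ) ^ ((ε + L / 2 ^ s) * ((2 ^ s * j : ℕ) : ℝ)) *
          ∏ l ∈ Finset.Icc 2 s, D (2 ^ s * j - 2 ^ s * j / 2 ^ (l - 1) - c2) ^ bdnW κ s l :=
          mul_le_mul_of_nonneg_right (mul_le_mul_of_nonneg_right (le_max_left _ _) hx.le) h3
      _ ≤ max C 0 * (2:ℝ) ^ ((ε + L / 2 ^ s) * ((2 ^ s * j : ℕ) : ℝ)) *
          (Cη * (2:ℝ) ^ (bdnGam κ s * η * ((2 ^ s * j : ℕ) : ℝ))) :=
          mul_le_mul_of_nonneg_left h2 (mul_nonneg (le_max_right _ _) hx.le)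
      _ = _ := by ring
  have hbase : ∀ j < max b j0, D (2 ^ s * j) ≤
      max (2 * (max C 0 * Cη)) ((2:ℝ) ^ (η0 * ((2 ^ s * max b j0 : ℕ) : ℝ))) := by
    intro j hj
    refine ((htriv _).trans ?_).trans (le_max_right _ _)
    refine Real.rpow_le_rpow_of_exponent_le (by norm_num) (mul_le_mul_of_nonneg_left ?_ hη0)
    exact_mod_cast Nat.mul_le_mul_left _ hj.le
  have hlin := bdn_lin_rec (E := fun j => D (2 ^ s * j)) (N := 2 ^ s) (b := b) (J0 := max b j0)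
    (Aa := A (2 ^ s * b - c)) (G := max (2 * (max C 0 * Cη)) ((2:ℝ) ^ (η0 * ((2 ^ s * max b j0 : ℕ) : ℝ))))
    (θ := θ) (P := max C 0 * Cη) hθ.le (hA0 _) hAa hb1 (le_max_left _ _) (le_max_left _ _) hP0 hbase hrec'
  generalize max (2 * (max C 0 * Cη)) ((2:ℝ) ^ (η0 * ((2 ^ s * max b j0 : ℕ) : ℝ))) = G at hlin
  have hG0 : 0 ≤ G := by
    have h1 := hlin 0
    have h2 := hD0 (2 ^ s * 0)
    simp only [Nat.cast_zero, mul_zero, Real.rpow_zero, mul_one] at h1 h2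
    linarith
  refine bdn_ex_of_le (C := max C0 0 * G * (2:ℝ) ^ (η0 * ((2 ^ s : ℕ) : ℝ))) hθ.le fun m => ?_
  have hm : 2 ^ s * (m / 2 ^ s) + m % 2 ^ s = m := Nat.div_add_mod m (2 ^ s)
  have h1 := hsub (2 ^ s * (m / 2 ^ s)) (m % 2 ^ s)
  rw [hm] at h1
  have h2 : D (2 ^ s * (m / 2 ^ s)) ≤ G * (2:ℝ) ^ (θ * (m:ℝ)) := by
    refine (hlin (m / 2 ^ s)).trans (mul_le_mul_of_nonneg_left ?_ hG0)
    refine Real.rpow_le_rpow_of_exponent_le (by norm_num) (mul_le_mul_of_nonneg_left ?_ hθ.le)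
    exact_mod_cast Nat.mul_div_le m (2 ^ s)
  have h3 : D (m % 2 ^ s) ≤ (2:ℝ) ^ (η0 * ((2 ^ s : ℕ) : ℝ)) := by
    refine (htriv _).trans ?_
    refine Real.rpow_le_rpow_of_exponent_le (by norm_num) (mul_le_mul_of_nonneg_left ?_ hη0)
    exact_mod_cast (Nat.mod_lt m (by positivity : 0 < 2 ^ s)).le
  have hx : 0 < (2:ℝ) ^ (θ * (m:ℝ)) := by positivity
  calc D m ≤ C0 * D (2 ^ s * (m / 2 ^ s)) * D (m % 2 ^ s) := h1
    _ ≤ max C0 0 * D (2 ^ s * (m / 2 ^ s)) * D (m % 2 ^ s) :=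
        mul_le_mul_of_nonneg_right (mul_le_mul_of_nonneg_right (le_max_left _ _) (hD0 _)) (hD0 _)
    _ ≤ max C0 0 * (G * (2:ℝ) ^ (θ * (m:ℝ))) * (2:ℝ) ^ (η0 * ((2 ^ s : ℕ) : ℝ)) :=
        mul_le_mul (mul_le_mul_of_nonneg_left h2 (le_max_right _ _)) h3 (hD0 _)
          (mul_nonneg (le_max_right _ _) (mul_nonneg hG0 hx.le))
    _ = _ := by ring

/-- **U10**.   PLAN: `S := {η | BdnEx D η}` contains `η0`, bounded below by `0`; `η* := sInf S ≥ 0`.  `bdn_step` + `csInf_le`: `η* ≤ ε + L/2^s + γ_s η` for all `η ∈ S`, `ε > 0`; with `exists_lt_of_csInf_lt` and `0 ≤ γ_s ≤ 1`: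
`η* ≤ L/2^s + γ_s η*`; `bdn_gam_le`: `η* κ^(s-1) ≤ L/2^s`, i.e. `η* (2κ)^n ≤ L` for all `n`; `2κ > 1` (`tendsto_pow_atTop_atTop_of_one_lt` / `one_add_mul_le_pow`) gives `η* = 0`; then `η < ε` in `S` and `bdn_ex_mono`. -/
theorem bdn_main (D A : ℕ → ℝ) (η0 κ L C0 : ℝ) (c c2 a0 : ℕ) (hD0 : ∀ m, 0 ≤ D m) (hη0 : 0 ≤ η0) (htriv : ∀ m : ℕ, D m ≤ (2:ℝ) ^ (η0 * m))
    (hκ : 1 / 2 < κ) (hκ1 : κ ≤ 1) (hL : 0 ≤ L) (hsub : ∀ m n, D (m + n) ≤ C0 * D m * D n) (hA0 : ∀ a, 0 ≤ A a)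
    (hA : ∀ ε : ℝ, 0 < ε → ∃ C : ℝ, ∀ a : ℕ, A a ≤ C * (2:ℝ) ^ (ε * a))
    (hrec : ∀ s : ℕ, 1 ≤ s → ∀ ε : ℝ, 0 < ε → ∀ a ≥ a0, ∃ (C : ℝ) (j0 : ℕ), ∀ j ≥ j0,
      D (2 ^ s * j) ≤ A a * D (2 ^ s * j - a - c) + C * (2:ℝ) ^ ((ε + L / 2 ^ s) * ((2 ^ s * j : ℕ) : ℝ))
        * ∏ l ∈ Finset.Icc 2 s, D (2 ^ s * j - 2 ^ s * j / 2 ^ (l - 1) - c2) ^ bdnW κ s l) :
    ∀ ε : ℝ, 0 < ε → ∃ C : ℝ, ∀ m : ℕ, D m ≤ C * (2:ℝ) ^ (ε * m) := by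
  have hκ0 : 0 ≤ κ := by linarith
  have hmem0 : η0 ∈ {η | BdnEx D η} := bdn_ex_of_le (C := 1) hη0 fun m => by
    rw [one_mul]
    exact htriv m
  have hne : ({η | BdnEx D η} : Set ℝ).Nonempty := ⟨η0, hmem0⟩
  have hbdd : BddBelow {η | BdnEx D η} := ⟨0, fun η hη => hη.1⟩
  have hstar0 : 0 ≤ sInf {η | BdnEx D η} := le_csInf hne fun η hη => hη.1
  generalize hstar : sInf {η | BdnEx D η} = ηs at hstar0
  have hstep : ∀ s : ℕ, 1 ≤ s → ηs ≤ L / 2 ^ s + bdnGam κ s * ηs := by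
    intro s hs
    refine le_of_forall_pos_le_add fun ε hε => ?_
    obtain ⟨η, hη, hlt⟩ := exists_lt_of_csInf_lt hne (by rw [hstar]; linarith : sInf {η | BdnEx D η} < ηs + ε / 2)
    have h1 : BdnEx D (ε / 2 + L / 2 ^ s + bdnGam κ s * η) :=
      bdn_step D A η0 κ L C0 c c2 a0 hD0 hη0 htriv hκ0 hκ1 hL hsub hA0 hA s hs (hrec s hs) hη (by positivity)
    have h2 : ηs ≤ ε / 2 + L / 2 ^ s + bdnGam κ s * η := by
      rw [← hstar]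
      exact csInf_le hbdd h1
    have h3 := bdn_gam_nonneg hκ0 hκ1 s
    have h4 : bdnGam κ s ≤ 1 := by
      have := bdn_gam_le hκ0 hκ1 s hs
      have := pow_nonneg hκ0 (s - 1)
      linarith
    have h5 : bdnGam κ s * η ≤ bdnGam κ s * (ηs + ε / 2) := mul_le_mul_of_nonneg_left hlt.le h3
    have h6 : bdnGam κ s * (ε / 2) ≤ 1 * (ε / 2) := mul_le_mul_of_nonneg_right h4 (by positivity)
    nlinarith [h2, h5, h6]
  have hpow : ∀ n : ℕ, ηs * (2 * κ) ^ n ≤ L := by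
    intro n
    have h1 := hstep (n + 1) (by omega)
    have h2 := bdn_gam_le hκ0 hκ1 (n + 1) (by omega)
    simp only [Nat.add_sub_cancel] at h2
    have h3 : bdnGam κ (n + 1) * ηs ≤ (1 - κ ^ n) * ηs := mul_le_mul_of_nonneg_right h2 hstar0
    have h4 : ηs * κ ^ n ≤ L / 2 ^ (n + 1) := by nlinarith [h1, h3]
    have h5 : (0:ℝ) < 2 ^ n := by positivity
    have h6 : ηs * κ ^ n * 2 ^ n ≤ L / 2 ^ (n + 1) * 2 ^ n := mul_le_mul_of_nonneg_right h4 h5.le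
    have h7 : L / 2 ^ (n + 1) * 2 ^ n = L / 2 := by
      rw [pow_succ]
      field_simp
    rw [mul_pow]
    rw [h7] at h6
    nlinarith [h6]
  have hzero : ηs = 0 := by
    by_contra hne0
    have hpos : 0 < ηs := lt_of_le_of_ne hstar0 (Ne.symm hne0)
    obtain ⟨n, hn⟩ := pow_unbounded_of_one_lt (L / ηs) (by linarith : (1:ℝ) < 2 * κ)
    have h1 := hpow n
    rw [div_lt_iff₀ hpos] at hn
    linarith
  intro ε hε
  obtain ⟨η, hη, hlt⟩ := exists_lt_of_csInf_lt hne (by rw [hstar, hzero]; exact hε : sInf {η | BdnEx D η} < ε)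
  obtain ⟨_, C, _, hC⟩ := bdn_ex_mono hη hlt.le
  exact ⟨C, hC⟩

/-- the `sInf` argument of `bdn_main`, from the step property alone -/
theorem bdn_inf (D : ℕ → ℝ) (η0 κ L : ℝ) (hκ : 1 / 2 < κ) (hκ1 : κ ≤ 1) (hmem0 : BdnEx D η0)
    (hst : ∀ s : ℕ, 1 ≤ s → ∀ η : ℝ, BdnEx D η → ∀ ε : ℝ, 0 < ε → BdnEx D (ε + L / 2 ^ s + bdnGam κ s * η)) :
    ∀ ε : ℝ, 0 < ε → ∃ C : ℝ, ∀ m : ℕ, D m ≤ C * (2:ℝ) ^ (ε * m) := by
  have hκ0 : 0 ≤ κ := by linarith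
  have hne : ({η | BdnEx D η} : Set ℝ).Nonempty := ⟨η0, hmem0⟩
  have hbdd : BddBelow {η | BdnEx D η} := ⟨0, fun η hη => hη.1⟩
  have hstar0 : 0 ≤ sInf {η | BdnEx D η} := le_csInf hne fun η hη => hη.1
  generalize hstar : sInf {η | BdnEx D η} = ηs at hstar0
  have hstep : ∀ s : ℕ, 1 ≤ s → ηs ≤ L / 2 ^ s + bdnGam κ s * ηs := by
    intro s hs
    refine le_of_forall_pos_le_add fun ε hε => ?_
    obtain ⟨η, hη, hlt⟩ := exists_lt_of_csInf_lt hne (by rw [hstar]; linarith : sInf {η | BdnEx D η} < ηs + ε / 2)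
    have h1 : BdnEx D (ε / 2 + L / 2 ^ s + bdnGam κ s * η) := hst s hs η hη (ε / 2) (by positivity)
    have h2 : ηs ≤ ε / 2 + L / 2 ^ s + bdnGam κ s * η := by
      rw [← hstar]
      exact csInf_le hbdd h1
    have h3 := bdn_gam_nonneg hκ0 hκ1 s
    have h4 : bdnGam κ s ≤ 1 := by
      have := bdn_gam_le hκ0 hκ1 s hs
      have := pow_nonneg hκ0 (s - 1)
      linarith
    have h5 : bdnGam κ s * η ≤ bdnGam κ s * (ηs + ε / 2) := mul_le_mul_of_nonneg_left hlt.le h3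
    have h6 : bdnGam κ s * (ε / 2) ≤ 1 * (ε / 2) := mul_le_mul_of_nonneg_right h4 (by positivity)
    nlinarith [h2, h5, h6]
  have hpow : ∀ n : ℕ, ηs * (2 * κ) ^ n ≤ L := by
    intro n
    have h1 := hstep (n + 1) (by omega)
    have h2 := bdn_gam_le hκ0 hκ1 (n + 1) (by omega)
    simp only [Nat.add_sub_cancel] at h2
    have h3 : bdnGam κ (n + 1) * ηs ≤ (1 - κ ^ n) * ηs := mul_le_mul_of_nonneg_right h2 hstar0
    have h4 : ηs * κ ^ n ≤ L / 2 ^ (n + 1) := by nlinarith [h1, h3]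
    have h5 : (0:ℝ) < 2 ^ n := by positivity
    have h6 : ηs * κ ^ n * 2 ^ n ≤ L / 2 ^ (n + 1) * 2 ^ n := mul_le_mul_of_nonneg_right h4 h5.le
    have h7 : L / 2 ^ (n + 1) * 2 ^ n = L / 2 := by
      rw [pow_succ]
      field_simp
    have hL : 0 ≤ L := by
      have h8 : 0 ≤ ηs * κ ^ n * 2 ^ n := mul_nonneg (mul_nonneg hstar0 (pow_nonneg hκ0 n)) h5.le
      rw [h7] at h6
      linarith
    rw [mul_pow]
    rw [h7] at h6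
    nlinarith [h6]
  have hzero : ηs = 0 := by
    by_contra hne0
    have hpos : 0 < ηs := lt_of_le_of_ne hstar0 (Ne.symm hne0)
    obtain ⟨n, hn⟩ := pow_unbounded_of_one_lt (L / ηs) (by linarith : (1:ℝ) < 2 * κ)
    have h1 := hpow n
    rw [div_lt_iff₀ hpos] at hn
    linarith
  intro ε hε
  obtain ⟨η, hη, hlt⟩ := exists_lt_of_csInf_lt hne (by rw [hstar, hzero]; exact hε : sInf {η | BdnEx D η} < ε)
  obtain ⟨_, C, _, hC⟩ := bdn_ex_mono hη hlt.le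
  exact ⟨C, hC⟩

/-- **U10, general form** (request of helper203): constant `C1` in the trivial bound; the narrow constant `A s a` may depend on `s`.
PLAN: either copy `bdn_step` / `bdn_main` with `C1` (the trivial bound is used only for the base case `j < J0` and for the remainder `m % 2^s`), or normalise `D' m := D m / max C1 1`
(`hsub` with `C0 * max C1 1`, `hrec` with `C * (max C1 1)^(∑ w) / max C1 1`, `Real.mul_rpow`, `Finset.prod_mul_distrib`) and cite `bdn_step` for `A s`, then repeat the `sInf` argument of `bdn_main`. -/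
theorem bdn_main' (D : ℕ → ℝ) (A : ℕ → ℕ → ℝ) (η0 κ L C0 C1 : ℝ) (c c2 a0 : ℕ) (hD0 : ∀ m, 0 ≤ D m) (hη0 : 0 ≤ η0)
    (htriv : ∀ m : ℕ, D m ≤ C1 * (2:ℝ) ^ (η0 * m))
    (hκ : 1 / 2 < κ) (hκ1 : κ ≤ 1) (hL : 0 ≤ L) (hsub : ∀ m n, D (m + n) ≤ C0 * D m * D n) (hA0 : ∀ s a, 0 ≤ A s a)
    (hA : ∀ s : ℕ, ∀ ε : ℝ, 0 < ε → ∃ C : ℝ, ∀ a : ℕ, A s a ≤ C * (2:ℝ) ^ (ε * a))
    (hrec : ∀ s : ℕ, 1 ≤ s → ∀ ε : ℝ, 0 < ε → ∀ a ≥ a0, ∃ (C : ℝ) (j0 : ℕ), ∀ j ≥ j0,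
      D (2 ^ s * j) ≤ A s a * D (2 ^ s * j - a - c) + C * (2:ℝ) ^ ((ε + L / 2 ^ s) * ((2 ^ s * j : ℕ) : ℝ))
        * ∏ l ∈ Finset.Icc 2 s, D (2 ^ s * j - 2 ^ s * j / 2 ^ (l - 1) - c2) ^ bdnW κ s l) :
    ∀ ε : ℝ, 0 < ε → ∃ C : ℝ, ∀ m : ℕ, D m ≤ C * (2:ℝ) ^ (ε * m) := by
  have hκ0 : 0 ≤ κ := by linarith
  obtain ⟨K, hKdef⟩ : ∃ K, K = max C1 1 := ⟨_, rfl⟩
  have hK : 1 ≤ K := hKdef ▸ le_max_right _ _
  have hK0 : 0 < K := by linarith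
  have hD'0 : ∀ m, 0 ≤ D m / K := fun m => div_nonneg (hD0 m) hK0.le
  have hDK : ∀ m, D m = K * (D m / K) := fun m => (mul_div_cancel₀ _ hK0.ne').symm
  have htriv' : ∀ m : ℕ, D m / K ≤ (2:ℝ) ^ (η0 * m) := by
    intro m
    rw [div_le_iff₀ hK0]
    refine (htriv m).trans ?_
    rw [mul_comm]
    exact mul_le_mul_of_nonneg_left (hKdef ▸ le_max_left _ _) (by positivity)
  have hsub' : ∀ m n, D (m + n) / K ≤ C0 * K * (D m / K) * (D n / K) := by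
    intro m n
    rw [div_le_iff₀ hK0]
    refine (hsub m n).trans (le_of_eq ?_)
    field_simp
  have hrec' : ∀ s : ℕ, 1 ≤ s → ∀ ε : ℝ, 0 < ε → ∀ a ≥ a0, ∃ (C : ℝ) (j0 : ℕ), ∀ j ≥ j0,
      D (2 ^ s * j) / K ≤ A s a * (D (2 ^ s * j - a - c) / K) + C * (2:ℝ) ^ ((ε + L / 2 ^ s) * ((2 ^ s * j : ℕ) : ℝ))
        * ∏ l ∈ Finset.Icc 2 s, (D (2 ^ s * j - 2 ^ s * j / 2 ^ (l - 1) - c2) / K) ^ bdnW κ s l := by
    intro s hs ε hε a ha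
    obtain ⟨C, j0, hC⟩ := hrec s hs ε hε a ha
    refine ⟨C * K ^ (∑ l ∈ Finset.Icc 2 s, bdnW κ s l) / K, j0, fun j hj => ?_⟩
    have h1 := hC j hj
    have h2 : ∏ l ∈ Finset.Icc 2 s, D (2 ^ s * j - 2 ^ s * j / 2 ^ (l - 1) - c2) ^ bdnW κ s l
        = K ^ (∑ l ∈ Finset.Icc 2 s, bdnW κ s l)
          * ∏ l ∈ Finset.Icc 2 s, (D (2 ^ s * j - 2 ^ s * j / 2 ^ (l - 1) - c2) / K) ^ bdnW κ s l := by
      rw [Real.rpow_sum_of_pos hK0, ← Finset.prod_mul_distrib]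
      refine Finset.prod_congr rfl fun l _ => ?_
      rw [← Real.mul_rpow hK0.le (hD'0 _), ← hDK]
    rw [h2] at h1
    rw [div_le_iff₀ hK0]
    refine h1.trans (le_of_eq ?_)
    field_simp
  have hmem0 : BdnEx (fun m => D m / K) η0 := bdn_ex_of_le (C := 1) hη0 fun m => by
    rw [one_mul]
    exact htriv' m
  have hmain := bdn_inf (fun m => D m / K) η0 κ L hκ hκ1 hmem0 fun s hs η hη ε hε =>
    bdn_step (fun m => D m / K) (A s) η0 κ L (C0 * K) c c2 a0 hD'0 hη0 htriv' hκ0 hκ1 hL hsub' (hA0 s) (hA s) s hs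
      (hrec' s hs) hη hε
  intro ε hε
  obtain ⟨C, hC⟩ := hmain ε hε
  refine ⟨K * C, fun m => ?_⟩
  rw [hDK m, mul_assoc]
  exact mul_le_mul_of_nonneg_left (hC m) hK0.le

end

end Claimed.Agent.BD
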