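import Claimed.Agent.Lib.BD.Defs
import Claimed.Agent.Lib.BD.NumBoot

/-!
# Box BD: THE EXITS OF THE UNITS, as `def .. : Prop`   (captain helper203)

`Top.lean` proves `bd_main : 2 ≤ p → p k ≤ 2 (k+2) → ∀ η > 0, DecPow V p η` by induction on `k = finrank V` from these exits (consumers take them as hypotheses; the owners prove them).

| exit | owner | content |
| `decPow_trivial`, `DecLe.mul`, `Rob.scale`, `DecLe.mono_C` | U4, U5 (266, `Resc.lean`, `Wt.lean`) | trivial bound, submultiplicativity AT A FIXED PARAMETER `C ≥ max 2 3^k`, change of scale |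
| `bdg_Trans_or_slab_idx` | U8a (63, PROVED) | transverse `(k+1)`-tuple OR all points in a slab |
| `bdc_cyl` ⟹ `NarPow` | U8b (74, `Cyl.lean`) | families near a hyperplane: constant of the model hyperplane `W` |
| `BgStmt`  | U8c (203, `BG.lean`) | Bourgain-Guth step, with `η`-localised norms (so the narrow constant does not see the weight exponent `E`) |
| `IterStmt` | U9 (164) on U7 (291, 266) | bound of the multilinear constant |
| `CritStmt` | U11a (203, `Crit.lean`) | `p' < q` ⟹ `q` |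
| `bdn_main` | Num (281, PROVED) | numeric bootstrap |
The bootstrap is run for EVERY fixed parameter `C ≥ max 2 3^k` (`D m` = best constant at `ρ = 2^-m`): no change of parameter is needed inside.
-/

set_option autoImplicit false
open MeasureTheory Set
open scoped ENNReal NNReal RealInnerProductSpace

namespace Claimed.Agent.BD

noncomputable section

variable {V : Type} [NormedAddCommGroup V] [InnerProductSpace ℝ V] [FiniteDimensional ℝ V] [MeasurableSpace V] [BorelSpace V]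

/-- all points `u j`, `j ∈ s`, lie within `lam` of one affine hyperplane. -/
def NearHyp (lam : ℝ) {ι : Type} (s : Finset ι) (u : ι → V) : Prop :=
  ∃ n : V, ‖n‖ = 1 ∧ ∃ c : ℝ, ∀ j ∈ s, |inner ℝ n (u j) - c| ≤ lam

/-- the exponent `t = max (2, p k/(k+1))` of the ball inflation. -/
def bdT (k : ℕ) (p : ℝ) : ℝ := max 2 (p * k / (k + 1))

/-- `κ` with `1/t = κ/2 + (1-κ)/p`. -/
def bdKap (k : ℕ) (p : ℝ) : ℝ := if p * k ≤ 2 * (k + 1) then 1 else 2 / (k * (p - 2))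

variable (V) in
/-- global decoupling, constant `A`, of the robust families at scale `σ` whose centres are within `lam σ` of a hyperplane. -/
def NarLe (p C lam σ : ℝ) (A : ℝ≥0∞) : Prop :=
  ∀ (ι : Type) (s : Finset ι) (u : ι → V) (G : ι → V × ℝ → ℂ), Rob C σ s u G → NearHyp (lam * σ) s u →
    nm p (fun z => ∑ j ∈ s, G j z) ≤ A * (∑ j ∈ s, nm p (G j) ^ (2 : ℝ)) ^ (1 / 2 : ℝ)

variable (V) in
/-- the narrow constant is `O(σ^-ε)` (from `bdc_cyl` and the induction hypothesis). -/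
def NarPow (p : ℝ) : Prop :=
  ∀ C lam ε : ℝ, 0 < ε → ∃ CA : ℝ, ∀ σ : ℝ, 0 < σ → σ ≤ 1 → NarLe V p C lam σ (ENNReal.ofReal (CA * σ ^ (-ε)))

variable (V) in
/-- **U8c exit** (Bourgain-Guth step; file `BG.lean`): `N` only depends on `p, C, E, σ`. -/
def BgStmt (p C : ℝ) : Prop :=
  ∀ E σ : ℝ, (dd V : ℝ) < E → 0 < σ → σ ≤ 1 → ∃ N : ℝ, ∀ (ρ : ℝ) (A D1 M : ℝ≥0∞), 0 < ρ → 2 * ρ ≤ σ →
    NarLe V p (7 * (C + 1)) (2 ^ (Module.finrank ℝ V + 3)) σ A → DecLe V p C (ρ / σ) D1 → MDecLe V p C σ E (σ⁻¹ ^ 2) ρ M →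
    DecLe V p C ρ ((A + 1) * D1 + (ENNReal.ofReal N * M) ^ (1 / p))

variable (V) in
/-- **U9 exit** (`M = 2^s j`, `ρ = 2^-M`, levels `ρ_l = 2^-(M/2^(l-1))`, `l = 1..s`; `e l` = a decoupling constant at scale `ρ/ρ_l`). -/
def IterStmt (p C : ℝ) : Prop :=
  ∀ s : ℕ, 1 ≤ s → ∃ E : ℝ, (dd V : ℝ) < E ∧ ∀ ε ν R₀ : ℝ, 0 < ε → 0 < ν → 1 ≤ R₀ → ∃ (Cst : ℝ) (j0 : ℕ), ∀ j ≥ j0, ∀ e : ℕ → ℝ≥0∞,
    (∀ l ∈ Finset.Icc 2 s, DecLe V p C ((2 : ℝ) ^ (-((2 ^ s * j - 2 ^ s * j / 2 ^ (l - 1) : ℕ) : ℝ))) (e l)) →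
    MDecLe V p C ν E R₀ ((2 : ℝ) ^ (-((2 ^ s * j : ℕ) : ℝ)))
      ((ENNReal.ofReal (Cst * (2 : ℝ) ^ ((ε + (Module.finrank ℝ V : ℝ) / 2 ^ s) * ((2 ^ s * j : ℕ) : ℝ)))
        * ∏ l ∈ Finset.Icc 2 s, e l ^ bdnW (bdKap (Module.finrank ℝ V) p) s l) ^ p)

variable (V) in
/-- **U11a exit**: the endpoint from the smaller exponents. -/
def CritStmt (q : ℝ) : Prop :=
  2 < q → (∀ p : ℝ, 2 ≤ p → p < q → ∀ η : ℝ, 0 < η → DecPow V p η) → ∀ η : ℝ, 0 < η → DecPow V q η

/-- Stores the on-demand equation lemmas of the definitions above in THIS module (rule 6 hygiene). -/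
theorem bd_stmt_forced : True := by
  have := @NearHyp.eq_1
  have := @bdT.eq_1
  have := @bdKap.eq_1
  have := @NarLe.eq_1
  have := @NarPow.eq_1
  have := @BgStmt.eq_1
  have := @IterStmt.eq_1
  have := @CritStmt.eq_1
  trivial

end

end Claimed.Agent.BD
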