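import Claimed.Agent.Lib.BD.Resc
import Claimed.Agent.Lib.BD.GeoT
import Claimed.Agent.Lib.BD.Stmt

/-!
# Box BD, unit U8c: THE BOURGAIN-GUTH STEP   (helper203; PROVED from the leaves of `Wt`, `Loc`, `Resc`, `Ker`, `Abs` and from `GeoT`)

`bg_stmt : BgStmt V p C` for `k ≥ 1`, `p ≥ 2`, `C ≥ max 2 3^k`:
`Dec(ρ) ≤ (A + 1) Dec(ρ/σ) + (N M)^(1/p)`, `A` = GLOBAL constant of the families near a hyperplane at scale `σ` (parameter `7 (C+1)`), `M` = multilinear constant (`ν = σ`, radius `σ⁻²`).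
Coarse caps = net at scale `σ` (`exists_grp`).  All norms are localised by `η((· - z)/R)`, `R = σ⁻²`; at every centre `z` (`bgs_point`): either `k+1` transverse coarse caps are all `≥ max / N` (`bgs_num`, `bdg_Trans_or_slab_idx`),
or the large caps lie in a slab: `NarLe` for the localised family (`Rob.localize`).  Then `∫ dz` (`bgs_integrate`, `lintegral_ip_localize`, `ip_localize_le`, `abs_l2Lp`, `DecLe.group`).
-/

set_option autoImplicit false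
set_option linter.unusedSectionVars false
open MeasureTheory Set Metric
open scoped ENNReal NNReal

namespace Claimed.Agent.BD

/-- `X ≤ a i` for all `i` gives `X ≤ ∏ a i ^ (1/d)`. -/
theorem bgs_le_geom {d : ℕ} (hd : 0 < d) (X : ℝ≥0∞) (a : Fin d → ℝ≥0∞) (h : ∀ i, X ≤ a i) :
    X ≤ ∏ i, a i ^ (1 / (d : ℝ)) := by
  have hd' : (0 : ℝ) < d := by exact_mod_cast hd
  calc X = ∏ _i : Fin d, X ^ (1 / (d : ℝ)) := by
        rw [Finset.prod_const, Finset.card_univ, Fintype.card_fin, ← ENNReal.rpow_natCast, ← ENNReal.rpow_mul]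
        rw [one_div, inv_mul_cancel₀ hd'.ne', ENNReal.rpow_one]
    _ ≤ ∏ i, a i ^ (1 / (d : ℝ)) := Finset.prod_le_prod' fun i _ => ENNReal.rpow_le_rpow (h i) (by positivity)

/-- one term is dominated by the `ℓ²` sum. -/
theorem bgs_le_l2 {ι : Type} (S : Finset ι) (c : ι → ℝ≥0∞) {J : ι} (hJ : J ∈ S) :
    c J ≤ (∑ J ∈ S, c J ^ (2 : ℝ)) ^ (1 / 2 : ℝ) := by
  calc c J = (c J ^ (2 : ℝ)) ^ (1 / 2 : ℝ) := by
        rw [← ENNReal.rpow_mul]; norm_num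
    _ ≤ _ := ENNReal.rpow_le_rpow (Finset.single_le_sum (f := fun J => c J ^ (2 : ℝ)) (fun _ _ => zero_le) hJ) (by norm_num)

open scoped Classical in
/-- **the Bourgain-Guth dichotomy, abstract form.** -/
theorem bgs_num {ι : Type} (S : Finset ι) (c : ι → ℝ≥0∞) (X : ℝ≥0∞) (XB : Finset ι → ℝ≥0∞) (A : ℝ≥0∞) {d : ℕ} (hd : 0 < d)
    (T : (Fin d → ι) → Prop) (Nar : Finset ι → Prop)
    (hsplit : ∀ B ⊆ S, X ≤ XB B + ∑ J ∈ S \ B, c J) (h0 : XB ∅ = 0)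
    (hnar : ∀ B ⊆ S, Nar B → XB B ≤ A * (∑ J ∈ B, c J ^ (2 : ℝ)) ^ (1 / 2 : ℝ))
    (hdich : ∀ B ⊆ S, (∃ j : Fin d → ι, (∀ i, j i ∈ B) ∧ T j) ∨ Nar B) :
    (∃ j : Fin d → ι, (∀ i, j i ∈ S) ∧ T j ∧ X ≤ (S.card : ℝ≥0∞) ^ 2 * ∏ i, c (j i) ^ (1 / (d : ℝ))) ∨
      X ≤ (A + 1) * (∑ J ∈ S, c J ^ (2 : ℝ)) ^ (1 / 2 : ℝ) := by
  rcases S.eq_empty_or_nonempty with rfl | hS
  · right
    have := hsplit ∅ (Finset.Subset.refl _)
    rw [h0] at this
    simpa using this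
  obtain ⟨Js, hJs, hmax⟩ := Finset.exists_max_image S c hS
  set N : ℝ≥0∞ := (S.card : ℝ≥0∞) with hN
  have hN0 : N ≠ 0 := by
    rw [hN]; exact_mod_cast (Finset.card_pos.2 hS).ne'
  have hNt : N ≠ ∞ := ENNReal.natCast_ne_top _
  set B := S.filter (fun J => c Js ≤ N * c J) with hB
  have hBS : B ⊆ S := Finset.filter_subset _ _
  have hrest : ∑ J ∈ S \ B, c J ≤ c Js := by
    have h1 : N * ∑ J ∈ S \ B, c J ≤ N * c Js := by
      rw [Finset.mul_sum]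
      calc ∑ J ∈ S \ B, N * c J ≤ ∑ _J ∈ S \ B, c Js := by
            refine Finset.sum_le_sum fun J hJ => ?_
            rw [Finset.mem_sdiff] at hJ
            have : ¬ c Js ≤ N * c J := fun h => hJ.2 (Finset.mem_filter.2 ⟨hJ.1, h⟩)
            exact (not_le.1 this).le
        _ = ((S \ B).card : ℝ≥0∞) * c Js := by rw [Finset.sum_const, nsmul_eq_mul]
        _ ≤ N * c Js := by
            have : (S \ B).card ≤ S.card := Finset.card_le_card Finset.sdiff_subset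
            have h' : ((S \ B).card : ℝ≥0∞) ≤ N := by rw [hN]; exact_mod_cast this
            gcongr
    exact (ENNReal.mul_le_mul_iff_right hN0 hNt).1 h1
  rcases hdich B hBS with ⟨j, hj, hT⟩ | hNar
  · left
    refine ⟨j, fun i => hBS (hj i), hT, ?_⟩
    have hX : X ≤ N * c Js := by
      have := hsplit ∅ (Finset.empty_subset _)
      rw [h0, zero_add, Finset.sdiff_empty] at this
      calc X ≤ ∑ J ∈ S, c J := this
        _ ≤ ∑ _J ∈ S, c Js := Finset.sum_le_sum fun J hJ => hmax J hJ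
        _ = N * c Js := by rw [Finset.sum_const, nsmul_eq_mul]
    have h2 : ∀ i, X ≤ N ^ 2 * c (j i) := fun i => by
      have := (Finset.mem_filter.1 (hj i)).2
      calc X ≤ N * c Js := hX
        _ ≤ N * (N * c (j i)) := by gcongr
        _ = N ^ 2 * c (j i) := by ring
    have h3 := bgs_le_geom hd X _ h2
    have hd' : (0 : ℝ) < d := by exact_mod_cast hd
    calc X ≤ ∏ i, (N ^ 2 * c (j i)) ^ (1 / (d : ℝ)) := h3
      _ = ∏ i, ((N ^ 2) ^ (1 / (d : ℝ)) * c (j i) ^ (1 / (d : ℝ))) := by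
          refine Finset.prod_congr rfl fun i _ => ENNReal.mul_rpow_of_nonneg _ _ (by positivity)
      _ = N ^ 2 * ∏ i, c (j i) ^ (1 / (d : ℝ)) := by
          rw [Finset.prod_mul_distrib, Finset.prod_const, Finset.card_univ, Fintype.card_fin, ← ENNReal.rpow_natCast (_ ^ (1 / (d : ℝ))), ← ENNReal.rpow_mul,
            one_div, inv_mul_cancel₀ hd'.ne', ENNReal.rpow_one]
  · right
    calc X ≤ XB B + ∑ J ∈ S \ B, c J := hsplit B hBS
      _ ≤ A * (∑ J ∈ B, c J ^ (2 : ℝ)) ^ (1 / 2 : ℝ) + c Js := add_le_add (hnar B hBS hNar) hrest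
      _ ≤ A * (∑ J ∈ S, c J ^ (2 : ℝ)) ^ (1 / 2 : ℝ) + (∑ J ∈ S, c J ^ (2 : ℝ)) ^ (1 / 2 : ℝ) := by
          refine add_le_add ?_ (bgs_le_l2 S c hJs)
          gcongr
      _ = _ := by ring

variable {V : Type} [NormedAddCommGroup V] [InnerProductSpace ℝ V] [FiniteDimensional ℝ V] [MeasurableSpace V] [BorelSpace V]

theorem bgs_nm_add_le {p : ℝ} (hp : 1 ≤ p) {F G : V × ℝ → ℂ} (hF : Continuous F) (hG : Continuous G) :
    nm p (fun z => F z + G z) ≤ nm p F + nm p G := by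
  unfold nm ip
  calc (∫⁻ z, ‖F z + G z‖ₑ ^ p) ^ (1 / p) ≤ (∫⁻ z, ((fun z => ‖F z‖ₑ) + fun z => ‖G z‖ₑ) z ^ p) ^ (1 / p) := by
        gcongr with z
        exact enorm_add_le _ _
    _ ≤ _ := ENNReal.lintegral_Lp_add_le hF.enorm.aemeasurable hG.enorm.aemeasurable hp

theorem bgs_nm_rpow {p : ℝ} (hp : 0 < p) (F : V × ℝ → ℂ) : nm p F ^ p = ip p F := by
  unfold nm
  rw [← ENNReal.rpow_mul, one_div, inv_mul_cancel₀ hp.ne', ENNReal.rpow_one]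

theorem bgs_nm_sq {p : ℝ} (F : V × ℝ → ℂ) : nm p F ^ (2 : ℝ) = ip p F ^ (2 / p) := by
  unfold nm
  rw [← ENNReal.rpow_mul]
  congr 1
  ring

/-- measurability in the centre of the localised norm. -/
theorem bgs_meas_ip {η : V × ℝ → ℂ} (hc : Continuous η) (p R : ℝ) {F : V × ℝ → ℂ} (hF : Continuous F) :
    Measurable fun z => ip p (fun y => F y * η (R⁻¹ • (y - z))) := by
  unfold ip
  have h : Measurable (Function.uncurry fun (z y : V × ℝ) => ‖F y * η (R⁻¹ • (y - z))‖ₑ ^ p) := by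
    have : Continuous (Function.uncurry fun (z y : V × ℝ) => F y * η (R⁻¹ • (y - z))) := by
      unfold Function.uncurry
      fun_prop
    exact this.enorm.measurable.pow_const _
  exact h.lintegral_prod_right'


open scoped Classical in
/-- **the dichotomy at a fixed centre `z`** for the coarse family `(S, u, G)`, norms localised by `η((· - z)/R)`, `R = σ⁻²`. -/
theorem bgs_point (hk : 1 ≤ Module.finrank ℝ V) {p C σ : ℝ} (hp : 2 ≤ p) (hC : 0 ≤ C) (hσ : 0 < σ) (hσ1 : σ ≤ 1) {A : ℝ≥0∞}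
    (hA : NarLe V p (7 * (C + 1)) (2 ^ (Module.finrank ℝ V + 3)) σ A) {η : V × ℝ → ℂ} (hη : FS (closedBall 0 1) η)
    {ι : Type} {S : Finset ι} {u : ι → V} {G : ι → V × ℝ → ℂ} (hG : Rob (C + 1) σ S u G) (z : V × ℝ) :
    (∃ j : Fin (dd V) → ι, (∀ i, j i ∈ S) ∧ Trans (2 * σ) (fun i => u (j i)) ∧
        nm p (fun y => ∑ J ∈ S, G J y * η ((σ⁻¹ ^ 2)⁻¹ • (y - z))) ≤
          (S.card : ℝ≥0∞) ^ 2 * ∏ i, nm p (fun y => G (j i) y * η ((σ⁻¹ ^ 2)⁻¹ • (y - z))) ^ (1 / ((dd V : ℕ) : ℝ))) ∨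
      nm p (fun y => ∑ J ∈ S, G J y * η ((σ⁻¹ ^ 2)⁻¹ • (y - z))) ≤
        (A + 1) * (∑ J ∈ S, nm p (fun y => G J y * η ((σ⁻¹ ^ 2)⁻¹ • (y - z))) ^ (2 : ℝ)) ^ (1 / 2 : ℝ) := by
  have hηc : Continuous η := hη.continuous
  have hGc : ∀ J ∈ S, Continuous fun y => G J y * η ((σ⁻¹ ^ 2)⁻¹ • (y - z)) := fun J hJ => by
    have := (hG.fs J hJ).continuous
    fun_prop
  have hp1 : 1 ≤ p := by linarith
  refine bgs_num S (fun J => nm p (fun y => G J y * η ((σ⁻¹ ^ 2)⁻¹ • (y - z)))) _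
    (fun B => nm p (fun y => ∑ J ∈ B, G J y * η ((σ⁻¹ ^ 2)⁻¹ • (y - z)))) A (d := dd V) (Nat.succ_pos _)
    (fun j => Trans (2 * σ) (fun i => u (j i))) (fun B => NearHyp (2 ^ (Module.finrank ℝ V + 3) * σ) B u) ?_ ?_ ?_ ?_
  · intro B hB
    have e : (fun y => ∑ J ∈ S, G J y * η ((σ⁻¹ ^ 2)⁻¹ • (y - z)))
        = fun y => (∑ J ∈ B, G J y * η ((σ⁻¹ ^ 2)⁻¹ • (y - z))) + ∑ J ∈ S \ B, G J y * η ((σ⁻¹ ^ 2)⁻¹ • (y - z)) := by
      funext y
      rw [add_comm, Finset.sum_sdiff hB]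
    rw [e]
    refine (bgs_nm_add_le hp1 (continuous_finsetSum _ fun J hJ => hGc J (hB hJ))
      (continuous_finsetSum _ fun J hJ => hGc J (Finset.sdiff_subset hJ))).trans ?_
    gcongr
    exact nm_sum_le hp1 _ _ fun J hJ => hGc J (Finset.sdiff_subset hJ)
  · simp [nm, ip, (by linarith : 0 < p)]
  · intro B hB hN
    exact hA ι B u _ ((hG.subset hB).localize (by linarith) hσ hσ1 le_rfl hη z) hN
  · intro B _
    have hlam : (0 : ℝ) < 2 ^ (Module.finrank ℝ V + 3) * σ := by positivity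
    rcases bdg_Trans_or_slab_idx (Nat.lt_of_lt_of_le Nat.zero_lt_one hk) B u hlam with ⟨a, ha, hT⟩ | ⟨n, x0, hn, h⟩
    · left
      refine ⟨a, ha, ?_⟩
      have e : (2 : ℝ) ^ (Module.finrank ℝ V + 3) * σ / 2 ^ (Module.finrank ℝ V + 2) = 2 * σ := by
        rw [pow_succ]
        field_simp
      rw [e] at hT
      exact hT
    · right
      refine ⟨n, hn, inner ℝ n x0, fun j hj => ?_⟩
      rw [← inner_sub_right, real_inner_comm]
      exact (h j hj).le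

open scoped Classical in
/-- the transverse tuples of coarse caps. -/
noncomputable def bgT (σ : ℝ) {ι : Type} (S : Finset ι) (u : ι → V) : Finset (Fin (dd V) → ι) :=
  (Fintype.piFinset fun _ : Fin (dd V) => S).filter fun j => Trans (2 * σ) (fun i => u (j i))

open scoped Classical in
theorem mem_bgT {σ : ℝ} {ι : Type} {S : Finset ι} {u : ι → V} {j : Fin (dd V) → ι} :
    j ∈ bgT σ S u ↔ (∀ i, j i ∈ S) ∧ Trans (2 * σ) (fun i => u (j i)) := by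
  unfold bgT
  rw [Finset.mem_filter, Fintype.mem_piFinset]

/-- passage to `p`-th powers (abstract). -/
theorem bgs_pow_alt {ι κ : Type} {d : ℕ} {p : ℝ} (hp0 : 0 < p) (S : Finset ι) (𝒯 : Finset κ) (f : κ → Fin d → ι) (c : ι → ℝ≥0∞) (X N A : ℝ≥0∞)
    (h : (∃ j ∈ 𝒯, X ≤ N * ∏ i, c (f j i) ^ (1 / (d : ℝ))) ∨ X ≤ (A + 1) * (∑ J ∈ S, c J ^ (2 : ℝ)) ^ (1 / 2 : ℝ)) :
    X ^ p ≤ N ^ p * ∑ j ∈ 𝒯, ∏ i, (c (f j i) ^ p) ^ (1 / (d : ℝ)) + (A + 1) ^ p * (∑ J ∈ S, (c J ^ p) ^ (2 / p)) ^ (p / 2) := by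
  rcases h with ⟨j, hj, h⟩ | h
  · refine le_trans ?_ le_self_add
    calc X ^ p ≤ (N * ∏ i, c (f j i) ^ (1 / (d : ℝ))) ^ p := ENNReal.rpow_le_rpow h hp0.le
      _ = N ^ p * ∏ i, (c (f j i) ^ p) ^ (1 / (d : ℝ)) := by
          rw [ENNReal.mul_rpow_of_nonneg _ _ hp0.le, ← ENNReal.prod_rpow_of_nonneg hp0.le]
          congr 1
          refine Finset.prod_congr rfl fun i _ => ?_
          rw [← ENNReal.rpow_mul, ← ENNReal.rpow_mul, mul_comm]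
      _ ≤ _ := by
          gcongr
          exact Finset.single_le_sum (f := fun j => ∏ i, (c (f j i) ^ p) ^ (1 / (d : ℝ))) (fun _ _ => zero_le) hj
  · refine le_trans ?_ le_add_self
    calc X ^ p ≤ ((A + 1) * (∑ J ∈ S, c J ^ (2 : ℝ)) ^ (1 / 2 : ℝ)) ^ p := ENNReal.rpow_le_rpow h hp0.le
      _ = _ := by
          rw [ENNReal.mul_rpow_of_nonneg _ _ hp0.le, ← ENNReal.rpow_mul]
          congr 2
          · refine Finset.sum_congr rfl fun J _ => ?_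
            rw [← ENNReal.rpow_mul]
            congr 1
            field_simp
          · ring

/-- the dichotomy in `p`-th powers, as ONE inequality. -/
theorem bgs_point_pow (hk : 1 ≤ Module.finrank ℝ V) {p C σ : ℝ} (hp : 2 ≤ p) (hC : 0 ≤ C) (hσ : 0 < σ) (hσ1 : σ ≤ 1) {A : ℝ≥0∞}
    (hA : NarLe V p (7 * (C + 1)) (2 ^ (Module.finrank ℝ V + 3)) σ A) {η : V × ℝ → ℂ} (hη : FS (closedBall 0 1) η)
    {ι : Type} {S : Finset ι} {u : ι → V} {G : ι → V × ℝ → ℂ} (hG : Rob (C + 1) σ S u G) (z : V × ℝ) :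
    ip p (fun y => ∑ J ∈ S, G J y * η ((σ⁻¹ ^ 2)⁻¹ • (y - z))) ≤
      ((S.card : ℝ≥0∞) ^ 2) ^ p * ∑ j ∈ bgT σ S u, ∏ i, ip p (fun y => G (j i) y * η ((σ⁻¹ ^ 2)⁻¹ • (y - z))) ^ (1 / ((dd V : ℕ) : ℝ))
      + (A + 1) ^ p * (∑ J ∈ S, ip p (fun y => G J y * η ((σ⁻¹ ^ 2)⁻¹ • (y - z))) ^ (2 / p)) ^ (p / 2) := by
  have hp0 : 0 < p := by linarith
  have h := bgs_pow_alt hp0 S (bgT σ S u) (fun j => j) (fun J => nm p (fun y => G J y * η ((σ⁻¹ ^ 2)⁻¹ • (y - z))))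
    (nm p (fun y => ∑ J ∈ S, G J y * η ((σ⁻¹ ^ 2)⁻¹ • (y - z)))) ((S.card : ℝ≥0∞) ^ 2) A (by
      rcases bgs_point hk hp hC hσ hσ1 hA hη hG z with ⟨j, hj, hT, h⟩ | h
      · exact Or.inl ⟨j, mem_bgT.2 ⟨hj, hT⟩, h⟩
      · exact Or.inr h)
  simp only [bgs_nm_rpow hp0] at h
  exact h

theorem bgs_ip_eta_ne_top {η : V × ℝ → ℂ} (hη : ∀ M : ℝ, ∃ C : ℝ, ∀ y, ‖η y‖ ≤ C * (1 + ‖y‖) ^ (-M)) {p : ℝ} (hp : 0 < p) : ip p η ≠ ∞ := by
  obtain ⟨A, hA⟩ := ip_localize_le hη p ((dd V : ℝ) + 1) hp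
  have h := hA 1 (fun _ => 1) 0 one_pos
  have e : (fun y : V × ℝ => (1 : ℂ) * η ((1 : ℝ)⁻¹ • (y - 0))) = η := by
    funext y
    simp
  rw [e] at h
  refine ne_top_of_le_ne_top (ENNReal.mul_ne_top ENNReal.ofReal_ne_top ?_) h
  exact avp_ne_top hp.le (by linarith) one_pos (B := 1) (fun _ => by simp) 0

theorem bgs_ip_eta_ne_zero {η : V × ℝ → ℂ} (h1 : ∀ y, ‖y‖ ≤ 1 → 1 ≤ ‖η y‖) (p : ℝ) (hp : 0 < p) : ip p η ≠ 0 := by
  have h2 : volume (closedBall (0 : V × ℝ) 1) ≤ ip p η := by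
    unfold ip
    calc volume (closedBall (0 : V × ℝ) 1) = ∫⁻ y in closedBall (0 : V × ℝ) 1, 1 := by simp
      _ ≤ ∫⁻ y in closedBall (0 : V × ℝ) 1, ‖η y‖ₑ ^ p := by
          refine setLIntegral_mono' measurableSet_closedBall fun y hy => ?_
          have hy' : ‖y‖ ≤ 1 := by simpa using hy
          have h3 : (1 : ℝ≥0∞) ≤ ‖η y‖ₑ := by
            rw [← ofReal_norm]
            exact ENNReal.one_le_ofReal.2 (h1 y hy')
          exact ENNReal.one_le_rpow h3 hp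
      _ ≤ _ := setLIntegral_le_lintegral _ _
  have h3 : 0 < volume (closedBall (0 : V × ℝ) 1) := measure_closedBall_pos _ _ one_pos
  exact (lt_of_lt_of_le h3 h2).ne'

/-- the final algebra. -/
theorem bgs_final {p : ℝ} (hp : 1 ≤ p) (I X c1 M B Y2 : ℝ≥0∞) (hI0 : I ≠ 0) (hIt : I ≠ ∞)
    (h : I * X ≤ c1 * M * Y2 ^ (p / 2) + B ^ p * I * Y2 ^ (p / 2)) :
    X ^ (1 / p) ≤ (B + (c1 / I * M) ^ (1 / p)) * Y2 ^ (1 / 2 : ℝ) := by
  have hp0 : 0 < p := by linarith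
  have h1 : X ≤ (B ^ p + c1 / I * M) * Y2 ^ (p / 2) := by
    rw [← ENNReal.mul_le_mul_iff_right hI0 hIt]
    refine h.trans (le_of_eq ?_)
    have e : I * (c1 / I) = c1 := ENNReal.mul_div_cancel hI0 hIt
    calc c1 * M * Y2 ^ (p / 2) + B ^ p * I * Y2 ^ (p / 2) = (I * (c1 / I)) * M * Y2 ^ (p / 2) + B ^ p * I * Y2 ^ (p / 2) := by rw [e]
      _ = _ := by ring
  calc X ^ (1 / p) ≤ ((B ^ p + c1 / I * M) * Y2 ^ (p / 2)) ^ (1 / p) := ENNReal.rpow_le_rpow h1 (by positivity)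
    _ = (B ^ p + c1 / I * M) ^ (1 / p) * Y2 ^ (1 / 2 : ℝ) := by
        rw [ENNReal.mul_rpow_of_nonneg _ _ (by positivity), ← ENNReal.rpow_mul]
        congr 2
        field_simp
    _ ≤ ((B ^ p) ^ (1 / p) + (c1 / I * M) ^ (1 / p)) * Y2 ^ (1 / 2 : ℝ) := by
        gcongr
        exact ENNReal.rpow_add_le_add_rpow _ _ (by positivity) (by rw [div_le_one hp0]; exact hp)
    _ = _ := by
        rw [← ENNReal.rpow_mul, mul_one_div, div_self hp0.ne', ENNReal.rpow_one]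

open scoped Classical in
/-- the multilinear term of one transverse tuple of coarse caps. -/
theorem bgs_tuple {p C E σ ρ R Cg : ℝ} {M : ℝ≥0∞} (hp0 : 0 < p) (hM : MDecLe V p C σ E R ρ M) {ι : Type} {s : Finset ι} {v : ι → V}
    {H : ι → V × ℝ → ℂ} (hRob : Rob C ρ s v H) {π : ι → ι} (hg : Grp Cg σ s v π v) {j : Fin (dd V) → ι} (hj : j ∈ bgT σ (s.image π) v) :
    ∫⁻ z, ∏ i, avp p E R (gsum s π H (j i)) z ^ (1 / ((dd V : ℕ) : ℝ)) ≤ M * (∑ θ ∈ s, nm p (H θ) ^ (2 : ℝ)) ^ (p / 2) := by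
  have hT := (mem_bgT.1 hj).2
  have h := hM ι (fun i => s.filter (fun θ => π θ = j i)) (fun _ => v) (fun _ => H)
    ⟨fun i => hRob.subset (Finset.filter_subset _ _), fun θ hθ => by
      have h1 : Trans (2 * σ - σ) (fun i => v (θ i)) := bdg_Trans_stable hT fun i => by
        have h2 := Finset.mem_filter.1 (hθ i)
        have h3 := hg.near (θ i) h2.1
        rwa [h2.2] at h3
      exact h1.mono (by linarith)⟩
  refine h.trans ?_
  gcongr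
  unfold mD
  have hd : (0 : ℝ) < (dd V : ℕ) := by
    have : 0 < dd V := Nat.succ_pos _
    exact_mod_cast this
  calc ∏ i : Fin (dd V), (∑ θ ∈ s.filter (fun θ => π θ = j i), nm p (H θ) ^ (2 : ℝ)) ^ (p / (2 * ((dd V : ℕ) : ℝ)))
      ≤ ∏ _i : Fin (dd V), (∑ θ ∈ s, nm p (H θ) ^ (2 : ℝ)) ^ (p / (2 * ((dd V : ℕ) : ℝ))) := by
        refine Finset.prod_le_prod' fun i _ => ENNReal.rpow_le_rpow ?_ (by positivity)
        exact Finset.sum_le_sum_of_subset (Finset.filter_subset _ _)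
    _ = _ := by
        rw [Finset.prod_const, Finset.card_univ, Fintype.card_fin, ← ENNReal.rpow_natCast, ← ENNReal.rpow_mul]
        congr 1
        field_simp

/-- integration of the pointwise dichotomy (abstract). -/
theorem bgs_integrate {α ι : Type} [MeasurableSpace α] {μ : Measure α} {d : ℕ} (hd : 0 < d) {p : ℝ} (hp : 2 ≤ p) (S : Finset ι) (𝒯 : Finset (Fin d → ι))
    (a b : ι → α → ℝ≥0∞) (ha : ∀ J ∈ S, Measurable (a J)) (hb : ∀ J, Measurable (b J)) (cA c1 B : ℝ≥0∞) (hab : ∀ J z, a J z ≤ cA * b J z)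
    (X : α → ℝ≥0∞) (hX : ∀ z, X z ≤ c1 * ∑ j ∈ 𝒯, ∏ i, a (j i) z ^ (1 / (d : ℝ)) + B * (∑ J ∈ S, a J z ^ (2 / p)) ^ (p / 2)) :
    ∫⁻ z, X z ∂μ ≤ c1 * cA * ∑ j ∈ 𝒯, ∫⁻ z, ∏ i, b (j i) z ^ (1 / (d : ℝ)) ∂μ + B * (∑ J ∈ S, (∫⁻ z, a J z ∂μ) ^ (2 / p)) ^ (p / 2) := by
  have hd' : (0 : ℝ) < d := by exact_mod_cast hd
  have hm1 : ∀ j : Fin d → ι, Measurable fun z => ∏ i, b (j i) z ^ (1 / (d : ℝ)) := fun j =>
    Finset.measurable_prod _ fun i _ => (hb (j i)).pow_const _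
  have h1 : ∀ z, X z ≤ c1 * cA * ∑ j ∈ 𝒯, ∏ i, b (j i) z ^ (1 / (d : ℝ)) + B * (∑ J ∈ S, a J z ^ (2 / p)) ^ (p / 2) := by
    intro z
    refine (hX z).trans (add_le_add ?_ le_rfl)
    rw [mul_assoc, Finset.mul_sum (a := cA)]
    gcongr with j _
    calc ∏ i, a (j i) z ^ (1 / (d : ℝ)) ≤ ∏ i, (cA * b (j i) z) ^ (1 / (d : ℝ)) :=
          Finset.prod_le_prod' fun i _ => ENNReal.rpow_le_rpow (hab _ _) (by positivity)
      _ = ∏ i, (cA ^ (1 / (d : ℝ)) * b (j i) z ^ (1 / (d : ℝ))) :=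
          Finset.prod_congr rfl fun i _ => ENNReal.mul_rpow_of_nonneg _ _ (by positivity)
      _ = cA * ∏ i, b (j i) z ^ (1 / (d : ℝ)) := by
          rw [Finset.prod_mul_distrib, Finset.prod_const, Finset.card_univ, Fintype.card_fin, ← ENNReal.rpow_natCast, ← ENNReal.rpow_mul,
            one_div, inv_mul_cancel₀ hd'.ne', ENNReal.rpow_one]
  calc ∫⁻ z, X z ∂μ ≤ ∫⁻ z, (c1 * cA * ∑ j ∈ 𝒯, ∏ i, b (j i) z ^ (1 / (d : ℝ)) + B * (∑ J ∈ S, a J z ^ (2 / p)) ^ (p / 2)) ∂μ := lintegral_mono h1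
    _ = ∫⁻ z, c1 * cA * ∑ j ∈ 𝒯, ∏ i, b (j i) z ^ (1 / (d : ℝ)) ∂μ + ∫⁻ z, B * (∑ J ∈ S, a J z ^ (2 / p)) ^ (p / 2) ∂μ :=
        lintegral_add_left ((Finset.measurable_sum _ fun j _ => hm1 j).const_mul _) _
    _ = c1 * cA * ∑ j ∈ 𝒯, ∫⁻ z, ∏ i, b (j i) z ^ (1 / (d : ℝ)) ∂μ + B * ∫⁻ z, (∑ J ∈ S, a J z ^ (2 / p)) ^ (p / 2) ∂μ := by
        rw [lintegral_const_mul _ (Finset.measurable_sum _ fun j _ => hm1 j), lintegral_finsetSum _ fun j _ => hm1 j,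
          lintegral_const_mul _ ((Finset.measurable_sum _ fun J hJ => (ha J hJ).pow_const _).pow_const _)]
    _ ≤ _ := by
        gcongr
        exact abs_l2Lp hp S a fun J hJ => (ha J hJ).aemeasurable

open scoped Classical in
theorem bgs_card_bgT (σ : ℝ) {ι : Type} (S : Finset ι) (u : ι → V) : (bgT σ S u).card ≤ S.card ^ dd V := by
  unfold bgT
  refine (Finset.card_filter_le _ _).trans ?_
  rw [Fintype.card_piFinset]
  simp

/-- `(∑ (I x_J)^(2/p))^(p/2) = I (∑ x_J^(2/p))^(p/2)`. -/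
theorem bgs_pull {ι : Type} {p : ℝ} (hp : 0 < p) (S : Finset ι) (I : ℝ≥0∞) (x : ι → ℝ≥0∞) :
    (∑ J ∈ S, (I * x J) ^ (2 / p)) ^ (p / 2) = I * (∑ J ∈ S, x J ^ (2 / p)) ^ (p / 2) := by
  have h1 : ∀ J ∈ S, (I * x J) ^ (2 / p) = I ^ (2 / p) * x J ^ (2 / p) := fun J _ => ENNReal.mul_rpow_of_nonneg _ _ (by positivity)
  rw [Finset.sum_congr rfl h1, ← Finset.mul_sum, ENNReal.mul_rpow_of_nonneg _ _ (by positivity), ← ENNReal.rpow_mul]
  congr 1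
  have : 2 / p * (p / 2) = 1 := by field_simp
  rw [this, ENNReal.rpow_one]

open scoped Classical in
/-- **U8c: the Bourgain-Guth step.** -/
theorem bg_stmt (hk : 1 ≤ Module.finrank ℝ V) {p C : ℝ} (hp : 2 ≤ p) (hC : 2 ≤ C) (hC' : (3 : ℝ) ^ Module.finrank ℝ V ≤ C) : BgStmt V p C := by
  intro E σ hE hσ hσ1
  have hp0 : 0 < p := by linarith
  obtain ⟨η, hηFS, hη1, hηdec, -⟩ := exists_eta V
  obtain ⟨Aη, hAη⟩ := ip_localize_le hηdec p E hp0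
  have hηc := hηFS.continuous
  have hR0 : 0 < σ⁻¹ ^ 2 := by positivity
  set I : ℝ≥0∞ := ENNReal.ofReal ((σ⁻¹ ^ 2) ^ (dd V : ℝ)) * ip p η with hI
  have hI0 : I ≠ 0 := mul_ne_zero (by rw [Ne, ENNReal.ofReal_eq_zero, not_le]; positivity) (bgs_ip_eta_ne_zero hη1 p hp0)
  have hIt : I ≠ ∞ := ENNReal.mul_ne_top ENNReal.ofReal_ne_top (bgs_ip_eta_ne_top hηdec hp0)
  set N0 : ℝ := (2 * ((C + 1) / σ) + 1) ^ Module.finrank ℝ V * (C + 1) with hN0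
  set c1 : ℝ≥0∞ := ((ENNReal.ofReal N0) ^ 2) ^ p * ENNReal.ofReal (Aη * (σ⁻¹ ^ 2) ^ (dd V : ℝ)) * (ENNReal.ofReal N0) ^ (dd V) with hc1
  have hc1t : c1 / I ≠ ∞ := by
    refine ENNReal.div_ne_top ?_ hI0
    refine ENNReal.mul_ne_top (ENNReal.mul_ne_top (ENNReal.rpow_ne_top_of_nonneg hp0.le (ENNReal.pow_ne_top ENNReal.ofReal_ne_top)) ENNReal.ofReal_ne_top)
      (ENNReal.pow_ne_top ENNReal.ofReal_ne_top)
  refine ⟨(c1 / I).toReal, fun ρ A D1 M hρ h2ρ hA hD1 hM ι s v H hRob => ?_⟩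
  rw [ENNReal.ofReal_toReal hc1t]
  obtain ⟨π, hg⟩ := exists_grp s v hσ
  have hG : Rob (C + 1) σ (s.image π) v (gsum s π H) := by
    have := hRob.group hg hρ (by linarith) (by linarith)
    rwa [max_eq_left (by linarith)] at this
  have hHc : ∀ θ ∈ s, Continuous (H θ) := fun θ hθ => (hRob.fs θ hθ).continuous
  have hGc : ∀ J, Continuous (gsum s π H J) := fun J => by
    unfold gsum
    exact continuous_finsetSum _ fun θ hθ => hHc θ (Finset.mem_filter.1 hθ).1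
  have hFc : Continuous fun z => ∑ θ ∈ s, H θ z := continuous_finsetSum _ hHc
  have hcard : ((s.image π).card : ℝ≥0∞) ≤ ENNReal.ofReal N0 := by
    rw [← ENNReal.ofReal_natCast]
    exact ENNReal.ofReal_le_ofReal (hG.card_le hσ (by linarith))
  set Y2 : ℝ≥0∞ := ∑ θ ∈ s, nm p (H θ) ^ (2 : ℝ) with hY2
  refine bgs_final (by linarith) I (ip p fun z => ∑ θ ∈ s, H θ z) c1 M ((A + 1) * D1) Y2 hI0 hIt ?_
  have e1 : I * ip p (fun z => ∑ θ ∈ s, H θ z) = ∫⁻ z, ip p (fun y => ∑ J ∈ s.image π, gsum s π H J y * η ((σ⁻¹ ^ 2)⁻¹ • (y - z))) := by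
    rw [hI, ← lintegral_ip_localize hηc p hR0 hFc]
    refine lintegral_congr fun z => ?_
    congr 1
    funext y
    rw [← Finset.sum_mul, sum_gsum]
  rw [e1]
  refine (bgs_integrate (Nat.succ_pos _) hp (s.image π) (bgT σ (s.image π) v)
    (fun J z => ip p (fun y => gsum s π H J y * η ((σ⁻¹ ^ 2)⁻¹ • (y - z)))) (fun J z => avp p E (σ⁻¹ ^ 2) (gsum s π H J) z)
    (fun J _ => bgs_meas_ip hηc p _ (hGc J)) (fun J => measurable_avp p E _ (hGc J)) (ENNReal.ofReal (Aη * (σ⁻¹ ^ 2) ^ (dd V : ℝ)))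
    ((((s.image π).card : ℝ≥0∞) ^ 2) ^ p) ((A + 1) ^ p) (fun J z => hAη _ _ z hR0) _
    (fun z => bgs_point_pow hk hp (by linarith) hσ hσ1 hA hηFS hG z)).trans ?_
  refine add_le_add ?_ ?_
  · calc (((s.image π).card : ℝ≥0∞) ^ 2) ^ p * ENNReal.ofReal (Aη * (σ⁻¹ ^ 2) ^ (dd V : ℝ))
          * ∑ j ∈ bgT σ (s.image π) v, ∫⁻ z, ∏ i, avp p E (σ⁻¹ ^ 2) (gsum s π H (j i)) z ^ (1 / ((dd V : ℕ) : ℝ))
        ≤ ((ENNReal.ofReal N0) ^ 2) ^ p * ENNReal.ofReal (Aη * (σ⁻¹ ^ 2) ^ (dd V : ℝ)) * ∑ _j ∈ bgT σ (s.image π) v, M * Y2 ^ (p / 2) := by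
          gcongr with j hj
          exact bgs_tuple hp0 hM hRob hg hj
      _ = ((ENNReal.ofReal N0) ^ 2) ^ p * ENNReal.ofReal (Aη * (σ⁻¹ ^ 2) ^ (dd V : ℝ)) * (((bgT σ (s.image π) v).card : ℝ≥0∞) * (M * Y2 ^ (p / 2))) := by
          rw [Finset.sum_const, nsmul_eq_mul]
      _ ≤ ((ENNReal.ofReal N0) ^ 2) ^ p * ENNReal.ofReal (Aη * (σ⁻¹ ^ 2) ^ (dd V : ℝ)) * ((ENNReal.ofReal N0) ^ (dd V) * (M * Y2 ^ (p / 2))) := by
          gcongr
          calc ((bgT σ (s.image π) v).card : ℝ≥0∞) ≤ (((s.image π).card ^ dd V : ℕ) : ℝ≥0∞) := by exact_mod_cast bgs_card_bgT σ _ v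
            _ = ((s.image π).card : ℝ≥0∞) ^ dd V := by push_cast; rfl
            _ ≤ _ := by gcongr
      _ = c1 * M * Y2 ^ (p / 2) := by rw [hc1]; ring
  · have e2 : ∀ J ∈ s.image π, (∫⁻ z, ip p (fun y => gsum s π H J y * η ((σ⁻¹ ^ 2)⁻¹ • (y - z)))) ^ (2 / p) = (I * ip p (gsum s π H J)) ^ (2 / p) := fun J _ => by
      rw [lintegral_ip_localize hηc p hR0 (hGc J)]
    rw [Finset.sum_congr rfl e2, bgs_pull hp0]
    have e3 : ∑ J ∈ s.image π, ip p (gsum s π H J) ^ (2 / p) ≤ D1 ^ (2 : ℝ) * Y2 := by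
      have := DecLe.group hD1 hp0 (by linarith) hρ hσ hRob hg
      rw [Finset.sum_congr rfl fun J _ => bgs_nm_sq (gsum s π H J)] at this
      exact this
    calc (A + 1) ^ p * (I * (∑ J ∈ s.image π, ip p (gsum s π H J) ^ (2 / p)) ^ (p / 2)) ≤ (A + 1) ^ p * (I * (D1 ^ (2 : ℝ) * Y2) ^ (p / 2)) := by
          gcongr
      _ = ((A + 1) * D1) ^ p * I * Y2 ^ (p / 2) := by
          rw [ENNReal.mul_rpow_of_nonneg _ _ (by positivity : 0 ≤ p / 2), ← ENNReal.rpow_mul, ENNReal.mul_rpow_of_nonneg _ _ hp0.le]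
          have : 2 * (p / 2) = p := by ring
          rw [this]
          ring

/-- Stores the on-demand equation lemmas of the definitions above in THIS module (rule 6 hygiene). -/
theorem bg_forced : True := by
  have := @bgT.eq_1
  trivial

end Claimed.Agent.BD
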