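import Claimed.Agent.Lib.BD.Resc
import Claimed.Agent.Lib.BD.Stmt

/-!
# Box BD, unit U11a: the endpoint exponent from the smaller exponents   (helper266)

`decLe_crit` : `Dec_q(ρ; C) ≤ A ρ^(-2d(1/p - 1/q)) Dec_p(ρ; 7C)` for `2 ≤ p ≤ q`.
Proof: localise by `η((y - z)/R)`, `R = ρ⁻²` (`Rob.localize`); `‖·‖_q ≤ A ‖·‖_p` for the localised sum (bounded frequencies: `nm_bernstein`); decouple in `L^p`;
`‖H_j η_z‖_p ≤ A R^(d/p) (avp p)^(1/p) ≤ A R^(d/p) (avp q)^(1/q)` (`ip_localize_le`, `avp_mono_t`); integrate over the centre `z` (`lintegral_ip_localize`, `abs_l2Lp`, `exists_lintegral_avp`).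
-/

set_option autoImplicit false
open MeasureTheory Set Metric
open scoped ENNReal NNReal

namespace Claimed.Agent.BD

variable {V : Type} [NormedAddCommGroup V] [InnerProductSpace ℝ V] [FiniteDimensional ℝ V] [MeasurableSpace V] [BorelSpace V]

/-- the local average as an integral against the finite measure `R^(-d) wt E R (y - z) dy`. -/
theorem avp_eq_withDensity (t E R : ℝ) {F : V × ℝ → ℂ} (hF : Continuous F) (z : V × ℝ) :
    avp t E R F z = ∫⁻ y, ‖F y‖ₑ ^ t ∂(volume.withDensity fun y => ENNReal.ofReal (R ^ (-(dd V : ℝ))) * wt E R (y - z)) := by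
  have hw : Measurable fun y : V × ℝ => wt E R (y - z) := (measurable_wt E R).comp (measurable_id.sub_const z)
  have hm : Measurable fun y : V × ℝ => ENNReal.ofReal (R ^ (-(dd V : ℝ))) * wt E R (y - z) := hw.const_mul _
  have hf : Measurable fun y : V × ℝ => ‖F y‖ₑ ^ t := hF.enorm.measurable.pow_const _
  have hfw : Measurable fun y : V × ℝ => ‖F y‖ₑ ^ t * wt E R (y - z) := hf.mul hw
  rw [lintegral_withDensity_eq_lintegral_mul _ hm hf, avp, ← lintegral_const_mul _ hfw]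
  refine lintegral_congr fun y => ?_
  simp only [Pi.mul_apply]
  ring

/-- comparison of the local `L^a` and `L^b` averages, pointwise in the centre. -/
theorem avp_mono_t (a b E : ℝ) (ha : 0 < a) (hab : a ≤ b) (hE : (dd V : ℝ) < E) :
    ∃ A : ℝ, ∀ (R : ℝ) (F : V × ℝ → ℂ) (z : V × ℝ), 0 < R → Continuous F →
      avp a E R F z ^ (1 / a) ≤ ENNReal.ofReal A * avp b E R F z ^ (1 / b) := by
  obtain ⟨c, hc, hcR⟩ := exists_lintegral_wt (V := V) hE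
  have hb : 0 < b := lt_of_lt_of_le ha hab
  have hexp : 0 ≤ 1 / a - 1 / b := by
    rw [sub_nonneg]
    exact one_div_le_one_div_of_le ha hab
  refine ⟨c ^ (1 / a - 1 / b), fun R F z hR hF => ?_⟩
  rw [avp_eq_withDensity a E R hF z, avp_eq_withDensity b E R hF z]
  have h := abs_Lp_mono (μ := volume.withDensity fun y : V × ℝ => ENNReal.ofReal (R ^ (-(dd V : ℝ))) * wt E R (y - z)) ha hab
    (fun y => ‖F y‖ₑ) hF.enorm.measurable.aemeasurable
  have hw : Measurable fun y : V × ℝ => wt E R (y - z) := (measurable_wt E R).comp (measurable_id.sub_const z)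
  have hu : (volume.withDensity fun y : V × ℝ => ENNReal.ofReal (R ^ (-(dd V : ℝ))) * wt E R (y - z)) univ = ENNReal.ofReal c := by
    have := bdlc_haar (V := V)
    rw [withDensity_apply _ MeasurableSet.univ, Measure.restrict_univ, lintegral_const_mul _ hw,
      lintegral_sub_right_eq_self (fun y => wt E R y) z, hcR R hR, ← ENNReal.ofReal_mul (by positivity)]
    congr 1
    rw [Real.rpow_neg hR.le]
    field_simp
  rw [hu, ENNReal.ofReal_rpow_of_pos hc] at h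
  rw [mul_comm]
  exact h

/-- **global Bernstein**: bounded frequencies, `p ≤ q` (`loc_const_ball` at radius `1`). -/
theorem ip_bernstein (B p q : ℝ) (hp : 1 ≤ p) (hpq : p ≤ q) :
    ∃ A : ℝ, ∀ G : V × ℝ → ℂ, FS (closedBall 0 B) G → ip q G ≤ ENNReal.ofReal A * ip p G ^ (q / p) := by
  obtain ⟨A, hA⟩ := loc_const_ball (V := V) B ((dd V : ℝ) + 1) p hp (by linarith)
  have hp0 : 0 < p := by linarith
  have he : 0 ≤ (q - p) / p := div_nonneg (by linarith) hp0.le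
  refine ⟨(ENNReal.ofReal A ^ ((q - p) / p)).toReal, fun G hG => ?_⟩
  rw [ENNReal.ofReal_toReal (ENNReal.rpow_ne_top_of_nonneg he ENNReal.ofReal_ne_top)]
  have h1 : ∀ y, ‖G y‖ₑ ^ p ≤ ENNReal.ofReal A * ip p G := by
    intro y
    refine (hA 1 0 G one_pos (by simpa using hG) y).trans ?_
    gcongr
    rw [avp]
    simp only [Real.one_rpow, ENNReal.ofReal_one, one_mul]
    refine lintegral_mono fun y' => ?_
    calc ‖G y'‖ₑ ^ p * wt ((dd V : ℝ) + 1) 1 (y' - y) ≤ ‖G y'‖ₑ ^ p * 1 := by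
          gcongr
          exact wt_le_one (by positivity) one_pos _
      _ = ‖G y'‖ₑ ^ p := mul_one _
  have h2 : ∀ y, ‖G y‖ₑ ^ q ≤ (ENNReal.ofReal A * ip p G) ^ ((q - p) / p) * ‖G y‖ₑ ^ p := by
    intro y
    have : ‖G y‖ₑ ^ q = (‖G y‖ₑ ^ p) ^ ((q - p) / p) * ‖G y‖ₑ ^ p := by
      rw [← ENNReal.rpow_mul, ← ENNReal.rpow_add_of_nonneg _ _ (by positivity) hp0.le]
      congr 1
      field_simp
      ring
    rw [this]
    gcongr
    exact h1 y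
  have h3 : ip p G ^ (q / p) = ip p G ^ ((q - p) / p) * ip p G := by
    conv_rhs => rw [← ENNReal.rpow_one (ip p G), ← ENNReal.rpow_mul, one_mul, ← ENNReal.rpow_add_of_nonneg _ _ he zero_le_one]
    congr 1
    field_simp
    ring
  calc ip q G = ∫⁻ y, ‖G y‖ₑ ^ q := rfl
    _ ≤ ∫⁻ y, (ENNReal.ofReal A * ip p G) ^ ((q - p) / p) * ‖G y‖ₑ ^ p := lintegral_mono h2
    _ = (ENNReal.ofReal A * ip p G) ^ ((q - p) / p) * ip p G := by
        rw [lintegral_const_mul _ (hG.continuous.enorm.measurable.pow_const _)]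
        rfl
    _ = ENNReal.ofReal A ^ ((q - p) / p) * ip p G ^ (q / p) := by
        rw [ENNReal.mul_rpow_of_nonneg _ _ he, mul_assoc, h3]

/-- all caps of a robust family lie in one ball. -/
theorem Rob.cap_subset {C ρ : ℝ} {ι : Type} {s : Finset ι} {v : ι → V} {H : ι → V × ℝ → ℂ} (h : Rob C ρ s v H) (hC : 0 ≤ C) (hρ : 0 ≤ ρ) (hρ1 : ρ ≤ 1)
    {j : ι} (hj : j ∈ s) : cap (v j) (C * ρ) (C * ρ ^ 2) ⊆ closedBall 0 (3 * C + 4 * C ^ 2) := by
  have hv := h.bdd j hj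
  have hv0 := norm_nonneg (v j)
  have h1 : C * ρ ≤ C := by nlinarith
  have h2 : C * ρ ^ 2 ≤ C := by nlinarith [mul_nonneg hC hρ, pow_le_one₀ hρ hρ1 (n := 2)]
  have h10 : 0 ≤ C * ρ := mul_nonneg hC hρ
  refine (cap_subset_ball (v j) h10 (by positivity)).trans (closedBall_subset_closedBall' ?_)
  have h3 : dist ((v j, ‖v j‖ ^ 2) : V × ℝ) 0 ≤ C + C ^ 2 := by
    rw [dist_zero_right, Prod.norm_def]
    refine max_le (by nlinarith) ?_
    rw [Real.norm_eq_abs, abs_of_nonneg (by positivity)]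
    nlinarith
  have h4 : C * ρ * (2 * ‖v j‖ + C * ρ) ≤ C * (2 * C + C) := by
    apply mul_le_mul h1 (by linarith) (by positivity) hC
  nlinarith

/-- the step of `decLe_crit` at a fixed centre `z`. -/
theorem crit_point {p q C ρ R A1 A2 A3 E : ℝ} {D : ℝ≥0∞} (hp : 2 ≤ p) (hpq : p ≤ q) (hC : 1 ≤ C) (hρ : 0 < ρ) (hρ1 : ρ ≤ 1) (hR0 : 0 < R) (hR : ρ⁻¹ ^ 2 ≤ R)
    {η : V × ℝ → ℂ} (hη : FS (closedBall 0 1) η)
    (hA1 : ∀ G : V × ℝ → ℂ, FS (closedBall 0 (3 * (7 * C) + 4 * (7 * C) ^ 2)) G → ip q G ≤ ENNReal.ofReal A1 * ip p G ^ (q / p))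
    (hA2 : ∀ (R : ℝ) (F : V × ℝ → ℂ) (z : V × ℝ), 0 < R → ip p (fun y => F y * η (R⁻¹ • (y - z))) ≤ ENNReal.ofReal (A2 * R ^ (dd V : ℝ)) * avp p E R F z)
    (hA3 : ∀ (R : ℝ) (F : V × ℝ → ℂ) (z : V × ℝ), 0 < R → Continuous F → avp p E R F z ^ (1 / p) ≤ ENNReal.ofReal A3 * avp q E R F z ^ (1 / q))
    (hD : DecLe V p (7 * C) ρ D)
    {ι : Type} {s : Finset ι} {v : ι → V} {H : ι → V × ℝ → ℂ} (h : Rob C ρ s v H) (z : V × ℝ) :
    ip q (fun y => (∑ j ∈ s, H j y) * η (R⁻¹ • (y - z))) ≤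
      ENNReal.ofReal A1 * (D * (ENNReal.ofReal (A2 * R ^ (dd V : ℝ)) ^ (1 / p) * ENNReal.ofReal A3)) ^ q * (∑ j ∈ s, avp q E R (H j) z ^ (2 / q)) ^ (q / 2) := by
  have hp0 : 0 < p := by linarith
  have hq0 : 0 < q := by linarith
  have hrob := h.localize hC hρ hρ1 hR hη z
  have hsum : (fun y => (∑ j ∈ s, H j y) * η (R⁻¹ • (y - z))) = fun y => ∑ j ∈ s, H j y * η (R⁻¹ • (y - z)) := by
    funext y
    rw [Finset.sum_mul]
  rw [hsum]
  have hFS : FS (closedBall 0 (3 * (7 * C) + 4 * (7 * C) ^ 2)) (fun y => ∑ j ∈ s, H j y * η (R⁻¹ • (y - z))) :=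
    FS.sum s fun j hj => (hrob.fs j hj).mono (hrob.cap_subset (by linarith) hρ.le hρ1 hj)
  set K : ℝ≥0∞ := ENNReal.ofReal (A2 * R ^ (dd V : ℝ)) ^ (1 / p) * ENNReal.ofReal A3 with hK
  have h3 : ∀ j ∈ s, nm p (fun y => H j y * η (R⁻¹ • (y - z))) ≤ K * avp q E R (H j) z ^ (1 / q) := by
    intro j hj
    calc nm p (fun y => H j y * η (R⁻¹ • (y - z))) ≤ (ENNReal.ofReal (A2 * R ^ (dd V : ℝ)) * avp p E R (H j) z) ^ (1 / p) :=
          ENNReal.rpow_le_rpow (hA2 R (H j) z hR0) (by positivity)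
      _ = ENNReal.ofReal (A2 * R ^ (dd V : ℝ)) ^ (1 / p) * avp p E R (H j) z ^ (1 / p) := ENNReal.mul_rpow_of_nonneg _ _ (by positivity)
      _ ≤ ENNReal.ofReal (A2 * R ^ (dd V : ℝ)) ^ (1 / p) * (ENNReal.ofReal A3 * avp q E R (H j) z ^ (1 / q)) := by
          gcongr
          exact hA3 R (H j) z hR0 (h.fs j hj).continuous
      _ = K * avp q E R (H j) z ^ (1 / q) := by rw [hK, mul_assoc]
  have h4 : (∑ j ∈ s, nm p (fun y => H j y * η (R⁻¹ • (y - z))) ^ (2 : ℝ)) ^ (1 / 2 : ℝ) ≤ K * (∑ j ∈ s, avp q E R (H j) z ^ (2 / q)) ^ (1 / 2 : ℝ) := by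
    calc (∑ j ∈ s, nm p (fun y => H j y * η (R⁻¹ • (y - z))) ^ (2 : ℝ)) ^ (1 / 2 : ℝ)
        ≤ (∑ j ∈ s, (K * avp q E R (H j) z ^ (1 / q)) ^ (2 : ℝ)) ^ (1 / 2 : ℝ) := by
          gcongr with j hj
          exact h3 j hj
      _ = (K ^ (2 : ℝ) * ∑ j ∈ s, avp q E R (H j) z ^ (2 / q)) ^ (1 / 2 : ℝ) := by
          congr 1
          rw [Finset.mul_sum]
          refine Finset.sum_congr rfl fun j _ => ?_
          rw [ENNReal.mul_rpow_of_nonneg _ _ (by norm_num), ← ENNReal.rpow_mul]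
          congr 2
          ring
      _ = K * (∑ j ∈ s, avp q E R (H j) z ^ (2 / q)) ^ (1 / 2 : ℝ) := by
          rw [ENNReal.mul_rpow_of_nonneg _ _ (by norm_num), ← ENNReal.rpow_mul]
          norm_num
  calc ip q (fun y => ∑ j ∈ s, H j y * η (R⁻¹ • (y - z)))
      ≤ ENNReal.ofReal A1 * ip p (fun y => ∑ j ∈ s, H j y * η (R⁻¹ • (y - z))) ^ (q / p) := hA1 _ hFS
    _ = ENNReal.ofReal A1 * nm p (fun y => ∑ j ∈ s, H j y * η (R⁻¹ • (y - z))) ^ q := by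
        rw [nm, ← ENNReal.rpow_mul]
        congr 2
        field_simp
    _ ≤ ENNReal.ofReal A1 * (D * (K * (∑ j ∈ s, avp q E R (H j) z ^ (2 / q)) ^ (1 / 2 : ℝ))) ^ q := by
        gcongr
        exact (hD _ s v _ hrob).trans (by gcongr)
    _ = ENNReal.ofReal A1 * (D * K) ^ q * (∑ j ∈ s, avp q E R (H j) z ^ (2 / q)) ^ (q / 2) := by
        rw [← mul_assoc D, ENNReal.mul_rpow_of_nonneg _ _ hq0.le, ← ENNReal.rpow_mul, mul_assoc]
        congr 3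
        ring

/-- lower bound of `∫ |η|^q`. -/
theorem ip_eta_ge {η : V × ℝ → ℂ} (hη1 : ∀ y, ‖y‖ ≤ 1 → 1 ≤ ‖η y‖) {q : ℝ} (hq : 0 < q) : volume (closedBall (0 : V × ℝ) 1) ≤ ip q η := by
  calc volume (closedBall (0 : V × ℝ) 1) = ∫⁻ _ in closedBall (0 : V × ℝ) 1, 1 := by simp
    _ ≤ ∫⁻ y in closedBall (0 : V × ℝ) 1, ‖η y‖ₑ ^ q := by
        refine setLIntegral_mono' measurableSet_closedBall fun y hy => ?_
        refine ENNReal.one_le_rpow ?_ hq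
        rw [← ofReal_norm, ENNReal.one_le_ofReal]
        exact hη1 y (by simpa using hy)
    _ ≤ ip q η := setLIntegral_le_lintegral _ _

/-- **change of exponent**: `Dec_q(ρ; C) ≤ A ρ^(-2d(1/p - 1/q)) Dec_p(ρ; 7C)`. -/
theorem decLe_crit (p q C : ℝ) (hp : 2 ≤ p) (hpq : p ≤ q) (hC : 1 ≤ C) :
    ∃ A : ℝ, ∀ (ρ : ℝ) (D : ℝ≥0∞), 0 < ρ → ρ ≤ 1 → DecLe V p (7 * C) ρ D →
      DecLe V q C ρ (ENNReal.ofReal (A * ρ ^ (-(2 * (dd V : ℝ) * (1 / p - 1 / q)))) * D) := by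
  obtain ⟨η, hηFS, hη1, hηdec, -⟩ := exists_eta (V := V)
  obtain ⟨A1, hA1⟩ := ip_bernstein (V := V) (3 * (7 * C) + 4 * (7 * C) ^ 2) p q (by linarith) hpq
  obtain ⟨A2, hA2⟩ := ip_localize_le hηdec p ((dd V : ℝ) + 1) (by linarith)
  obtain ⟨A3, hA3⟩ := avp_mono_t (V := V) p q ((dd V : ℝ) + 1) (by linarith) hpq (by linarith)
  obtain ⟨c1, hc1, hc1'⟩ := exists_lintegral_avp (V := V) (E := (dd V : ℝ) + 1) (by linarith)
  obtain ⟨c0, hc0, hc0'⟩ := exists_volume_closedBall (V := V)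
  have hp0 : 0 < p := by linarith
  have hq0 : 0 < q := by linarith
  have hq1 : 0 ≤ 1 / q := by positivity
  have hp1 : 0 ≤ 1 / p := by positivity
  set Cst : ℝ≥0∞ := (ENNReal.ofReal c0 ^ (1 / q))⁻¹ * (ENNReal.ofReal A1 ^ (1 / q) * (ENNReal.ofReal A2 ^ (1 / p) * ENNReal.ofReal A3) * ENNReal.ofReal c1 ^ (1 / q)) with hCst
  have hc0q : ENNReal.ofReal c0 ^ (1 / q) ≠ 0 := by
    simp only [ne_eq, ENNReal.rpow_eq_zero_iff, ENNReal.ofReal_eq_zero, not_or, not_and, not_lt]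
    exact ⟨fun h => absurd h (not_le.2 hc0), fun h => absurd h ENNReal.ofReal_ne_top⟩
  have hc0q' : ENNReal.ofReal c0 ^ (1 / q) ≠ ∞ := ENNReal.rpow_ne_top_of_nonneg hq1 ENNReal.ofReal_ne_top
  have hCst_top : Cst ≠ ∞ := by
    refine ENNReal.mul_ne_top (ENNReal.inv_ne_top.2 hc0q) (ENNReal.mul_ne_top (ENNReal.mul_ne_top ?_ (ENNReal.mul_ne_top ?_ ENNReal.ofReal_ne_top)) ?_)
    · exact ENNReal.rpow_ne_top_of_nonneg hq1 ENNReal.ofReal_ne_top
    · exact ENNReal.rpow_ne_top_of_nonneg hp1 ENNReal.ofReal_ne_top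
    · exact ENNReal.rpow_ne_top_of_nonneg hq1 ENNReal.ofReal_ne_top
  refine ⟨Cst.toReal, fun ρ D hρ hρ1 hD ι s v H h => ?_⟩
  set R : ℝ := ρ⁻¹ ^ 2 with hRdef
  have hR0 : 0 < R := by positivity
  have hHc : ∀ j ∈ s, Continuous (H j) := fun j hj => (h.fs j hj).continuous
  have hFc : Continuous fun y => ∑ j ∈ s, H j y := continuous_finsetSum _ hHc
  set S : ℝ≥0∞ := ∑ j ∈ s, nm q (H j) ^ (2 : ℝ) with hS
  set x : ℝ≥0∞ := ENNReal.ofReal (R ^ (dd V : ℝ)) with hx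
  have hx0 : x ≠ 0 := by
    rw [hx, ne_eq, ENNReal.ofReal_eq_zero, not_le]
    positivity
  have hxt : x ≠ ∞ := ENNReal.ofReal_ne_top
  have hη_low : ENNReal.ofReal c0 ≤ ip q η := by
    have := ip_eta_ge hη1 hq0
    rwa [hc0' 0 1 one_pos, Real.one_rpow, mul_one] at this
  have ha : x * ENNReal.ofReal c0 * ip q (fun y => ∑ j ∈ s, H j y) ≤ ∫⁻ z, ip q (fun y => (∑ j ∈ s, H j y) * η (R⁻¹ • (y - z))) := by
    rw [lintegral_ip_localize hηFS.continuous q hR0 hFc]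
    gcongr
  set K1 : ℝ≥0∞ := ENNReal.ofReal A1 * (D * (ENNReal.ofReal (A2 * R ^ (dd V : ℝ)) ^ (1 / p) * ENNReal.ofReal A3)) ^ q with hK1
  have hmeas : ∀ j ∈ s, Measurable (avp q ((dd V : ℝ) + 1) R (H j)) := fun j hj => measurable_avp _ _ _ (hHc j hj)
  have hb : ∫⁻ z, ip q (fun y => (∑ j ∈ s, H j y) * η (R⁻¹ • (y - z))) ≤ K1 * (ENNReal.ofReal c1 * S ^ (q / 2)) := by
    calc ∫⁻ z, ip q (fun y => (∑ j ∈ s, H j y) * η (R⁻¹ • (y - z)))
        ≤ ∫⁻ z, K1 * (∑ j ∈ s, avp q ((dd V : ℝ) + 1) R (H j) z ^ (2 / q)) ^ (q / 2) :=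
          lintegral_mono fun z => crit_point hp hpq hC hρ hρ1 hR0 le_rfl hηFS hA1 hA2 hA3 hD h z
      _ = K1 * ∫⁻ z, (∑ j ∈ s, avp q ((dd V : ℝ) + 1) R (H j) z ^ (2 / q)) ^ (q / 2) :=
          lintegral_const_mul _ ((Finset.measurable_sum s fun j hj => (hmeas j hj).pow_const _).pow_const _)
      _ ≤ K1 * (∑ j ∈ s, (∫⁻ z, avp q ((dd V : ℝ) + 1) R (H j) z) ^ (2 / q)) ^ (q / 2) := by
          gcongr
          exact abs_l2Lp (by linarith) s _ fun j hj => (hmeas j hj).aemeasurable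
      _ = K1 * (ENNReal.ofReal c1 * S ^ (q / 2)) := by
          congr 1
          have : ∑ j ∈ s, (∫⁻ z, avp q ((dd V : ℝ) + 1) R (H j) z) ^ (2 / q) = ENNReal.ofReal c1 ^ (2 / q) * S := by
            rw [hS, Finset.mul_sum]
            refine Finset.sum_congr rfl fun j hj => ?_
            rw [hc1' R q (H j) hR0 (hHc j hj), ENNReal.mul_rpow_of_nonneg _ _ (by positivity), nm, ← ENNReal.rpow_mul]
            congr 2
            ring
          rw [this, ENNReal.mul_rpow_of_nonneg _ _ (by positivity), ← ENNReal.rpow_mul]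
          congr 1
          rw [show 2 / q * (q / 2) = 1 by field_simp, ENNReal.rpow_one]
  have hc := ENNReal.rpow_le_rpow (ha.trans hb) hq1
  have hxe : x ^ (1 / p) * (x ^ (1 / q))⁻¹ = ENNReal.ofReal (ρ ^ (-(2 * (dd V : ℝ) * (1 / p - 1 / q)))) := by
    rw [← ENNReal.rpow_neg, ← ENNReal.rpow_add _ _ hx0 hxt, hx, ENNReal.ofReal_rpow_of_pos (by positivity)]
    congr 1
    rw [hRdef, ← Real.rpow_natCast, ← Real.rpow_mul (by positivity), ← Real.rpow_mul (by positivity), Real.inv_rpow hρ.le, Real.rpow_neg hρ.le]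
    congr 2
    push_cast
    ring
  rw [ENNReal.ofReal_mul ENNReal.toReal_nonneg, ENNReal.ofReal_toReal hCst_top, ← hxe]
  have hl : (x * ENNReal.ofReal c0 * ip q (fun y => ∑ j ∈ s, H j y)) ^ (1 / q) = (x ^ (1 / q) * ENNReal.ofReal c0 ^ (1 / q)) * nm q (fun y => ∑ j ∈ s, H j y) := by
    rw [ENNReal.mul_rpow_of_nonneg _ _ hq1, ENNReal.mul_rpow_of_nonneg _ _ hq1, nm]
  have hr : (K1 * (ENNReal.ofReal c1 * S ^ (q / 2))) ^ (1 / q) =
      ENNReal.ofReal A1 ^ (1 / q) * (D * (ENNReal.ofReal A2 ^ (1 / p) * x ^ (1 / p) * ENNReal.ofReal A3)) * (ENNReal.ofReal c1 ^ (1 / q) * S ^ (1 / 2 : ℝ)) := by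
    rw [hK1, ENNReal.mul_rpow_of_nonneg _ _ hq1, ENNReal.mul_rpow_of_nonneg _ _ hq1, ENNReal.mul_rpow_of_nonneg _ _ hq1, ← ENNReal.rpow_mul, ← ENNReal.rpow_mul,
      ENNReal.ofReal_mul' (by positivity), ENNReal.mul_rpow_of_nonneg _ _ hp1,
      show q * (1 / q) = 1 by field_simp, show q / 2 * (1 / q) = 1 / 2 by field_simp, ENNReal.rpow_one]
  rw [hl, hr] at hc
  have hxq0 : x ^ (1 / q) ≠ 0 := by
    simp only [ne_eq, ENNReal.rpow_eq_zero_iff, not_or, not_and, not_lt]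
    exact ⟨fun h => absurd h hx0, fun h => absurd h hxt⟩
  have hxqt : x ^ (1 / q) ≠ ∞ := ENNReal.rpow_ne_top_of_nonneg hq1 hxt
  rw [ENNReal.mul_le_iff_le_inv (mul_ne_zero hxq0 hc0q) (ENNReal.mul_ne_top hxqt hc0q'), ENNReal.mul_inv (Or.inl hxq0) (Or.inl hxqt)] at hc
  refine hc.trans (le_of_eq ?_)
  rw [hCst]
  ring

variable (V) in
/-- **U11a, exit.** -/
theorem critStmt (q : ℝ) : CritStmt V q := by
  intro hq hlow η hη
  have hd : (0 : ℝ) < dd V := by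
    rw [dd]
    positivity
  -- the exponent `p`
  set δ : ℝ := min (η / (4 * dd V)) (1 / 2 - 1 / q) with hδ
  have hq0 : 0 < q := by linarith
  have hq2 : 1 / q < 1 / 2 := one_div_lt_one_div_of_lt (by norm_num) hq
  have hδ0 : 0 < δ := lt_min (by positivity) (by linarith)
  have hδ1 : δ ≤ η / (4 * dd V) := min_le_left _ _
  have hδ2 : δ ≤ 1 / 2 - 1 / q := min_le_right _ _
  set p : ℝ := 1 / (1 / q + δ) with hpdef
  have hs0 : 0 < 1 / q + δ := by positivity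
  have hp2 : 2 ≤ p := by
    rw [hpdef, le_div_iff₀ hs0]
    linarith
  have hpq : p < q := by
    rw [hpdef, div_lt_iff₀ hs0, mul_add, mul_one_div_cancel hq0.ne']
    nlinarith
  have hpe : 1 / p - 1 / q = δ := by
    rw [hpdef, one_div_one_div]
    ring
  intro C
  obtain ⟨A, hA⟩ := decLe_crit (V := V) p q (max C 1) hp2 hpq.le (le_max_right _ _)
  obtain ⟨D₁, hD₁⟩ := hlow p hp2 hpq (η / 2) (by positivity) (7 * max C 1)
  refine ⟨|A| * |D₁|, fun ρ hρ hρ1 => ?_⟩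
  refine ((hA ρ _ hρ hρ1 (hD₁ ρ hρ hρ1)).mono_C (le_max_left _ _) hρ.le).mono_D ?_
  rw [hpe]
  have hρa : 0 < ρ ^ (-(2 * (dd V : ℝ) * δ)) := Real.rpow_pos_of_pos hρ _
  have hρb : 0 < ρ ^ (-(η / 2)) := Real.rpow_pos_of_pos hρ _
  have hδ3 : 2 * (dd V : ℝ) * δ ≤ η / 2 := by
    calc 2 * (dd V : ℝ) * δ ≤ 2 * (dd V : ℝ) * (η / (4 * dd V)) := by gcongr
      _ = η / 2 := by
          field_simp
          ring
  calc ENNReal.ofReal (A * ρ ^ (-(2 * (dd V : ℝ) * δ))) * ENNReal.ofReal (D₁ * ρ ^ (-(η / 2)))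
      ≤ ENNReal.ofReal (|A| * ρ ^ (-(2 * (dd V : ℝ) * δ))) * ENNReal.ofReal (|D₁| * ρ ^ (-(η / 2))) := by
        gcongr
        · exact le_abs_self A
        · exact le_abs_self D₁
    _ = ENNReal.ofReal (|A| * ρ ^ (-(2 * (dd V : ℝ) * δ)) * (|D₁| * ρ ^ (-(η / 2)))) := (ENNReal.ofReal_mul (by positivity)).symm
    _ ≤ ENNReal.ofReal (|A| * |D₁| * ρ ^ (-η)) := by
        refine ENNReal.ofReal_le_ofReal ?_
        have : ρ ^ (-(2 * (dd V : ℝ) * δ)) * ρ ^ (-(η / 2)) ≤ ρ ^ (-η) := by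
          rw [← Real.rpow_add hρ]
          exact Real.rpow_le_rpow_of_exponent_ge hρ hρ1 (by linarith)
        calc |A| * ρ ^ (-(2 * (dd V : ℝ) * δ)) * (|D₁| * ρ ^ (-(η / 2))) = |A| * |D₁| * (ρ ^ (-(2 * (dd V : ℝ) * δ)) * ρ ^ (-(η / 2))) := by ring
          _ ≤ |A| * |D₁| * ρ ^ (-η) := by gcongr

end Claimed.Agent.BD
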