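import Claimed.Agent.Lib.BD.Resc

/-!
# Box BD, unit U8b: THE CYLINDER LEMMA (slices, Tonelli, Minkowski) and the base case `k = 0`.      (architect helper74; language: `Lib/BD/Defs.lean` of helper266).   PAPER-FREE, Mathlib only.

`V = W ⊕ ℝ n`.  To keep ONE model space `W` for ALL unit vectors `n` (the constants of the induction hypothesis `DecPow W p η` must not depend on `n`) a splitting is an isometry `e : V ≃ₗᵢ[ℝ] WithLp 2 (W × ℝ)`;
`bdc_split` produces one with `cyA e v = ⟪n, v⟫` for every unit vector `n` as soon as `finrank V = finrank W + 1`.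
* `cyJ e : (W × ℝ) ≃L[ℝ] V` the coordinates, `cyW e v`, `cyA e v` the components, `cyR e : ((W × ℝ) × ℝ) ≃ᵐ V × ℝ`, `((x', t), y) ↦ (cyJ (x', y), t)` (volume preserving).
* `cySl e F y` = the slice `(x', t) ↦ F (cyJ (x', y), t)`;   `cyPr e S` = the projection of a frequency set.
* EXIT: **`bdc_cyl`** (robust family whose centres are `C ρ`-close to an affine hyperplane: constant of `W`); tools `bdc_gal_dec` (Galilean maps), `bdc_core` (decoupling slice by slice).   Base case, trivial bound: `Lib/BD/Resc.lean`.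
No sorry in this file (it rests on the leaves of `Fs.lean`, `Wt.lean`, `Abs.lean`: `FS.continuous`, `FS.unpar`, `ip_Lam`, `Par_preimage_cap`, `mult_scale`, `abs_minkowski`).
-/

set_option autoImplicit false
set_option linter.unusedSectionVars false
open MeasureTheory Set
open scoped ENNReal NNReal RealInnerProductSpace

namespace Claimed.Agent.BD

noncomputable section

variable {V W : Type} [NormedAddCommGroup V] [InnerProductSpace ℝ V] [FiniteDimensional ℝ V] [MeasurableSpace V] [BorelSpace V]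
  [NormedAddCommGroup W] [InnerProductSpace ℝ W] [FiniteDimensional ℝ W] [MeasurableSpace W] [BorelSpace W]

/-! ## 1. Coordinates -/

/-- the coordinates of a splitting -/
def cyJ (e : V ≃ₗᵢ[ℝ] WithLp 2 (W × ℝ)) : (W × ℝ) ≃L[ℝ] V :=
  (WithLp.prodContinuousLinearEquiv 2 ℝ W ℝ).symm.trans e.symm.toContinuousLinearEquiv

/-- the component in `W` -/
def cyW (e : V ≃ₗᵢ[ℝ] WithLp 2 (W × ℝ)) (v : V) : W := ((cyJ e).symm v).1

/-- the component along the normal -/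
def cyA (e : V ≃ₗᵢ[ℝ] WithLp 2 (W × ℝ)) (v : V) : ℝ := ((cyJ e).symm v).2

theorem bdc_J_WA (e : V ≃ₗᵢ[ℝ] WithLp 2 (W × ℝ)) (v : V) : cyJ e (cyW e v, cyA e v) = v := by
  unfold cyW cyA
  simp

theorem bdc_W_J (e : V ≃ₗᵢ[ℝ] WithLp 2 (W × ℝ)) (q : W × ℝ) : cyW e (cyJ e q) = q.1 := by
  unfold cyW
  simp

theorem bdc_A_J (e : V ≃ₗᵢ[ℝ] WithLp 2 (W × ℝ)) (q : W × ℝ) : cyA e (cyJ e q) = q.2 := by
  unfold cyA
  simp

theorem bdc_J_inner (e : V ≃ₗᵢ[ℝ] WithLp 2 (W × ℝ)) (q q' : W × ℝ) :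
    inner ℝ (cyJ e q) (cyJ e q') = inner ℝ q.1 q'.1 + q.2 * q'.2 := by
  show inner ℝ (e.symm (WithLp.toLp 2 q)) (e.symm (WithLp.toLp 2 q')) = _
  rw [LinearIsometryEquiv.inner_map_map, WithLp.prod_inner_apply]
  simp [mul_comm]

theorem bdc_J_norm_sq (e : V ≃ₗᵢ[ℝ] WithLp 2 (W × ℝ)) (q : W × ℝ) : ‖cyJ e q‖ ^ 2 = ‖q.1‖ ^ 2 + q.2 ^ 2 := by
  rw [← real_inner_self_eq_norm_sq, bdc_J_inner, real_inner_self_eq_norm_sq]
  ring

theorem bdc_J_mp (e : V ≃ₗᵢ[ℝ] WithLp 2 (W × ℝ)) : MeasurePreserving (cyJ e) volume volume :=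
  e.symm.measurePreserving.comp (WithLp.volume_preserving_toLp W ℝ)

/-- `((x', t), y) ↦ (cyJ (x', y), t)` -/
def cyR (e : V ≃ₗᵢ[ℝ] WithLp 2 (W × ℝ)) : ((W × ℝ) × ℝ) ≃ᵐ (V × ℝ) where
  toFun r := (cyJ e (r.1.1, r.2), r.1.2)
  invFun z := ((cyW e z.1, z.2), cyA e z.1)
  left_inv := by
    intro r
    simp [bdc_W_J, bdc_A_J]
  right_inv := by
    intro z
    simp [bdc_J_WA]
  measurable_toFun := by
    have : Continuous fun r : (W × ℝ) × ℝ => (cyJ e (r.1.1, r.2), r.1.2) := by fun_prop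
    exact this.measurable
  measurable_invFun := by
    have : Continuous fun z : V × ℝ => ((((cyJ e).symm z.1).1, z.2), ((cyJ e).symm z.1).2) := by fun_prop
    exact this.measurable

theorem bdc_R_apply (e : V ≃ₗᵢ[ℝ] WithLp 2 (W × ℝ)) (r : (W × ℝ) × ℝ) : cyR e r = (cyJ e (r.1.1, r.2), r.1.2) := rfl

/-- **L-BDC-RMP** (~40 l.).  `cyR e = Prod.map (cyJ e) id ∘ σ`, `σ ((x,t),y) = ((x,y),t)`;  `σ` = `prodAssoc`, `id × swap`, `prodAssoc.symm` (`measurePreserving_prodAssoc`, `Measure.measurePreserving_swap`, `MeasurePreserving.prod`, `MeasurePreserving.id`); `bdc_J_mp`. -/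
theorem bdc_R_mp (e : V ≃ₗᵢ[ℝ] WithLp 2 (W × ℝ)) : MeasurePreserving (cyR e) volume volume := by
  have h1 : MeasurePreserving (MeasurableEquiv.prodAssoc : (W × ℝ) × ℝ ≃ᵐ W × (ℝ × ℝ)) volume volume := measurePreserving_prodAssoc volume volume volume
  have h2 : MeasurePreserving (Prod.map id Prod.swap : W × (ℝ × ℝ) → W × (ℝ × ℝ)) volume volume :=
    (MeasurePreserving.id volume).prod Measure.measurePreserving_swap
  have h3 : MeasurePreserving ((MeasurableEquiv.prodAssoc : (W × ℝ) × ℝ ≃ᵐ W × (ℝ × ℝ)).symm) volume volume := h1.symm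
  have h4 : MeasurePreserving (Prod.map (cyJ e) id : (W × ℝ) × ℝ → V × ℝ) volume volume := (bdc_J_mp e).prod (MeasurePreserving.id _)
  exact h4.comp (h3.comp (h2.comp h1))

theorem bdc_pr_R (e : V ≃ₗᵢ[ℝ] WithLp 2 (W × ℝ)) (q : W × ℝ) (y : ℝ) (r : (W × ℝ) × ℝ) :
    pr (cyJ e (q.1, y), q.2) (cyR e r) = pr q r.1 + y * r.2 := by
  rw [bdc_R_apply]
  unfold pr
  rw [bdc_J_inner]
  ring

/-! ## 2. Generalities on `FS`, `ch`, `cap`, `Rob`, `nm` -/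

theorem bdc_ch_add (a b : ℝ) : ch (a + b) = ch a * ch b := by
  unfold ch
  rw [← Complex.exp_add]
  push_cast
  ring_nf

theorem bdc_ch_norm (a : ℝ) : ‖ch a‖ = 1 := by
  unfold ch
  exact Complex.norm_exp_ofReal_mul_I a

theorem bdc_ch_cont : Continuous ch := by
  unfold ch
  fun_prop

theorem bdc_pr_cont : Continuous fun zw : (V × ℝ) × (V × ℝ) => pr zw.1 zw.2 := by
  unfold pr
  fun_prop

theorem bdc_fs_mono {S T : Set (V × ℝ)} (h : S ⊆ T) {F : V × ℝ → ℂ} (hF : FS S F) : FS T F := by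
  obtain ⟨g, h1, h2, h3⟩ := hF
  exact ⟨g, h1, fun w hw => h2 w fun hs => hw (h hs), h3⟩

theorem bdc_cap_mono (v : V) {a a' b b' : ℝ} (ha : a ≤ a') (hb : b ≤ b') : cap v a b ⊆ cap v a' b' :=
  fun _ hw => ⟨hw.1.trans ha, hw.2.trans hb⟩

theorem bdc_fs_cont {S : Set (V × ℝ)} {F : V × ℝ → ℂ} (h : FS S F) : Continuous F := h.continuous

theorem bdc_rob_nonneg {C ρ : ℝ} {ι : Type} {s : Finset ι} {v : ι → V} {H : ι → V × ℝ → ℂ} (h : Rob C ρ s v H) : 0 ≤ C := by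
  have := h.mult 0 ∅ (Finset.empty_subset _) (fun j hj => absurd hj (Finset.notMem_empty j))
  simpa using this

theorem bdc_rob_mono {C C' ρ : ℝ} (hC : C ≤ C') (hρ : 0 ≤ ρ) {ι : Type} {s : Finset ι} {v : ι → V} {H : ι → V × ℝ → ℂ} (h : Rob C ρ s v H) :
    Rob C' ρ s v H where
  bdd := fun j hj => (h.bdd j hj).trans hC
  mult := fun ξ t ht h1 => (h.mult ξ t ht h1).trans hC
  fs := fun j hj => bdc_fs_mono (bdc_cap_mono _ (mul_le_mul_of_nonneg_right hC hρ) (mul_le_mul_of_nonneg_right hC (by positivity))) (h.fs j hj)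

theorem bdc_mink {α : Type} [MeasurableSpace α] (μ : Measure α) {ι : Type} (s : Finset ι) (φ : ι → α → ℝ≥0∞) (hφ : ∀ j ∈ s, AEMeasurable (φ j) μ)
    (q : ℝ) (hq : 1 ≤ q) : (∫⁻ a, (∑ j ∈ s, φ j a) ^ q ∂μ) ^ (1 / q) ≤ ∑ j ∈ s, (∫⁻ a, φ j a ^ q ∂μ) ^ (1 / q) := abs_minkowski hq s φ hφ

/-! ## 3. Slices -/

/-- the slice of a function at height `y` -/
def cySl (e : V ≃ₗᵢ[ℝ] WithLp 2 (W × ℝ)) (F : V × ℝ → ℂ) (y : ℝ) : W × ℝ → ℂ := fun q => F (cyJ e (q.1, y), q.2)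

/-- the projection of a set of frequencies -/
def cyPr (e : V ≃ₗᵢ[ℝ] WithLp 2 (W × ℝ)) (S : Set (V × ℝ)) : Set (W × ℝ) := {q | ∃ a : ℝ, (cyJ e (q.1, a), q.2) ∈ S}

/-- **L-BDC-IP** (~40 l.).  Tonelli.   `ip p F = ∫⁻ r, ‖F (cyR e r)‖ₑ ^ p` (`(bdc_R_mp e).lintegral_comp_emb` / `lintegral_comp` with the measurable function `z ↦ ‖F z‖ₑ ^ p`), then `lintegral_prod_symm` (volume on `(W × ℝ) × ℝ` is the product). -/
theorem bdc_ip_slice (e : V ≃ₗᵢ[ℝ] WithLp 2 (W × ℝ)) (p : ℝ) (F : V × ℝ → ℂ) (hF : Measurable F) : ip p F = ∫⁻ y, ip p (cySl e F y) := by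
  unfold ip
  have hm : Measurable fun z : V × ℝ => ‖F z‖ₑ ^ p := hF.enorm.pow_const p
  rw [← (bdc_R_mp e).lintegral_comp hm]
  exact lintegral_prod_symm _ (hm.comp (cyR e).measurable).aemeasurable

/-- **L-BDC-IPM** (~20 l.).  `Measurable.lintegral_prod_left'` for `(q, y) ↦ ‖F (cyR e (q, y))‖ₑ ^ p`. -/
theorem bdc_ip_meas (e : V ≃ₗᵢ[ℝ] WithLp 2 (W × ℝ)) (p : ℝ) (F : V × ℝ → ℂ) (hF : Measurable F) : Measurable fun y => ip p (cySl e F y) := by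
  have hm : Measurable fun z : V × ℝ => ‖F z‖ₑ ^ p := hF.enorm.pow_const p
  exact (hm.comp (cyR e).measurable).lintegral_prod_left'

/-- **L-BDC-FS** (~150 l.).  The slice of a function with Fourier support in `S`.   `g_y q = ∫ a, ch (y * a) * g (cyR e (q, a))`.
Integrable: `g ∘ cyR e` is integrable (`(bdc_R_mp e).integrable_comp_emb (cyR e).measurableEmbedding`), times the bounded continuous factor (`Integrable.bdd_mul`, `bdc_ch_norm`), `Integrable.integral_prod_left`.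
Vanishing: if `q ∉ cyPr e S` the integrand is `0`.   Formula: `F z = ∫ r, ch (pr z (cyR e r)) * g (cyR e r)` (`(bdc_R_mp e).integral_comp'`), `bdc_pr_R`, `bdc_ch_add`, `integral_prod`, `integral_const_mul`. -/
theorem bdc_fs_slice (e : V ≃ₗᵢ[ℝ] WithLp 2 (W × ℝ)) {S : Set (V × ℝ)} {F : V × ℝ → ℂ} (h : FS S F) (y : ℝ) : FS (cyPr e S) (cySl e F y) := by
  obtain ⟨g, hg, hS, hF⟩ := h
  have hgi : Integrable (fun r : (W × ℝ) × ℝ => g (cyR e r)) volume :=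
    ((bdc_R_mp e).integrable_comp_emb (cyR e).measurableEmbedding).2 hg
  have hGi : Integrable (fun r : (W × ℝ) × ℝ => ch (y * r.2) * g (cyR e r)) volume := by
    refine hgi.bdd_mul (c := 1) ?_ (Filter.Eventually.of_forall fun r => (bdc_ch_norm _).le)
    have : Continuous fun r : (W × ℝ) × ℝ => ch (y * r.2) := bdc_ch_cont.comp (by fun_prop)
    exact this.aestronglyMeasurable
  refine ⟨fun q => ∫ a, ch (y * a) * g (cyR e (q, a)), hGi.integral_prod_left, ?_, ?_⟩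
  · intro q hq
    have h0 : ∀ a, g (cyR e (q, a)) = 0 := fun a => hS _ fun hmem => hq ⟨a, hmem⟩
    simp [h0]
  · intro q
    show F (cyJ e (q.1, y), q.2) = _
    rw [hF, ← (bdc_R_mp e).integral_comp' (fun w => ch (pr (cyJ e (q.1, y), q.2) w) * g w)]
    have e1 : ∀ r : (W × ℝ) × ℝ, ch (pr (cyJ e (q.1, y), q.2) (cyR e r)) * g (cyR e r) = ch (pr q r.1) * (ch (y * r.2) * g (cyR e r)) := by
      intro r
      rw [bdc_pr_R, bdc_ch_add]
      ring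
    simp_rw [e1]
    have hHi : Integrable (fun r : (W × ℝ) × ℝ => ch (pr q r.1) * (ch (y * r.2) * g (cyR e r))) (volume.prod volume) := by
      refine Integrable.bdd_mul (c := 1) hGi ?_ (Filter.Eventually.of_forall fun r => (bdc_ch_norm _).le)
      have : Continuous fun r : (W × ℝ) × ℝ => ch (pr q r.1) := by
        refine bdc_ch_cont.comp ?_
        unfold pr
        fun_prop
      exact this.aestronglyMeasurable
    refine (integral_prod _ hHi).trans ?_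
    refine integral_congr_ae (Filter.Eventually.of_forall fun q' => ?_)
    exact integral_const_mul (ch (pr q q')) fun a : ℝ => ch (y * a) * g (cyR e (q', a))

/-- **L-BDC-CAP** (~60 l.).  The projection of a cap whose centre is close to the hyperplane `a = 0`.   `w = (cyJ e (ξ', a), τ)`, `v = cyJ e (v', a₀)` (`bdc_J_WA`): `‖(ξ' - v', a - a₀)‖² = ‖ξ' - v'‖² + (a - a₀)²` (`map_sub`, `bdc_J_norm_sq`), so `‖ξ' - v'‖ ≤ C ρ`, `|a| ≤ 2 C ρ`;
`‖cyJ e (ξ', a)‖² = ‖ξ'‖² + a²`, `a² ≤ 4 C² ρ²`, `C ≤ C²`. -/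
theorem bdc_cap_proj (e : V ≃ₗᵢ[ℝ] WithLp 2 (W × ℝ)) (C ρ : ℝ) (hC : 1 ≤ C) (hρ : 0 ≤ ρ) (v : V) (hv : |cyA e v| ≤ C * ρ) :
    cyPr e (cap v (C * ρ) (C * ρ ^ 2)) ⊆ cap (cyW e v) (C * ρ) (5 * C ^ 2 * ρ ^ 2) := by
  rintro ⟨ξ', τ⟩ ⟨a, h1, h2⟩
  simp only at h1 h2
  have hCρ : 0 ≤ C * ρ := by positivity
  have e1 : cyJ e (ξ', a) - v = cyJ e (ξ' - cyW e v, a - cyA e v) := by
    conv_lhs => rw [← bdc_J_WA e v]
    rw [← map_sub]
    rfl
  have e2 : ‖ξ' - cyW e v‖ ^ 2 + (a - cyA e v) ^ 2 ≤ (C * ρ) ^ 2 := by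
    rw [e1] at h1
    have := bdc_J_norm_sq e (ξ' - cyW e v, a - cyA e v)
    simp only at this
    rw [← this]
    exact pow_le_pow_left₀ (norm_nonneg _) h1 2
  have e3 : ‖ξ' - cyW e v‖ ≤ C * ρ := by
    refine abs_le_of_sq_le_sq' ?_ hCρ |>.2
    nlinarith [sq_nonneg (a - cyA e v)]
  have e4 : |a - cyA e v| ≤ C * ρ := by
    refine abs_le.2 (abs_le_of_sq_le_sq' ?_ hCρ)
    nlinarith [sq_nonneg ‖ξ' - cyW e v‖]
  have e5 : |a| ≤ 2 * (C * ρ) := by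
    have := abs_sub_abs_le_abs_sub a (cyA e v)
    linarith
  have e6 : a ^ 2 ≤ 4 * C ^ 2 * ρ ^ 2 := by
    have := pow_le_pow_left₀ (abs_nonneg a) e5 2
    rw [sq_abs] at this
    nlinarith
  refine ⟨e3, ?_⟩
  simp only
  rw [bdc_J_norm_sq] at h2
  simp only at h2
  have e7 : C * ρ ^ 2 ≤ C ^ 2 * ρ ^ 2 := by
    have : C ≤ C ^ 2 := by nlinarith
    exact mul_le_mul_of_nonneg_right this (by positivity)
  rw [abs_le] at h2 ⊢
  constructor
  · nlinarith [sq_nonneg a, h2.1]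
  · nlinarith [h2.2]

/-- **L-BDC-DIST** (~30 l.).  `v - cyJ e (ξ', 0) = cyJ e (cyW e v - ξ', cyA e v)`;  `√(x² + a²) ≤ x + |a|`. -/
theorem bdc_dist (e : V ≃ₗᵢ[ℝ] WithLp 2 (W × ℝ)) (v : V) (ξ' : W) : ‖v - cyJ e (ξ', 0)‖ ≤ ‖cyW e v - ξ'‖ + |cyA e v| := by
  have e1 : v - cyJ e (ξ', 0) = cyJ e (cyW e v - ξ', cyA e v) := by
    conv_lhs => rw [← bdc_J_WA e v]
    rw [← map_sub]
    simp
  rw [e1]
  have h := bdc_J_norm_sq e (cyW e v - ξ', cyA e v)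
  simp only at h
  refine abs_le_of_sq_le_sq' ?_ (by positivity) |>.2
  rw [h, add_sq, sq_abs]
  have : 0 ≤ 2 * ‖cyW e v - ξ'‖ * |cyA e v| := by positivity
  linarith

theorem bdc_W_norm_le (e : V ≃ₗᵢ[ℝ] WithLp 2 (W × ℝ)) (v : V) : ‖cyW e v‖ ≤ ‖v‖ := by
  have h := bdc_J_norm_sq e (cyW e v, cyA e v)
  rw [bdc_J_WA] at h
  have h2 : ‖cyW e v‖ ^ 2 ≤ ‖v‖ ^ 2 := by
    rw [h]
    have := sq_nonneg (cyA e v)
    simp only
    linarith
  exact le_of_sq_le_sq h2 (norm_nonneg _) |> fun h => h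

/-- the slices of a robust family whose centres are close to the hyperplane `a = 0` are a robust family in `W`; the new constant does not depend on the splitting -/
theorem bdc_rob_slice (C : ℝ) (hC : 1 ≤ C) : ∃ C' : ℝ, ∀ (e : V ≃ₗᵢ[ℝ] WithLp 2 (W × ℝ)) (ρ : ℝ), 0 < ρ → ∀ (ι : Type) (s : Finset ι) (v : ι → V)
    (H : ι → V × ℝ → ℂ), Rob C ρ s v H → (∀ j ∈ s, |cyA e (v j)| ≤ C * ρ) → ∀ y : ℝ, Rob C' ρ s (fun j => cyW e (v j)) (fun j => cySl e (H j) y) := by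
  refine ⟨max (5 * C ^ 2) ((2 * (1 + C) + 1) ^ Module.finrank ℝ V * C), fun e ρ hρ ι s v H hR hA y => ⟨fun j hj => ?_, fun ξ' t ht h1 => ?_, fun j hj => ?_⟩⟩
  · have h5 : C ≤ 5 * C ^ 2 := by nlinarith
    exact ((bdc_W_norm_le e (v j)).trans (hR.bdd j hj)).trans (h5.trans (le_max_left _ _))
  · refine (mult_scale hρ (by linarith) hR.mult (cyJ e (ξ', 0)) t ht fun j hj => ?_).trans (le_max_right _ _)
    have := bdc_dist e (v j) ξ'
    have := h1 j hj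
    have := hA j (ht hj)
    linarith
  · refine bdc_fs_mono ((bdc_cap_proj e C ρ hC hρ.le (v j) (hA j hj)).trans (bdc_cap_mono _ ?_ ?_)) (bdc_fs_slice e (hR.fs j hj) y)
    · have h5 : C ≤ 5 * C ^ 2 := by nlinarith
      exact mul_le_mul_of_nonneg_right (h5.trans (le_max_left _ _)) hρ.le
    · exact mul_le_mul_of_nonneg_right (le_max_left _ _) (by positivity)

/-! ## 4. Decoupling slice by slice -/

/-- **L-BDC-POW** (~60 l.).  Pure `ℝ≥0∞`: the decoupling inequality in `p`-th powers.   `nm = ip ^ (1/p)`;  raise to the power `p` (`ENNReal.rpow_le_rpow`), `ENNReal.mul_rpow_of_nonneg`, `← ENNReal.rpow_mul`, `1/p * p = 1`, `1/p * 2 = 2/p`, `1/2 * p = p/2`. -/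
theorem bdc_pow (p : ℝ) (hp : 0 < p) (D a : ℝ≥0∞) {ι : Type} (s : Finset ι) (x : ι → ℝ≥0∞)
    (h : a ^ (1 / p) ≤ D * (∑ j ∈ s, (x j ^ (1 / p)) ^ (2 : ℝ)) ^ (1 / 2 : ℝ)) : a ≤ D ^ p * (∑ j ∈ s, x j ^ (2 / p)) ^ (p / 2) := by
  have h1 := ENNReal.rpow_le_rpow h hp.le
  rw [← ENNReal.rpow_mul, ENNReal.mul_rpow_of_nonneg _ _ hp.le, ← ENNReal.rpow_mul] at h1
  have e1 : 1 / p * p = 1 := by field_simp
  have e2 : (1 / 2 : ℝ) * p = p / 2 := by ring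
  rw [e1, ENNReal.rpow_one, e2] at h1
  have e3 : ∀ j, (x j ^ (1 / p)) ^ (2 : ℝ) = x j ^ (2 / p) := fun j => by
    rw [← ENNReal.rpow_mul]
    congr 1
    ring
  simpa only [e3] using h1

/-- **L-BDC-POW'** (~60 l.).  The converse direction. -/
theorem bdc_pow' (p : ℝ) (hp : 0 < p) (D a : ℝ≥0∞) {ι : Type} (s : Finset ι) (x : ι → ℝ≥0∞)
    (h : a ≤ D ^ p * (∑ j ∈ s, x j ^ (2 / p)) ^ (p / 2)) : a ^ (1 / p) ≤ D * (∑ j ∈ s, (x j ^ (1 / p)) ^ (2 : ℝ)) ^ (1 / 2 : ℝ) := by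
  have hp' : 0 ≤ 1 / p := by positivity
  have h1 := ENNReal.rpow_le_rpow h hp'
  rw [ENNReal.mul_rpow_of_nonneg _ _ hp', ← ENNReal.rpow_mul, ← ENNReal.rpow_mul] at h1
  have e1 : p * (1 / p) = 1 := by field_simp
  have e2 : p / 2 * (1 / p) = 1 / 2 := by field_simp
  rw [e1, ENNReal.rpow_one, e2] at h1
  have e3 : ∀ j, (x j ^ (1 / p)) ^ (2 : ℝ) = x j ^ (2 / p) := fun j => by
    rw [← ENNReal.rpow_mul]
    congr 1
    ring
  simpa only [e3] using h1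

/-- **decoupling slice by slice** (Tonelli + Minkowski in `L^{p/2}(dy)`) -/
theorem bdc_core (e : V ≃ₗᵢ[ℝ] WithLp 2 (W × ℝ)) (p : ℝ) (hp : 2 ≤ p) (C' ρ : ℝ) (D : ℝ≥0∞) (hD : DecLe W p C' ρ D) {ι : Type} (s : Finset ι)
    (v' : ι → W) (H : ι → V × ℝ → ℂ) (hm : ∀ j ∈ s, Measurable (H j)) (hrob : ∀ y, Rob C' ρ s v' (fun j => cySl e (H j) y)) :
    nm p (fun z => ∑ j ∈ s, H j z) ≤ D * (∑ j ∈ s, nm p (H j) ^ (2 : ℝ)) ^ (1 / 2 : ℝ) := by
  have hp0 : 0 < p := by linarith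
  have hq : 1 ≤ p / 2 := by linarith
  have hq0 : 0 < p / 2 := by linarith
  unfold nm
  refine bdc_pow' p hp0 D _ s _ ?_
  have hms : Measurable fun z => ∑ j ∈ s, H j z := Finset.measurable_fun_sum s hm
  rw [bdc_ip_slice e p _ hms]
  have h1 : ∀ y, ip p (cySl e (fun z => ∑ j ∈ s, H j z) y) ≤ D ^ p * (∑ j ∈ s, ip p (cySl e (H j) y) ^ (2 / p)) ^ (p / 2) := by
    intro y
    exact bdc_pow p hp0 D _ s _ (hD ι s v' _ (hrob y))
  refine (lintegral_mono h1).trans ?_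
  have hmeas : Measurable fun y => (∑ j ∈ s, ip p (cySl e (H j) y) ^ (2 / p)) ^ (p / 2) :=
    (Finset.measurable_fun_sum s fun j hj => (bdc_ip_meas e p (H j) (hm j hj)).pow_const _).pow_const _
  rw [lintegral_const_mul _ hmeas]
  gcongr
  have h2 := bdc_mink volume s (fun j y => ip p (cySl e (H j) y) ^ (2 / p))
    (fun j hj => ((bdc_ip_meas e p (H j) (hm j hj)).pow_const _).aemeasurable) (p / 2) hq
  have h3 : ∀ j ∈ s, (∫⁻ y, (ip p (cySl e (H j) y) ^ (2 / p)) ^ (p / 2)) ^ (1 / (p / 2)) = ip p (H j) ^ (2 / p) := by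
    intro j hj
    rw [bdc_ip_slice e p (H j) (hm j hj)]
    congr 1
    · refine lintegral_congr fun y => ?_
      rw [← ENNReal.rpow_mul]
      have : 2 / p * (p / 2) = 1 := by field_simp
      rw [this, ENNReal.rpow_one]
    · field_simp
  rw [Finset.sum_congr rfl h3] at h2
  have h4 := ENNReal.rpow_le_rpow h2 hq0.le
  rw [← ENNReal.rpow_mul] at h4
  have : 1 / (p / 2) * (p / 2) = 1 := by field_simp
  rw [this, ENNReal.rpow_one] at h4
  exact h4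

/-- the cylinder lemma for the hyperplane `a = 0` of a splitting -/
theorem bdc_cyl0 (p : ℝ) (hp : 2 ≤ p) (C : ℝ) (hC : 1 ≤ C) : ∃ C' : ℝ, ∀ (e : V ≃ₗᵢ[ℝ] WithLp 2 (W × ℝ)) (ρ : ℝ) (D : ℝ≥0∞), 0 < ρ → DecLe W p C' ρ D →
    ∀ (ι : Type) (s : Finset ι) (v : ι → V) (H : ι → V × ℝ → ℂ), Rob C ρ s v H → (∀ j ∈ s, |cyA e (v j)| ≤ C * ρ) →
      nm p (fun z => ∑ j ∈ s, H j z) ≤ D * (∑ j ∈ s, nm p (H j) ^ (2 : ℝ)) ^ (1 / 2 : ℝ) := by
  obtain ⟨C', hC'⟩ := bdc_rob_slice (V := V) (W := W) C hC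
  refine ⟨C', fun e ρ D hρ hD ι s v H hR hA => ?_⟩
  exact bdc_core e p hp C' ρ D hD s _ H (fun j hj => (bdc_fs_cont (hR.fs j hj)).measurable) (hC' e ρ hρ ι s v H hR hA)

/-! ## 5. Galilean maps -/

theorem bdc_par_cap (u v : V) (a b : ℝ) : Par u 1 ⁻¹' cap v a b ⊆ cap (v - u) a b := by
  rw [Par_preimage_cap u v one_pos]
  simp

theorem bdc_gal (u : V) {S : Set (V × ℝ)} {F : V × ℝ → ℂ} (h : FS S F) :
    ∃ G : V × ℝ → ℂ, FS (Par u 1 ⁻¹' S) G ∧ ∀ z, F z = ch (pr z (u, ‖u‖ ^ 2)) * G (Lam u 1 1 z) := by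
  obtain ⟨G, h1, h2⟩ := h.unpar u one_pos
  refine ⟨G, h1, fun z => ?_⟩
  rw [h2 z, one_pow]

theorem bdc_gal_nm (u : V) (p : ℝ) (G : V × ℝ → ℂ) : nm p (fun z => ch (pr z (u, ‖u‖ ^ 2)) * G (Lam u 1 1 z)) = nm p G := by
  unfold nm
  rw [ip_Lam u one_pos one_pos p (fun z => pr z (u, ‖u‖ ^ 2)) G]
  simp

/-- a decoupling inequality is invariant under Galilean maps -/
theorem bdc_gal_dec (u : V) (p : ℝ) (C ρ : ℝ) {ι : Type} (s : Finset ι) (v : ι → V) (H : ι → V × ℝ → ℂ) (hR : Rob C ρ s v H) (C₁ : ℝ) (hC₁ : C ≤ C₁) (hρ : 0 ≤ ρ)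
    (hb : ∀ j ∈ s, ‖v j - u‖ ≤ C₁) : ∃ G : ι → V × ℝ → ℂ, Rob C₁ ρ s (fun j => v j - u) G ∧ (∀ j ∈ s, nm p (H j) = nm p (G j)) ∧
      nm p (fun z => ∑ j ∈ s, H j z) = nm p (fun z => ∑ j ∈ s, G j z) := by
  have hex : ∀ j, ∃ G : V × ℝ → ℂ, j ∈ s → FS (Par u 1 ⁻¹' cap (v j) (C * ρ) (C * ρ ^ 2)) G ∧ ∀ z, H j z = ch (pr z (u, ‖u‖ ^ 2)) * G (Lam u 1 1 z) := by
    intro j
    by_cases hj : j ∈ s
    · obtain ⟨G, hG⟩ := bdc_gal u (hR.fs j hj)
      exact ⟨G, fun _ => hG⟩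
    · exact ⟨0, fun h => absurd h hj⟩
  choose G hG using hex
  have hfs : ∀ j ∈ s, FS (cap (v j - u) (C₁ * ρ) (C₁ * ρ ^ 2)) (G j) := fun j hj =>
    bdc_fs_mono ((bdc_par_cap u (v j) _ _).trans (bdc_cap_mono _ (mul_le_mul_of_nonneg_right hC₁ hρ) (mul_le_mul_of_nonneg_right hC₁ (by positivity))))
      (hG j hj).1
  refine ⟨G, ⟨hb, fun ξ t ht h1 => ?_, hfs⟩, fun j hj => ?_, ?_⟩
  · refine (hR.mult (ξ + u) t ht fun j hj => ?_).trans hC₁
    have := h1 j hj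
    rwa [show v j - (ξ + u) = v j - u - ξ by abel]
  · rw [← bdc_gal_nm u p (G j)]
    congr 1
    funext z
    exact (hG j hj).2 z
  · rw [← bdc_gal_nm u p (fun z => ∑ j ∈ s, G j z)]
    congr 1
    funext z
    rw [Finset.mul_sum]
    exact Finset.sum_congr rfl fun j hj => (hG j hj).2 z

/-! ## 6. The exit -/

theorem bdc_split_aux (hW : Module.finrank ℝ V = Module.finrank ℝ W + 1) (n : V) (hn : ‖n‖ = 1) :
    ∃ e : V ≃ₗᵢ[ℝ] WithLp 2 (W × ℝ), ∀ v : V, (WithLp.ofLp (e v)).2 = inner ℝ n v := by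
  have hn0 : n ≠ 0 := by
    intro h
    rw [h, norm_zero] at hn
    exact zero_ne_one hn
  have hK : Module.finrank ℝ ((ℝ ∙ n)ᗮ : Submodule ℝ V) = Module.finrank ℝ W := by
    have : Fact (Module.finrank ℝ V = Module.finrank ℝ W + 1) := ⟨hW⟩
    exact Submodule.finrank_orthogonal_span_singleton hn0
  let φ : ((ℝ ∙ n)ᗮ : Submodule ℝ V) ≃ₗᵢ[ℝ] W :=
    (stdOrthonormalBasis ℝ ((ℝ ∙ n)ᗮ : Submodule ℝ V)).equiv (stdOrthonormalBasis ℝ W) (finCongr hK)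
  let L : V →ₗ[ℝ] WithLp 2 (W × ℝ) :=
    (WithLp.linearEquiv 2 ℝ (W × ℝ)).symm.toLinearMap ∘ₗ
      (LinearMap.prod (φ.toLinearEquiv.toLinearMap ∘ₗ ((ℝ ∙ n)ᗮ : Submodule ℝ V).orthogonalProjectionOnto.toLinearMap) (innerₛₗ ℝ n))
  have hL1 : ∀ v, (WithLp.ofLp (L v)).1 = φ (((ℝ ∙ n)ᗮ : Submodule ℝ V).orthogonalProjectionOnto v) := fun v => rfl
  have hL2 : ∀ v, (WithLp.ofLp (L v)).2 = inner ℝ n v := fun v => rfl
  have hL : ∀ v, ‖L v‖ = ‖v‖ := by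
    intro v
    rw [← sq_eq_sq₀ (norm_nonneg _) (norm_nonneg _), WithLp.prod_norm_sq_eq_of_L2]
    show ‖(WithLp.ofLp (L v)).1‖ ^ 2 + ‖(WithLp.ofLp (L v)).2‖ ^ 2 = _
    rw [hL1, hL2, LinearIsometryEquiv.norm_map, Submodule.norm_sq_eq_add_norm_sq_projection v (ℝ ∙ n)]
    have e1 : ‖(ℝ ∙ n).orthogonalProjectionOnto v‖ = ‖(inner ℝ n v : ℝ)‖ := by
      have : ((ℝ ∙ n).orthogonalProjectionOnto v : V) = (inner ℝ n v : ℝ) • n := Submodule.starProjection_unit_singleton ℝ hn v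
      rw [Submodule.coe_norm, this, norm_smul, hn, mul_one]
    rw [e1]
    ring
  have hfin : Module.finrank ℝ V = Module.finrank ℝ (WithLp 2 (W × ℝ)) := by
    rw [LinearEquiv.finrank_eq (WithLp.linearEquiv 2 ℝ (W × ℝ)), Module.finrank_prod, Module.finrank_self, hW]
  exact ⟨LinearIsometry.toLinearIsometryEquiv ⟨L, hL⟩ hfin, fun v => hL2 v⟩

/-- **L-BDC-SPLIT** (~120 l.).  A splitting with prescribed normal.   `K = ℝ ∙ n`:  `K.orthogonalDecomposition : V ≃ₗᵢ WithLp 2 (K × Kᗮ)`;  `LinearIsometryEquiv.toSpanUnitSingleton n hn : ℝ ≃ₗᵢ K`;  `Kᗮ ≃ₗᵢ W` by `OrthonormalBasis.equiv` of the two `stdOrthonormalBasis` (`finCongr`;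
`Submodule.finrank_add_finrank_orthogonal`, `finrank_span_singleton`);  `LinearIsometryEquiv.withLpProdCongr`, swap of the factors (or build `e.symm` by hand from `(w, a) ↦ φ w + a • n` with `LinearIsometryEquiv.ofSurjective` / `LinearEquiv.isometryOfInner`).
Second component: `⟪n, φ w + a • n⟫ = a`. -/
theorem bdc_split (hW : Module.finrank ℝ V = Module.finrank ℝ W + 1) (n : V) (hn : ‖n‖ = 1) :
    ∃ e : V ≃ₗᵢ[ℝ] WithLp 2 (W × ℝ), ∀ v : V, cyA e v = inner ℝ n v := by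
  obtain ⟨e, he⟩ := bdc_split_aux (W := W) hW n hn
  exact ⟨e, fun v => he v⟩

/-- **THE CYLINDER LEMMA.**   A robust family of `V` whose centres are `C ρ`-close to an affine hyperplane is decoupled with the constant of the robust families (parameter `C'`, depending only on `C`, `V`) of the model hyperplane `W`. -/
theorem bdc_cyl (hW : Module.finrank ℝ V = Module.finrank ℝ W + 1) (p : ℝ) (hp : 2 ≤ p) (C : ℝ) (hC : 1 ≤ C) : ∃ C' : ℝ, ∀ (ρ : ℝ) (D : ℝ≥0∞), 0 < ρ → ρ ≤ 1 →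
    DecLe W p C' ρ D → ∀ (ι : Type) (s : Finset ι) (v : ι → V) (H : ι → V × ℝ → ℂ), Rob C ρ s v H →
    ∀ (n : V) (c : ℝ), ‖n‖ = 1 → (∀ j ∈ s, |inner ℝ n (v j) - c| ≤ C * ρ) →
      nm p (fun z => ∑ j ∈ s, H j z) ≤ D * (∑ j ∈ s, nm p (H j) ^ (2 : ℝ)) ^ (1 / 2 : ℝ) := by
  obtain ⟨C', hC'⟩ := bdc_cyl0 (V := V) (W := W) p hp (3 * C) (by linarith)
  refine ⟨C', fun ρ D hρ hρ1 hD ι s v H hR n c hn hc => ?_⟩
  obtain ⟨e, he⟩ := bdc_split (W := W) hW n hn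
  have hb : ∀ j ∈ s, ‖v j - c • n‖ ≤ 3 * C := by
    intro j hj
    have h1 : |inner ℝ n (v j)| ≤ ‖v j‖ := by
      have := abs_real_inner_le_norm n (v j)
      rwa [hn, one_mul] at this
    have h2 : |c| ≤ 2 * C := by
      have h3 := hc j hj
      have h4 := hR.bdd j hj
      have h5 : C * ρ ≤ C := by nlinarith
      have h6 : |c| ≤ |inner ℝ n (v j)| + |inner ℝ n (v j) - c| := by
        have := abs_sub_abs_le_abs_sub c (inner ℝ n (v j))
        rw [abs_sub_comm] at this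
        linarith
      linarith
    calc ‖v j - c • n‖ ≤ ‖v j‖ + ‖c • n‖ := norm_sub_le _ _
      _ = ‖v j‖ + |c| := by rw [norm_smul, hn, mul_one, Real.norm_eq_abs]
      _ ≤ 3 * C := by have := hR.bdd j hj; linarith
  obtain ⟨G, hG1, hG2, hG3⟩ := bdc_gal_dec (c • n) p C ρ s v H hR (3 * C) (by linarith) hρ.le hb
  rw [hG3, Finset.sum_congr rfl fun j hj => by rw [hG2 j hj]]
  refine hC' e ρ D hρ hD ι s _ G hG1 fun j hj => ?_
  rw [he, inner_sub_right, real_inner_smul_right, real_inner_self_eq_norm_sq, hn]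
  have := hc j hj
  have h5 : C * ρ ≤ 3 * C * ρ := by nlinarith
  simpa using this.trans h5

/-- Stores the on-demand equation lemmas of the definitions above in THIS module (rule 6 hygiene). -/
theorem bdc_forced : True := by
  have := @cyJ.eq_1; have := @cyW.eq_1; have := @cyA.eq_1; have := @cyR.eq_1; have := @cySl.eq_1; have := @cyPr.eq_1
  trivial

end

end Claimed.Agent.BD
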