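import Mathlib

/-!
# Box BD: `ℓ²` decoupling for the paraboloid, all dimensions, `2 ≤ p ≤ 2(k+2)/k`, `ε`-loss.   DEFINITIONS   (architect helper266; mathematics: report 850 of helper203, REDESIGNED as below)

## Design (read this first; it replaces grids, partitions into balls, weights `w_B` on balls and ALL pigeonholing of report 850)

* `V` = abstract finite dimensional real inner product space, `k = finrank V`, `d = k + 1`, space-time `V × ℝ` (sup norm, product volume), pairing `pr z w = ⟪x,ξ⟫ + t τ`, NO `2π`.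
* `FS S F` : `F z = ∫ ch (pr z w) g w`, `g` integrable, `g = 0` off `S` ("Fourier support in `S`").
* ROBUST FAMILIES instead of grids: `Rob C ρ s v H` : centres `‖v j‖ ≤ C`, at most `C` centres in every ball of radius `ρ`, `H j ∈ FS (cap (v j) (C ρ) (C ρ²))`.
  `DecLe V p C ρ D` : every robust family is decoupled in `L^p(V × ℝ)` (GLOBAL norms) with constant `D`.  `DecPow V p η` : `∀ C ∃ D ∀ ρ ≤ 1, DecLe V p C ρ (D ρ^(-η))`.
  EXACT SELF-SIMILARITY: a robust family with all centres within `σ` of `u` becomes, after the parabolic rescaling `Lam`, a robust family with the SAME `C` at scale `ρ/σ` (`DecLe.resc`).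
  Coarse caps = fibres of a map `π : ι → ι` onto a maximal `σ`-separated subset of the centres (`exists_net`); nested coarse caps = pairs `(π' θ, π θ)`.  No coordinates, no floors, no dyadic scales.
* LOCAL NORMS BY CONTINUOUS AVERAGING: `avp t E R F z = R^(-d) ∫ |F y|^t (1 + |y - z|/R)^(-E) dy` (the `t`-th power of the local `L^t` average around `z`).  Every local inequality is proved POINTWISE IN THE CENTRE `z`
  and then integrated `∫ dz` over the whole space-time (Tonelli: `∫ avp p E R F z dz = c_E ∫ |F|^p`).  There are no partitions into balls, no sums over balls, no upgrade lemmas (W2-W4 of the report disappear).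
  The weight exponent `E` only DECREASES along the chain (finite ladder, `E + Δ → E` in the ball inflation).
* global ⟹ local: multiply by `η((y - z)/R)`, `η ∈ FS (closedBall 0 1)`, `|η| ≥ 1` on the unit ball, rapidly decreasing (`exists_eta`); `FS.mul`.
* BALL INFLATION WITHOUT PIGEONHOLING: multilinear Kakeya holds with arbitrary weights, so with `θ = 2/t`, `m_J = avp t E R F_J z`, `g_J = avp t E' r F_J z'`, `λ_J = m_J^(θ-1)`:
  `∑ g_J^θ ≤ (∑ λ_J g_J)^θ (∑ m_J^θ)^(1-θ)` (Hölder) and MK for the weighted tubes gives `⨍ ∏_i (∑ λ_J g_J)^(1/k) ≲ ∏_i (∑ λ_J m_J)^(1/k) = ∏_i (∑ m_J^θ)^(1/k)`.  No dyadic classes, no logarithms.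
* transversality `Trans ν ξ` = no affine hyperplane is `ν`-close to all `k+1` points (1-Lipschitz in the points, so stable; determinant only inside the MK adapter).
* induction on `k` through `W = (ℝ ∙ n)ᗮ`; base case `k = 0` (a robust family has `≤ C` members).
-/

set_option autoImplicit false
open MeasureTheory Set
open scoped ENNReal NNReal RealInnerProductSpace

namespace Claimed.Agent.BD

noncomputable section

section alg
variable {V : Type} [NormedAddCommGroup V] [InnerProductSpace ℝ V]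

/-- the pairing of space-time with frequency space. -/
def pr (z w : V × ℝ) : ℝ := inner ℝ z.1 w.1 + z.2 * w.2

/-- the character `e^{iθ}`. -/
def ch (θ : ℝ) : ℂ := Complex.exp ((θ : ℂ) * Complex.I)

/-- the cap of the paraboloid `τ = |ξ|²` over the ball `|ξ - v| ≤ a`, vertical thickness `b`. -/
def cap (v : V) (a b : ℝ) : Set (V × ℝ) := {w | ‖w.1 - v‖ ≤ a ∧ |w.2 - ‖w.1‖ ^ 2| ≤ b}

/-- the linear map `(x,t) ↦ (a (x + 2 t v), b t)` of space-time (parabolic rescaling: `a = σ`, `b = σ²`; Galilean: `a = b = 1`; isotropic: `v = 0`, `a = b`). -/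
def Lam (v : V) (a b : ℝ) (z : V × ℝ) : V × ℝ := (a • (z.1 + (2 * z.2) • v), b * z.2)

/-- its transpose: `pr (Lam v a b z) w = pr z (LamT v a b w)`. -/
def LamT (v : V) (a b : ℝ) (w : V × ℝ) : V × ℝ := (a • w.1, 2 * a * inner ℝ v w.1 + b * w.2)

/-- the affine map of frequency space belonging to the parabolic rescaling about `v`: `(ξ,τ) ↦ (v + σ ξ, |v|² + 2σ⟪v,ξ⟫ + σ² τ)`; it maps `cap u a b` onto `cap (v + σ u) (σ a) (σ² b)`. -/
def Par (v : V) (σ : ℝ) (w : V × ℝ) : V × ℝ := (v + σ • w.1, ‖v‖ ^ 2 + 2 * σ * inner ℝ v w.1 + σ ^ 2 * w.2)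

/-- `ν`-transversality of `k+1` points of `V`: no affine hyperplane is `ν`-close to all of them. -/
def Trans {m : ℕ} (ν : ℝ) (ξ : Fin m → V) : Prop := ∀ n : V, ‖n‖ = 1 → ∀ c : ℝ, ∃ i, ν ≤ |inner ℝ n (ξ i) - c|

end alg

variable {V : Type} [NormedAddCommGroup V] [InnerProductSpace ℝ V] [FiniteDimensional ℝ V] [MeasurableSpace V] [BorelSpace V]

/-- `F` is the (inverse) Fourier transform of an integrable function vanishing off `S`. -/
def FS (S : Set (V × ℝ)) (F : V × ℝ → ℂ) : Prop :=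
  ∃ g : V × ℝ → ℂ, Integrable g ∧ (∀ w, w ∉ S → g w = 0) ∧ ∀ z, F z = ∫ w, ch (pr z w) * g w

/-- `∫ |F|^p`. -/
def ip (p : ℝ) (F : V × ℝ → ℂ) : ℝ≥0∞ := ∫⁻ z, ‖F z‖ₑ ^ p

/-- the `L^p` norm on space-time. -/
def nm (p : ℝ) (F : V × ℝ → ℂ) : ℝ≥0∞ := ip p F ^ (1 / p)

/-- robust family of caps at scale `ρ` (radius `C ρ`, thickness `C ρ²`, at most `C` centres in a `ρ`-ball, centres in the `C`-ball). -/
structure Rob (C ρ : ℝ) {ι : Type} (s : Finset ι) (v : ι → V) (H : ι → V × ℝ → ℂ) : Prop where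
  bdd : ∀ j ∈ s, ‖v j‖ ≤ C
  mult : ∀ ξ : V, ∀ t ⊆ s, (∀ j ∈ t, ‖v j - ξ‖ ≤ ρ) → (t.card : ℝ) ≤ C
  fs : ∀ j ∈ s, FS (cap (v j) (C * ρ) (C * ρ ^ 2)) (H j)

variable (V) in
/-- `D` is a decoupling constant for all robust families with parameter `C` at scale `ρ`. -/
def DecLe (p C ρ : ℝ) (D : ℝ≥0∞) : Prop :=
  ∀ (ι : Type) (s : Finset ι) (v : ι → V) (H : ι → V × ℝ → ℂ), Rob C ρ s v H →
    nm p (fun z => ∑ j ∈ s, H j z) ≤ D * (∑ j ∈ s, nm p (H j) ^ (2 : ℝ)) ^ (1 / 2 : ℝ)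

variable (V) in
/-- decoupling with loss `ρ^(-η)`. -/
def DecPow (p η : ℝ) : Prop :=
  ∀ C : ℝ, ∃ D : ℝ, ∀ ρ : ℝ, 0 < ρ → ρ ≤ 1 → DecLe V p C ρ (ENNReal.ofReal (D * ρ ^ (-η)))

variable (V) in
/-- the dimension of space-time. -/
def dd : ℕ := Module.finrank ℝ V + 1

/-- the weight `(1 + |y|/R)^(-E)`. -/
def wt (E R : ℝ) (y : V × ℝ) : ℝ≥0∞ := ENNReal.ofReal ((1 + ‖y‖ / R) ^ (-E))

/-- `R^(-d) ∫ |F y|^t (1 + |y - z|/R)^(-E) dy`: the `t`-th power of the local `L^t` average of `F` around `z` at radius `R`. -/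
def avp (t E R : ℝ) (F : V × ℝ → ℂ) (z : V × ℝ) : ℝ≥0∞ :=
  ENNReal.ofReal (R ^ (-(dd V : ℝ))) * ∫⁻ y, ‖F y‖ₑ ^ t * wt E R (y - z)

/-- the anisotropic kernel weight `a^k b (1 + |Lam v a b y|)^(-M)` (total mass independent of `v, a, b`). -/
def tw (M : ℝ) (v : V) (a b : ℝ) (y : V × ℝ) : ℝ≥0∞ :=
  ENNReal.ofReal (a ^ (Module.finrank ℝ V) * b * (1 + ‖Lam v a b y‖) ^ (-M))

/-- a `ν`-transverse `(k+1)`-tuple of robust families at scale `ρ` (only the CENTRES are asked to be transverse). -/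
structure MRob (C ν ρ : ℝ) {ι : Type} (s : Fin (dd V) → Finset ι) (v : Fin (dd V) → ι → V)
    (H : Fin (dd V) → ι → V × ℝ → ℂ) : Prop where
  rob : ∀ i, Rob C ρ (s i) (v i) (H i)
  trans : ∀ j : Fin (dd V) → ι, (∀ i, j i ∈ s i) → Trans ν (fun i => v i (j i))

/-- `𝔄^p`: `∫ ∏_i (∑_J (local L^t average of F_J at radius R)²)^(p/(2d)) dz`. -/
def mA (p t E R : ℝ) {ι : Type} (s : Fin (dd V) → Finset ι) (H : Fin (dd V) → ι → V × ℝ → ℂ) : ℝ≥0∞ :=
  ∫⁻ z, ∏ i, (∑ j ∈ s i, avp t E R (H i j) z ^ (2 / t)) ^ (p / (2 * (dd V : ℝ)))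

/-- `𝔇^p`: `∏_i (∑_J ‖F_J‖_p²)^(p/(2d))`. -/
def mD (p : ℝ) {ι : Type} (s : Fin (dd V) → Finset ι) (H : Fin (dd V) → ι → V × ℝ → ℂ) : ℝ≥0∞ :=
  ∏ i, (∑ j ∈ s i, nm p (H i j) ^ (2 : ℝ)) ^ (p / (2 * (dd V : ℝ)))

variable (V) in
/-- multilinear decoupling constant (in `p`-th powers): local `L^p` averages at the fixed radius `R₀`. -/
def MDecLe (p C ν E R₀ ρ : ℝ) (M : ℝ≥0∞) : Prop :=
  ∀ (ι : Type) (s : Fin (dd V) → Finset ι) (v : Fin (dd V) → ι → V) (H : Fin (dd V) → ι → V × ℝ → ℂ),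
    MRob C ν ρ s v H →
    ∫⁻ z, ∏ i, avp p E R₀ (fun y => ∑ j ∈ s i, H i j y) z ^ (1 / (dd V : ℝ)) ≤ M * mD p s H

open scoped Classical in
/-- the sum of the pieces in the fibre of `π` over `J`. -/
def gsum {ι ι' : Type} (s : Finset ι) (π : ι → ι') (H : ι → V × ℝ → ℂ) (J : ι') : V × ℝ → ℂ :=
  fun z => ∑ θ ∈ s.filter (fun θ => π θ = J), H θ z

open scoped Classical in
/-- `π` groups the centres `v θ`, `θ ∈ s`, into clusters of radius `σ` about the points `u J`, which are centres of the family and have multiplicity `≤ Cg` at scale `σ`. -/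
structure Grp (Cg σ : ℝ) {ι ι' : Type} (s : Finset ι) (v : ι → V) (π : ι → ι') (u : ι' → V) : Prop where
  near : ∀ θ ∈ s, ‖v θ - u (π θ)‖ ≤ σ
  rep : ∀ θ ∈ s, ∃ θ' ∈ s, u (π θ) = v θ'
  mult : ∀ ξ : V, ∀ t ⊆ s.image π, (∀ J ∈ t, ‖u J - ξ‖ ≤ σ) → (t.card : ℝ) ≤ Cg

end

end Claimed.Agent.BD
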