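import Claimed.Agent.Lib.BD.Defs

/-!
# Box BD, unit U1: THE BUMP `η`            (helper297; no sorry)
`bdu_exists_eta` : `η ∈ FS (closedBall 0 1)`, `|η| ≥ 1` on the unit ball, `∀ M ∃ C, |η z| ≤ C (1 + |z|)^(-M)`.
Construction: product of the transforms of two `ContDiffBump`s (on `V` and on `ℝ`; the norm of `V × ℝ` is the sup norm), decay from Mathlib's Fourier transform on Schwartz functions.
Also: `bdu_norm_ch`, `bdu_ch_sub_one`, `bdu_ch_cont`, `bdu_ch_add`, `bdu_bump_one` (one factor, any finite dimensional inner product space).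
-/

set_option autoImplicit false
open MeasureTheory Set
open scoped NNReal RealInnerProductSpace FourierTransform SchwartzMap ContDiff

namespace Claimed.Agent.BD

noncomputable section

theorem bdu_norm_ch (θ : ℝ) : ‖ch θ‖ = 1 := by
  unfold ch
  exact Complex.norm_exp_ofReal_mul_I θ

theorem bdu_ch_sub_one (θ : ℝ) : ‖ch θ - 1‖ ≤ |θ| := by
  unfold ch
  have := Real.norm_exp_I_mul_ofReal_sub_one_le (x := θ)
  rw [mul_comm] at this
  simpa using this

theorem bdu_ch_cont : Continuous ch := by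
  unfold ch
  fun_prop

section one
variable {W : Type} [NormedAddCommGroup W] [InnerProductSpace ℝ W] [FiniteDimensional ℝ W] [MeasurableSpace W] [BorelSpace W]

/-- **one factor of the bump**: `g` integrable, vanishing off the ball of radius `1`, whose transform is `≥ 1` on the unit ball and rapidly decreasing -/
theorem bdu_bump_one : ∃ g : W → ℂ, Integrable g ∧ (∀ ξ, 1 < ‖ξ‖ → g ξ = 0) ∧
    (∀ x : W, ‖x‖ ≤ 1 → 1 ≤ ‖∫ ξ, ch (inner ℝ x ξ) * g ξ‖) ∧
    ∀ M : ℕ, ∃ C : ℝ, 0 ≤ C ∧ ∀ x : W, (1 + ‖x‖) ^ M * ‖∫ ξ, ch (inner ℝ x ξ) * g ξ‖ ≤ C := by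
  let φ : ContDiffBump (0 : W) := ⟨1 / 4, 1 / 2, by norm_num, by norm_num⟩
  have hI : 0 < ∫ ξ, φ ξ := φ.integral_pos
  set I : ℝ := ∫ ξ, φ ξ with hIdef
  set g : W → ℂ := fun ξ => ((2 / I * φ ξ : ℝ) : ℂ) with hg
  have hφint : Integrable (fun ξ => φ ξ) := φ.integrable
  have hgint : Integrable g := (hφint.const_mul (2 / I)).ofReal
  have hzero : ∀ ξ : W, 1 / 2 ≤ ‖ξ‖ → g ξ = 0 := by
    intro ξ hξ
    have : φ ξ = 0 := φ.zero_of_le_dist (by rw [dist_zero_right]; exact hξ)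
    simp [hg, this]
  have hnorm : ∀ ξ, ‖g ξ‖ = 2 / I * φ ξ := by
    intro ξ
    rw [hg]
    simp only
    rw [Complex.norm_real, Real.norm_of_nonneg (mul_nonneg (by positivity) φ.nonneg)]
  have hgI : ∫ ξ, g ξ = 2 := by
    rw [hg]
    simp only
    have h1 : ∫ ξ, ((2 / I * φ ξ : ℝ) : ℂ) = ((∫ ξ, 2 / I * φ ξ : ℝ) : ℂ) := integral_ofReal
    rw [h1, integral_const_mul, ← hIdef]
    have : 2 / I * I = 2 := by field_simp
    rw [this]
    norm_num
  have hgN : ∫ ξ, ‖g ξ‖ = 2 := by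
    simp_rw [hnorm]
    rw [integral_const_mul, ← hIdef]
    field_simp
  have hchint : ∀ x : W, Integrable fun ξ => ch (inner ℝ x ξ) * g ξ := by
    intro x
    refine hgint.bdd_mul (c := 1) ?_ ?_
    · exact (bdu_ch_cont.comp (by fun_prop)).aestronglyMeasurable
    · exact Filter.Eventually.of_forall fun ξ => (bdu_norm_ch _).le
  refine ⟨g, hgint, fun ξ hξ => hzero ξ (by linarith), ?_, ?_⟩
  · intro x hx
    have e : ∫ ξ, ch (inner ℝ x ξ) * g ξ = 2 + ∫ ξ, (ch (inner ℝ x ξ) - 1) * g ξ := by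
      have : ∀ ξ, (ch (inner ℝ x ξ) - 1) * g ξ = ch (inner ℝ x ξ) * g ξ - g ξ := fun ξ => by ring
      simp_rw [this]
      rw [integral_sub (hchint x) hgint, hgI]
      ring
    have hb : ‖∫ ξ, (ch (inner ℝ x ξ) - 1) * g ξ‖ ≤ 1 := by
      calc ‖∫ ξ, (ch (inner ℝ x ξ) - 1) * g ξ‖ ≤ ∫ ξ, ‖(ch (inner ℝ x ξ) - 1) * g ξ‖ := norm_integral_le_integral_norm _
        _ ≤ ∫ ξ, 1 / 2 * ‖g ξ‖ := by
          apply integral_mono_of_nonneg (Filter.Eventually.of_forall fun ξ => norm_nonneg _) (hgint.norm.const_mul _)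
          refine Filter.Eventually.of_forall fun ξ => ?_
          simp only
          rw [norm_mul]
          by_cases hξ : 1 / 2 ≤ ‖ξ‖
          · rw [hzero ξ hξ]; simp
          · push Not at hξ
            apply mul_le_mul_of_nonneg_right _ (norm_nonneg _)
            refine (bdu_ch_sub_one _).trans ((abs_real_inner_le_norm x ξ).trans ?_)
            nlinarith [norm_nonneg x, norm_nonneg ξ]
        _ = 1 := by rw [integral_const_mul, hgN]; norm_num
    rw [e]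
    have h2 : ‖(2:ℂ)‖ = 2 := by simp
    have := norm_sub_le_norm_add (2:ℂ) (∫ ξ, (ch (inner ℝ x ξ) - 1) * g ξ)
    linarith
  · intro M
    have hcs : HasCompactSupport g := by
      apply HasCompactSupport.intro (isCompact_closedBall (0:W) 1)
      intro ξ hξ
      apply hzero
      simp only [Metric.mem_closedBall, dist_zero_right, not_le] at hξ
      linarith
    have hsm : ContDiff ℝ ∞ g := by
      have h1 : ContDiff ℝ ∞ fun ξ => 2 / I * φ ξ := contDiff_const.mul φ.contDiff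
      exact Complex.ofRealCLM.contDiff.comp h1
    let G : 𝓢(W, ℂ) := hcs.toSchwartzMap hsm
    have hG : ∀ x : W, ∫ ξ, ch (inner ℝ x ξ) * g ξ = (𝓕 G) (-(2 * Real.pi)⁻¹ • x) := by
      intro x
      rw [SchwartzMap.fourier_coe, Real.fourier_eq']
      apply integral_congr_ae
      refine Filter.Eventually.of_forall fun ξ => ?_
      simp only [smul_eq_mul]
      congr 1
      unfold ch
      congr 2
      rw [inner_smul_right, real_inner_comm]
      have := Real.pi_pos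
      push_cast
      field_simp
    set C₀ : ℝ := 2 ^ M * (Finset.Iic (M, 0)).sup (fun m => SchwartzMap.seminorm ℝ m.1 m.2) (𝓕 G) with hC₀
    have hC₀nn : 0 ≤ C₀ := by positivity
    refine ⟨(2 * Real.pi) ^ M * C₀, by positivity, fun x => ?_⟩
    rw [hG x]
    set w : W := -(2 * Real.pi)⁻¹ • x with hw
    have h1 := SchwartzMap.one_add_le_sup_seminorm_apply (𝕜 := ℝ) (m := (M, 0)) (k := M) (n := 0) le_rfl le_rfl (𝓕 G) w
    rw [norm_iteratedFDeriv_zero] at h1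
    have hπ := Real.pi_gt_three
    have hwn : ‖w‖ = ‖x‖ / (2 * Real.pi) := by
      rw [hw, norm_smul, norm_neg, norm_inv, Real.norm_of_nonneg (by positivity)]
      field_simp
    have h2 : 1 + ‖x‖ ≤ 2 * Real.pi * (1 + ‖w‖) := by
      rw [hwn]
      have : 2 * Real.pi * (1 + ‖x‖ / (2 * Real.pi)) = 2 * Real.pi + ‖x‖ := by field_simp
      rw [this]
      linarith
    calc (1 + ‖x‖) ^ M * ‖(𝓕 G) w‖ ≤ (2 * Real.pi * (1 + ‖w‖)) ^ M * ‖(𝓕 G) w‖ := by
          gcongr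
      _ = (2 * Real.pi) ^ M * ((1 + ‖w‖) ^ M * ‖(𝓕 G) w‖) := by rw [mul_pow]; ring
      _ ≤ _ := by gcongr

end one

theorem bdu_ch_add (a b : ℝ) : ch (a + b) = ch a * ch b := by
  unfold ch
  rw [← Complex.exp_add]
  congr 1
  push_cast
  ring

variable {V : Type} [NormedAddCommGroup V] [InnerProductSpace ℝ V] [FiniteDimensional ℝ V] [MeasurableSpace V] [BorelSpace V]

/-- **the bump** `η`: Fourier support in the unit ball, `|η| ≥ 1` on the unit ball, rapidly decreasing -/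
theorem bdu_exists_eta : ∃ η : V × ℝ → ℂ, FS (Metric.closedBall 0 1) η ∧ (∀ z, ‖z‖ ≤ 1 → 1 ≤ ‖η z‖) ∧
    ∀ M : ℝ, ∃ C : ℝ, 0 ≤ C ∧ ∀ z, ‖η z‖ ≤ C * (1 + ‖z‖) ^ (-M) := by
  obtain ⟨g₁, i₁, z₁, l₁, d₁⟩ := bdu_bump_one (W := V)
  obtain ⟨g₂, i₂, z₂, l₂, d₂⟩ := bdu_bump_one (W := ℝ)
  set g : V × ℝ → ℂ := fun w => g₁ w.1 * g₂ w.2 with hg
  have hfac : ∀ z : V × ℝ, ∫ w, ch (pr z w) * g w = (∫ ξ, ch (inner ℝ z.1 ξ) * g₁ ξ) * ∫ τ, ch (inner ℝ z.2 τ) * g₂ τ := by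
    intro z
    rw [Measure.volume_eq_prod, ← integral_prod_mul]
    apply integral_congr_ae
    refine Filter.Eventually.of_forall fun w => ?_
    simp only [hg, pr]
    rw [bdu_ch_add]
    have : inner ℝ z.2 w.2 = z.2 * w.2 := by simp [mul_comm]
    rw [this]
    ring
  refine ⟨fun z => ∫ w, ch (pr z w) * g w, ⟨g, ?_, ?_, fun z => rfl⟩, ?_, ?_⟩
  · rw [Measure.volume_eq_prod]
    exact i₁.mul_prod i₂
  · intro w hw
    rw [Metric.mem_closedBall, dist_zero_right, Prod.norm_def, max_le_iff, not_and_or, not_le, not_le] at hw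
    rcases hw with h | h
    · simp [hg, z₁ _ h]
    · simp [hg, z₂ _ h]
  · intro z hz
    rw [Prod.norm_def, max_le_iff] at hz
    simp only
    rw [hfac, norm_mul]
    have a1 := l₁ z.1 hz.1
    have a2 := l₂ z.2 hz.2
    nlinarith
  · intro M
    obtain ⟨C₁, c₁, h₁⟩ := d₁ ⌈M⌉₊
    obtain ⟨C₂, c₂, h₂⟩ := d₂ ⌈M⌉₊
    obtain ⟨C₁', c₁', h₁'⟩ := d₁ 0
    obtain ⟨C₂', c₂', h₂'⟩ := d₂ 0
    refine ⟨C₁ * C₂' + C₁' * C₂, by positivity, fun z => ?_⟩
    simp only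
    rw [hfac, norm_mul]
    set a := ‖∫ ξ, ch (inner ℝ z.1 ξ) * g₁ ξ‖ with ha
    set b := ‖∫ τ, ch (inner ℝ z.2 τ) * g₂ τ‖ with hb
    have ha0 : 0 ≤ a := norm_nonneg _
    have hb0 : 0 ≤ b := norm_nonneg _
    have q1 := h₁ z.1
    have q2 := h₂ z.2
    have q1' := h₁' z.1
    have q2' := h₂' z.2
    simp only [pow_zero, one_mul] at q1' q2'
    rw [← ha] at q1 q1'
    rw [← hb] at q2 q2'
    have hz0 : 0 < 1 + ‖z‖ := by positivity
    have hmono : (1 + ‖z‖) ^ (-(⌈M⌉₊ : ℝ)) ≤ (1 + ‖z‖) ^ (-M) :=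
      Real.rpow_le_rpow_of_exponent_le (by linarith [norm_nonneg z]) (neg_le_neg (Nat.le_ceil M))
    have hkey : a * b ≤ (C₁ * C₂' + C₁' * C₂) * (1 + ‖z‖) ^ (-(⌈M⌉₊ : ℝ)) := by
      rw [Real.rpow_neg hz0.le, Real.rpow_natCast, ← div_eq_mul_inv, le_div_iff₀ (by positivity)]
      rcases le_total ‖z.1‖ ‖z.2‖ with h | h
      · have : ‖z‖ = ‖z.2‖ := by rw [Prod.norm_def]; exact max_eq_right h
        rw [this]
        calc a * b * (1 + ‖z.2‖) ^ ⌈M⌉₊ = a * ((1 + ‖z.2‖) ^ ⌈M⌉₊ * b) := by ring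
          _ ≤ C₁' * C₂ := by gcongr
          _ ≤ _ := by nlinarith [mul_nonneg c₁ c₂']
      · have : ‖z‖ = ‖z.1‖ := by rw [Prod.norm_def]; exact max_eq_left h
        rw [this]
        calc a * b * (1 + ‖z.1‖) ^ ⌈M⌉₊ = ((1 + ‖z.1‖) ^ ⌈M⌉₊ * a) * b := by ring
          _ ≤ C₁ * C₂' := by gcongr
          _ ≤ _ := by nlinarith [mul_nonneg c₁' c₂]
    exact hkey.trans (mul_le_mul_of_nonneg_left hmono (by positivity))

end
end Claimed.Agent.BD
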