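import Claimed.Agent.Lib.BD.Eta

/-!
# Box BD, unit U0: API OF `FS` ("Fourier support in `S`")            (helper297; no sorry)
* `bdu_instHaar` : instance, the volume of `V × ℝ` is a Haar measure (instance search does not find it).
* `pr` : `bdu_pr_add_left/right`, `bdu_pr_sub_right`, `bdu_pr_comm`, `bdu_pr_cont_right`, `bdu_pr_Lam` (`pr (Lam z) w = pr z (LamT w)`); `bdu_int_ch`.
* `bdu_FS_mono`, `bdu_FS_zero`, `bdu_FS_add`, `bdu_FS_const_mul`, `bdu_FS_sum`, `bdu_FS_translate` (`F (z + z₀)`), `bdu_FS_modulate` (`ch (pr z w₀) F z ∈ FS (w₀ + S)`), **`bdu_FS_mul`** (`FS S F → FS T G → FS (S + T) (F G)`).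
* changes of variables: `bduJ e` (Jacobian factor, `bdu_J_pos`), `bdu_integral_comp`, `bdu_lintegral_comp`, `bdu_integrable_comp`, `bdu_FS_comp_linear`; `LamTe`, `Lame` (linear equivalences), `bdu_FS_comp_Lam`.
* PARABOLIC RESCALING: `bdu_Par_eq`, `bdu_FS_comp_Par` (forward), `bdu_FS_exists_resc` (backward: `F ∈ FS (Par v σ '' S)` is `ch (pr z (v,|v|²)) G (Lam v σ σ² z)` with `G ∈ FS S`),
  `bdu_Par_mem_cap`, `bdu_Par_image_cap` (`Par v σ '' cap u a b = cap (v + σ u) (σ a) (σ² b)`), `bdu_ip_resc` (`ip p` of the rescaled function `= J · ip p G`, the same `J` for all `G`, `p`).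
-/

set_option autoImplicit false
set_option linter.unusedSectionVars false
open MeasureTheory Set
open scoped NNReal RealInnerProductSpace Pointwise

namespace Claimed.Agent.BD

noncomputable section

section alg
variable {V : Type} [NormedAddCommGroup V] [InnerProductSpace ℝ V]

theorem bdu_pr_add_right (z w w' : V × ℝ) : pr z (w + w') = pr z w + pr z w' := by
  simp only [pr, Prod.fst_add, Prod.snd_add, inner_add_right]
  ring

theorem bdu_pr_add_left (z z' w : V × ℝ) : pr (z + z') w = pr z w + pr z' w := by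
  simp only [pr, Prod.fst_add, Prod.snd_add, inner_add_left]
  ring

theorem bdu_pr_sub_right (z w w' : V × ℝ) : pr z (w - w') = pr z w - pr z w' := by
  simp only [pr, Prod.fst_sub, Prod.snd_sub, inner_sub_right]
  ring

theorem bdu_pr_comm (z w : V × ℝ) : pr z w = pr w z := by
  simp only [pr, real_inner_comm]
  ring

theorem bdu_pr_cont_right (z : V × ℝ) : Continuous fun w => pr z w := by
  unfold pr
  fun_prop

theorem bdu_pr_Lam (v : V) (a b : ℝ) (z w : V × ℝ) : pr (Lam v a b z) w = pr z (LamT v a b w) := by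
  simp only [pr, Lam, LamT, inner_smul_left, inner_smul_right, inner_add_left, RCLike.conj_to_real]
  ring

end alg

variable {V : Type} [NormedAddCommGroup V] [InnerProductSpace ℝ V] [FiniteDimensional ℝ V] [MeasurableSpace V] [BorelSpace V]

/-- the product volume of space-time is a Haar measure (not found by instance search: `volume` is not syntactically a product) -/
instance bdu_instHaar : (volume : Measure (V × ℝ)).IsAddHaarMeasure := by
  rw [Measure.volume_eq_prod]; infer_instance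

theorem bdu_int_ch {g : V × ℝ → ℂ} (hg : Integrable g) (z : V × ℝ) : Integrable fun w => ch (pr z w) * g w := by
  refine hg.bdd_mul (c := 1) ?_ ?_
  · exact (bdu_ch_cont.comp (bdu_pr_cont_right z)).aestronglyMeasurable
  · exact Filter.Eventually.of_forall fun ξ => (bdu_norm_ch _).le

theorem bdu_FS_mono {S T : Set (V × ℝ)} {F : V × ℝ → ℂ} (h : FS S F) (hST : S ⊆ T) : FS T F := by
  obtain ⟨g, h1, h2, h3⟩ := h
  exact ⟨g, h1, fun w hw => h2 w fun h => hw (hST h), h3⟩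

theorem bdu_FS_zero (S : Set (V × ℝ)) : FS S (fun _ => (0:ℂ)) :=
  ⟨fun _ => 0, integrable_zero _ _ _, fun _ _ => rfl, fun z => by simp⟩

theorem bdu_FS_add {S : Set (V × ℝ)} {F G : V × ℝ → ℂ} (hF : FS S F) (hG : FS S G) : FS S (fun z => F z + G z) := by
  obtain ⟨g, h1, h2, h3⟩ := hF
  obtain ⟨g', h1', h2', h3'⟩ := hG
  refine ⟨fun w => g w + g' w, h1.add h1', fun w hw => by simp [h2 w hw, h2' w hw], fun z => ?_⟩
  beta_reduce
  rw [h3, h3', ← integral_add (bdu_int_ch h1 z) (bdu_int_ch h1' z)]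
  congr 1
  ext w
  ring

theorem bdu_FS_const_mul {S : Set (V × ℝ)} {F : V × ℝ → ℂ} (hF : FS S F) (c : ℂ) : FS S (fun z => c * F z) := by
  obtain ⟨g, h1, h2, h3⟩ := hF
  refine ⟨fun w => c * g w, h1.const_mul c, fun w hw => by simp [h2 w hw], fun z => ?_⟩
  beta_reduce
  rw [h3, ← integral_const_mul]
  congr 1
  ext w
  ring

theorem bdu_FS_sum {ι : Type} {S : Set (V × ℝ)} (s : Finset ι) {F : ι → V × ℝ → ℂ} (hF : ∀ j ∈ s, FS S (F j)) :
    FS S (fun z => ∑ j ∈ s, F j z) := by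
  classical
  induction s using Finset.induction_on with
  | empty => simpa using bdu_FS_zero S
  | insert a s ha ih =>
    have h1 := hF a (Finset.mem_insert_self _ _)
    have h2 := ih fun j hj => hF j (Finset.mem_insert_of_mem hj)
    simpa [Finset.sum_insert ha] using bdu_FS_add h1 h2

/-- translation in space-time -/
theorem bdu_FS_translate {S : Set (V × ℝ)} {F : V × ℝ → ℂ} (hF : FS S F) (z₀ : V × ℝ) : FS S (fun z => F (z + z₀)) := by
  obtain ⟨g, h1, h2, h3⟩ := hF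
  refine ⟨fun w => ch (pr z₀ w) * g w, bdu_int_ch h1 z₀, fun w hw => by simp [h2 w hw], fun z => ?_⟩
  beta_reduce
  rw [h3]
  congr 1
  ext w
  rw [bdu_pr_add_left, bdu_ch_add]
  ring

/-- modulation = translation of the Fourier support -/
theorem bdu_FS_modulate {S : Set (V × ℝ)} {F : V × ℝ → ℂ} (hF : FS S F) (w₀ : V × ℝ) :
    FS ((fun w => w₀ + w) '' S) (fun z => ch (pr z w₀) * F z) := by
  obtain ⟨g, h1, h2, h3⟩ := hF
  refine ⟨fun w => g (w - w₀), h1.comp_sub_right w₀, fun w hw => ?_, fun z => ?_⟩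
  · apply h2
    intro h
    exact hw ⟨w - w₀, h, by simp⟩
  · beta_reduce
    rw [h3, ← integral_const_mul, ← integral_sub_right_eq_self (fun w => ch (pr z w₀) * (ch (pr z w) * g w)) w₀]
    congr 1
    ext w
    rw [← mul_assoc, ← bdu_ch_add, ← bdu_pr_add_right]
    congr 3
    abel

/-- **products**: the Fourier support of a product lies in the sumset -/
theorem bdu_FS_mul {S T : Set (V × ℝ)} {F G : V × ℝ → ℂ} (hF : FS S F) (hG : FS T G) : FS (S + T) (fun z => F z * G z) := by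
  obtain ⟨g, h1, h2, h3⟩ := hF
  obtain ⟨g', h1', h2', h3'⟩ := hG
  refine ⟨convolution g g' (ContinuousLinearMap.mul ℂ ℂ) volume, h1.integrable_convolution _ h1', fun w hw => ?_, fun z => ?_⟩
  · unfold convolution
    apply integral_eq_zero_of_ae
    refine Filter.Eventually.of_forall fun u => ?_
    simp only [ContinuousLinearMap.mul_apply', Pi.zero_apply]
    by_cases hu : u ∈ S
    · have : w - u ∉ T := fun h => hw ⟨u, hu, w - u, h, by simp⟩
      rw [h2' _ this, mul_zero]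
    · rw [h2 _ hu, zero_mul]
  · have key := integral_convolution (ContinuousLinearMap.mul ℂ ℂ) (μ := (volume : Measure (V × ℝ))) (ν := volume)
      (bdu_int_ch h1 z) (bdu_int_ch h1' z)
    beta_reduce
    rw [h3, h3']
    simp only [ContinuousLinearMap.mul_apply'] at key
    rw [← key]
    congr 1
    ext w
    unfold convolution
    rw [← integral_const_mul]
    congr 1
    ext u
    simp only [ContinuousLinearMap.mul_apply']
    have : ch (pr z w) = ch (pr z u) * ch (pr z (w - u)) := by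
      rw [← bdu_ch_add, ← bdu_pr_add_right]
      congr 2
      abel
    rw [this]
    ring

/-! ## Linear and affine changes of variables -/

theorem bdu_membed (e : (V × ℝ) ≃ₗ[ℝ] (V × ℝ)) : MeasurableEmbedding e :=
  e.toContinuousLinearEquiv.toHomeomorph.measurableEmbedding

theorem bdu_map_vol (e : (V × ℝ) ≃ₗ[ℝ] (V × ℝ)) :
    Measure.map e (volume : Measure (V × ℝ)) = ENNReal.ofReal |(LinearMap.det (e : (V × ℝ) →ₗ[ℝ] (V × ℝ)))⁻¹| • volume :=
  Measure.map_linearMap_addHaar_eq_smul_addHaar volume e.isUnit_det'.ne_zero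

/-- the Jacobian factor of a linear equivalence -/
def bduJ (e : (V × ℝ) ≃ₗ[ℝ] (V × ℝ)) : ℝ := |(LinearMap.det (e : (V × ℝ) →ₗ[ℝ] (V × ℝ)))⁻¹|

theorem bdu_J_pos (e : (V × ℝ) ≃ₗ[ℝ] (V × ℝ)) : 0 < bduJ e :=
  abs_pos.2 (inv_ne_zero e.isUnit_det'.ne_zero)

theorem bdu_integral_comp (e : (V × ℝ) ≃ₗ[ℝ] (V × ℝ)) (h : V × ℝ → ℂ) : ∫ w, h (e w) = bduJ e * ∫ u, h u := by
  rw [← (bdu_membed e).integral_map, bdu_map_vol, integral_smul_measure, ENNReal.toReal_ofReal (abs_nonneg _)]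
  simp [bduJ]

theorem bdu_lintegral_comp (e : (V × ℝ) ≃ₗ[ℝ] (V × ℝ)) (h : V × ℝ → ENNReal) :
    ∫⁻ w, h (e w) = ENNReal.ofReal (bduJ e) * ∫⁻ u, h u := by
  rw [← (bdu_membed e).lintegral_map, bdu_map_vol, lintegral_smul_measure]
  simp [bduJ]

theorem bdu_integrable_comp (e : (V × ℝ) ≃ₗ[ℝ] (V × ℝ)) {g : V × ℝ → ℂ} (hg : Integrable g) : Integrable fun w => g (e w) := by
  have h1 : Integrable g (Measure.map e volume) := by
    rw [bdu_map_vol]
    exact hg.smul_measure ENNReal.ofReal_ne_top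
  exact ((bdu_membed e).integrable_map_iff).1 h1

/-- **linear change of variables**: `A` any map with transpose `AT` -/
theorem bdu_FS_comp_linear {S : Set (V × ℝ)} {F : V × ℝ → ℂ} (hF : FS S F) (A : V × ℝ → V × ℝ) (AT : (V × ℝ) ≃ₗ[ℝ] (V × ℝ))
    (hT : ∀ z w, pr (A z) w = pr z (AT w)) : FS (AT '' S) (fun z => F (A z)) := by
  obtain ⟨g, h1, h2, h3⟩ := hF
  refine ⟨fun u => (bduJ AT : ℂ) * g (AT.symm u), (bdu_integrable_comp AT.symm h1).const_mul _, fun u hu => ?_, fun z => ?_⟩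
  · have : AT.symm u ∉ S := fun h => hu ⟨AT.symm u, h, by simp⟩
    simp [h2 _ this]
  · beta_reduce
    rw [h3]
    have := bdu_integral_comp AT (fun u => ch (pr z u) * g (AT.symm u))
    simp only [LinearEquiv.symm_apply_apply] at this
    simp_rw [hT]
    rw [this, ← integral_const_mul]
    congr 1
    ext u
    ring

/-- `LamT` as a linear equivalence -/
def LamTe (v : V) (a b : ℝ) (ha : a ≠ 0) (hb : b ≠ 0) : (V × ℝ) ≃ₗ[ℝ] (V × ℝ) where
  toFun := LamT v a b
  map_add' w w' := by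
    simp only [LamT, Prod.fst_add, Prod.snd_add, smul_add, inner_add_right, Prod.mk_add_mk, Prod.mk.injEq, true_and]
    ring
  map_smul' c w := by
    simp only [LamT, Prod.smul_fst, Prod.smul_snd, inner_smul_right, smul_eq_mul, RingHom.id_apply, Prod.smul_mk, Prod.mk.injEq]
    exact ⟨smul_comm _ _ _, by ring⟩
  invFun u := (a⁻¹ • u.1, b⁻¹ * (u.2 - 2 * inner ℝ v u.1))
  left_inv w := by
    simp only [LamT, inner_smul_right]
    ext
    · simp [smul_smul, inv_mul_cancel₀ ha]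
    · simp only
      field_simp
      ring
  right_inv u := by
    simp only [LamT, inner_smul_right]
    ext
    · simp [smul_smul, mul_inv_cancel₀ ha]
    · simp only
      field_simp
      ring

theorem bdu_LamTe_apply (v : V) (a b : ℝ) (ha : a ≠ 0) (hb : b ≠ 0) (w : V × ℝ) : LamTe v a b ha hb w = LamT v a b w := rfl

/-- `Lam` as a linear equivalence -/
def Lame (v : V) (a b : ℝ) (ha : a ≠ 0) (hb : b ≠ 0) : (V × ℝ) ≃ₗ[ℝ] (V × ℝ) where
  toFun := Lam v a b
  map_add' w w' := by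
    simp only [Lam, Prod.fst_add, Prod.snd_add, Prod.mk_add_mk, Prod.mk.injEq]
    refine ⟨?_, by ring⟩
    rw [← smul_add]
    congr 1
    rw [mul_add, add_smul]
    abel
  map_smul' c w := by
    simp only [Lam, Prod.smul_fst, Prod.smul_snd, smul_eq_mul, RingHom.id_apply, Prod.smul_mk, Prod.mk.injEq]
    refine ⟨?_, by ring⟩
    module
  invFun u := (a⁻¹ • u.1 - (2 * (b⁻¹ * u.2)) • v, b⁻¹ * u.2)
  left_inv w := by
    simp only [Lam]
    ext
    · simp only [smul_smul, inv_mul_cancel₀ ha, one_smul]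
      rw [← mul_assoc b⁻¹, inv_mul_cancel₀ hb, one_mul]
      abel
    · simp only
      field_simp
  right_inv u := by
    simp only [Lam]
    ext
    · simp only [sub_add_cancel, smul_smul, mul_inv_cancel₀ ha, one_smul]
    · simp only
      field_simp

theorem bdu_Lame_apply (v : V) (a b : ℝ) (ha : a ≠ 0) (hb : b ≠ 0) (z : V × ℝ) : Lame v a b ha hb z = Lam v a b z := rfl

theorem bdu_FS_comp_Lam {S : Set (V × ℝ)} {F : V × ℝ → ℂ} (hF : FS S F) (v : V) {a b : ℝ} (ha : a ≠ 0) (hb : b ≠ 0) :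
    FS (LamT v a b '' S) (fun z => F (Lam v a b z)) :=
  bdu_FS_comp_linear hF (Lam v a b) (LamTe v a b ha hb) (bdu_pr_Lam v a b)

theorem bdu_Par_eq (v : V) (σ : ℝ) (w : V × ℝ) : Par v σ w = (v, ‖v‖ ^ 2) + LamT v σ (σ ^ 2) w := by
  simp only [Par, LamT, Prod.mk_add_mk, Prod.mk.injEq, true_and]
  ring

/-- **parabolic rescaling, forward**: `G` with Fourier support `S` gives a function with Fourier support `Par v σ '' S` -/
theorem bdu_FS_comp_Par {S : Set (V × ℝ)} {G : V × ℝ → ℂ} (hG : FS S G) (v : V) {σ : ℝ} (hσ : σ ≠ 0) :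
    FS (Par v σ '' S) (fun z => ch (pr z (v, ‖v‖ ^ 2)) * G (Lam v σ (σ ^ 2) z)) := by
  have h := bdu_FS_modulate (bdu_FS_comp_Lam hG v hσ (pow_ne_zero 2 hσ)) (v, ‖v‖ ^ 2)
  refine bdu_FS_mono h ?_
  rintro _ ⟨_, ⟨w, hw, rfl⟩, rfl⟩
  exact ⟨w, hw, bdu_Par_eq v σ w⟩

/-- **parabolic rescaling, backward** -/
theorem bdu_FS_exists_resc {S : Set (V × ℝ)} {F : V × ℝ → ℂ} (v : V) {σ : ℝ} (hσ : σ ≠ 0) (hF : FS (Par v σ '' S) F) :
    ∃ G, FS S G ∧ ∀ z, F z = ch (pr z (v, ‖v‖ ^ 2)) * G (Lam v σ (σ ^ 2) z) := by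
  have hσ2 : σ ^ 2 ≠ 0 := pow_ne_zero 2 hσ
  set e := Lame v σ (σ ^ 2) hσ hσ2 with he
  set eT := LamTe v σ (σ ^ 2) hσ hσ2 with heT
  -- `G z' = ch (- pr (e⁻¹ z') w₀) F (e⁻¹ z')`
  have h1 : FS ((fun w => -(v, ‖v‖ ^ 2) + w) '' (Par v σ '' S)) (fun z => ch (pr z (-(v, ‖v‖ ^ 2))) * F z) := bdu_FS_modulate hF _
  have hT : ∀ z w, pr (e.symm z) w = pr z (eT.symm w) := by
    intro z w
    have := bdu_pr_Lam v σ (σ ^ 2) (e.symm z) (eT.symm w)
    rw [← bdu_Lame_apply v σ (σ ^ 2) hσ hσ2, ← bdu_LamTe_apply v σ (σ ^ 2) hσ hσ2, ← he, ← heT, LinearEquiv.apply_symm_apply,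
      LinearEquiv.apply_symm_apply] at this
    exact this.symm
  have h2 := bdu_FS_comp_linear h1 e.symm eT.symm hT
  refine ⟨_, bdu_FS_mono h2 ?_, fun z => ?_⟩
  · rintro _ ⟨_, ⟨_, ⟨w, hw, rfl⟩, rfl⟩, rfl⟩
    beta_reduce
    rw [bdu_Par_eq, neg_add_cancel_left, ← bdu_LamTe_apply v σ (σ ^ 2) hσ hσ2, ← heT, LinearEquiv.symm_apply_apply]
    exact hw
  · rw [← bdu_Lame_apply v σ (σ ^ 2) hσ hσ2, ← he, LinearEquiv.symm_apply_apply, ← mul_assoc, ← bdu_ch_add, ← bdu_pr_add_right]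
    simp [pr, ch]

/-- the caps are mapped onto caps -/
theorem bdu_Par_mem_cap (v u : V) {σ : ℝ} (hσ : 0 < σ) (a b : ℝ) (w : V × ℝ) :
    Par v σ w ∈ cap (v + σ • u) (σ * a) (σ ^ 2 * b) ↔ w ∈ cap u a b := by
  simp only [cap, Par, mem_ofPred_eq]
  have e1 : v + σ • w.1 - (v + σ • u) = σ • (w.1 - u) := by rw [smul_sub]; abel
  have e2 : ‖v‖ ^ 2 + 2 * σ * inner ℝ v w.1 + σ ^ 2 * w.2 - ‖v + σ • w.1‖ ^ 2 = σ ^ 2 * (w.2 - ‖w.1‖ ^ 2) := by
    rw [norm_add_sq_real, inner_smul_right, norm_smul, mul_pow, Real.norm_eq_abs, sq_abs]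
    ring
  rw [e1, e2, norm_smul, Real.norm_of_nonneg hσ.le, abs_mul, abs_of_pos (by positivity : 0 < σ ^ 2),
    mul_le_mul_iff_right₀ hσ, mul_le_mul_iff_right₀ (by positivity : 0 < σ ^ 2)]

theorem bdu_Par_image_cap (v u : V) {σ : ℝ} (hσ : 0 < σ) (a b : ℝ) : Par v σ '' cap u a b = cap (v + σ • u) (σ * a) (σ ^ 2 * b) := by
  ext x
  constructor
  · rintro ⟨w, hw, rfl⟩
    exact (bdu_Par_mem_cap v u hσ a b w).2 hw
  · intro hx
    have hσ2 : σ ^ 2 ≠ 0 := pow_ne_zero 2 hσ.ne'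
    set w := (LamTe v σ (σ ^ 2) hσ.ne' hσ2).symm (x - (v, ‖v‖ ^ 2)) with hw
    have e : Par v σ w = x := by
      rw [bdu_Par_eq, ← bdu_LamTe_apply v σ (σ ^ 2) hσ.ne' hσ2, hw, LinearEquiv.apply_symm_apply]
      abel
    refine ⟨w, ?_, e⟩
    rw [← bdu_Par_mem_cap v u hσ a b, e]
    exact hx

/-- norms under the rescaling: one constant for all functions and exponents -/
theorem bdu_ip_resc (v : V) {a b : ℝ} (ha : a ≠ 0) (hb : b ≠ 0) (w₀ : V × ℝ) (p : ℝ) (G : V × ℝ → ℂ) :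
    ip p (fun z => ch (pr z w₀) * G (Lam v a b z)) = ENNReal.ofReal (bduJ (Lame v a b ha hb)) * ip p G := by
  unfold ip
  rw [← bdu_lintegral_comp (Lame v a b ha hb) (fun u => ‖G u‖ₑ ^ p)]
  congr 1
  ext z
  rw [enorm_mul, bdu_Lame_apply]
  have : ‖ch (pr z w₀)‖ₑ = 1 := by
    rw [← ofReal_norm, bdu_norm_ch, ENNReal.ofReal_one]
  rw [this, one_mul]

end
end Claimed.Agent.BD
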