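import Claimed.Agent.Lib.BD.FSApi

/-!
# Box BD, unit U0: calculus of `FS` (functions with Fourier support in a set) and of the maps `Lam`, `LamT`, `Par`   (architect helper266; proofs helper161, on the API `Lib/BD/FSApi.lean` of helper297; no open leaf)

Only Fubini, change of variables under linear maps and dominated convergence are used.
-/

set_option autoImplicit false
open MeasureTheory Set Metric
open scoped ENNReal NNReal Pointwise

namespace Claimed.Agent.BD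

variable {V : Type} [NormedAddCommGroup V] [InnerProductSpace ℝ V]

/-! ## algebra -/

theorem pr_Lam (v : V) (a b : ℝ) (z w : V × ℝ) : pr (Lam v a b z) w = pr z (LamT v a b w) := by
  simp only [pr, Lam, LamT, inner_smul_left, inner_smul_right, inner_add_left, RCLike.conj_to_real]
  ring

theorem pr_add_left (z z' w : V × ℝ) : pr (z + z') w = pr z w + pr z' w := by
  simp only [pr, Prod.fst_add, Prod.snd_add, inner_add_left]
  ring

theorem pr_add_right (z w w' : V × ℝ) : pr z (w + w') = pr z w + pr z w' := by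
  simp only [pr, Prod.fst_add, Prod.snd_add, inner_add_right]
  ring

theorem ch_add (a b : ℝ) : ch (a + b) = ch a * ch b := by
  simp only [ch]
  rw [← Complex.exp_add]
  congr 1
  push_cast
  ring

theorem norm_ch (a : ℝ) : ‖ch a‖ = 1 := by
  simp only [ch]
  exact Complex.norm_exp_ofReal_mul_I a

theorem Par_eq (v : V) (σ : ℝ) (w : V × ℝ) : Par v σ w = (v, ‖v‖ ^ 2) + LamT v σ (σ ^ 2) w := by
  simp only [Par, LamT, Prod.mk_add_mk]
  congr 1
  ring

/-- the parabolic rescaling preserves the paraboloid: `τ - |ξ|²` is multiplied by `σ²`. -/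
theorem Par_preimage_cap (v u : V) {σ : ℝ} (hσ : 0 < σ) (a b : ℝ) :
    Par v σ ⁻¹' cap u a b = cap (σ⁻¹ • (u - v)) (a / σ) (b / σ ^ 2) := by
  ext w
  simp only [cap, Par, mem_preimage, mem_ofPred_eq]
  have e1 : v + σ • w.1 - u = σ • (w.1 - σ⁻¹ • (u - v)) := by
    rw [smul_sub, smul_smul, mul_inv_cancel₀ hσ.ne', one_smul]; abel
  have e2 : ‖v‖ ^ 2 + 2 * σ * inner ℝ v w.1 + σ ^ 2 * w.2 - ‖v + σ • w.1‖ ^ 2 = σ ^ 2 * (w.2 - ‖w.1‖ ^ 2) := by
    rw [norm_add_sq_real, norm_smul, inner_smul_right, Real.norm_eq_abs, mul_pow, sq_abs]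
    ring
  rw [e1, e2, norm_smul, Real.norm_eq_abs, abs_of_pos hσ, abs_mul, abs_of_pos (pow_pos hσ 2),
    le_div_iff₀' hσ, le_div_iff₀' (pow_pos hσ 2)]

theorem cap_mono {v : V} {a a' b b' : ℝ} (ha : a ≤ a') (hb : b ≤ b') : cap v a b ⊆ cap v a' b' :=
  fun _ hw => ⟨hw.1.trans ha, hw.2.trans hb⟩

/-- moving the centre. -/
theorem cap_subset_cap {v u : V} {a b σ : ℝ} (h : ‖v - u‖ ≤ σ) : cap v a b ⊆ cap u (a + σ) b := by
  intro w hw
  refine ⟨?_, hw.2⟩
  have e : w.1 - u = (w.1 - v) + (v - u) := by abel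
  rw [e]
  exact (norm_add_le _ _).trans (add_le_add hw.1 h)

/-- a cap plus a small ball (sup norm on `V × ℝ`). -/
theorem cap_add_ball (v : V) {a b r : ℝ} (ha : 0 ≤ a) (hr : 0 ≤ r) :
    cap v a b + closedBall (0 : V × ℝ) r ⊆ cap v (a + r) (b + r + 2 * (‖v‖ + a) * r + r ^ 2) := by
  rintro _ ⟨w, hw, y, hy, rfl⟩
  rw [mem_closedBall_zero_iff, Prod.norm_def, max_le_iff] at hy
  obtain ⟨hy1, hy2⟩ := hy
  obtain ⟨hw1, hw2⟩ := hw
  have hy2' : |y.2| ≤ r := hy2
  have hwn : ‖w.1‖ ≤ ‖v‖ + a := by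
    have e : w.1 = v + (w.1 - v) := by abel
    calc ‖w.1‖ = ‖v + (w.1 - v)‖ := by rw [← e]
      _ ≤ ‖v‖ + ‖w.1 - v‖ := norm_add_le _ _
      _ ≤ ‖v‖ + a := by linarith
  constructor
  · have e : (w + y).1 - v = (w.1 - v) + y.1 := by simp only [Prod.fst_add]; abel
    rw [e]
    exact (norm_add_le _ _).trans (add_le_add hw1 hy1)
  · have e : (w + y).2 - ‖(w + y).1‖ ^ 2 = (w.2 - ‖w.1‖ ^ 2) + y.2 - 2 * inner ℝ w.1 y.1 - ‖y.1‖ ^ 2 := by
      simp only [Prod.fst_add, Prod.snd_add]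
      rw [norm_add_sq_real]
      ring
    rw [e]
    have h1 : |inner ℝ w.1 y.1| ≤ (‖v‖ + a) * r :=
      (abs_real_inner_le_norm _ _).trans (mul_le_mul hwn hy1 (norm_nonneg _) (by positivity))
    have h2 : ‖y.1‖ ^ 2 ≤ r ^ 2 := pow_le_pow_left₀ (norm_nonneg _) hy1 2
    have h3 := abs_le.1 hw2
    have h4 := abs_le.1 hy2'
    have h5 := abs_le.1 h1
    have h6 : 0 ≤ ‖y.1‖ ^ 2 := by positivity
    rw [abs_le]
    constructor <;> nlinarith

theorem cap_zero_subset_ball {C : ℝ} (hC : 0 ≤ C) : cap (0 : V) C C ⊆ closedBall (0 : V × ℝ) (C + C ^ 2) := by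
  intro w hw
  obtain ⟨h1, h2⟩ := hw
  rw [sub_zero] at h1
  rw [mem_closedBall_zero_iff, Prod.norm_def, max_le_iff]
  have h3 : ‖w.1‖ ^ 2 ≤ C ^ 2 := pow_le_pow_left₀ (norm_nonneg _) h1 2
  have h4 := abs_le.1 h2
  refine ⟨by nlinarith, ?_⟩
  rw [Real.norm_eq_abs, abs_le]
  have h6 : 0 ≤ ‖w.1‖ ^ 2 := by positivity
  constructor <;> nlinarith

/-- a cap lies in a ball about `(v, |v|²)`. -/
theorem cap_subset_ball (v : V) {a b : ℝ} (ha : 0 ≤ a) (hb : 0 ≤ b) :
    cap v a b ⊆ closedBall (v, ‖v‖ ^ 2) (a + b + a * (2 * ‖v‖ + a)) := by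
  intro w hw
  obtain ⟨h1, h2⟩ := hw
  rw [mem_closedBall, dist_eq_norm, Prod.norm_def, max_le_iff]
  have hv := norm_nonneg v
  constructor
  · show ‖w.1 - v‖ ≤ _
    nlinarith
  · show ‖w.2 - ‖v‖ ^ 2‖ ≤ _
    have e : w.1 = v + (w.1 - v) := by abel
    have h3 : ‖w.1‖ ^ 2 - ‖v‖ ^ 2 = 2 * inner ℝ v (w.1 - v) + ‖w.1 - v‖ ^ 2 := by
      conv_lhs => rw [e, norm_add_sq_real]
      ring
    have h4 : |inner ℝ v (w.1 - v)| ≤ ‖v‖ * a := (abs_real_inner_le_norm _ _).trans (mul_le_mul_of_nonneg_left h1 hv)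
    have h5 : ‖w.1 - v‖ ^ 2 ≤ a ^ 2 := pow_le_pow_left₀ (norm_nonneg _) h1 2
    have h6 : 0 ≤ ‖w.1 - v‖ ^ 2 := by positivity
    have h7 := abs_le.1 h2
    have h8 := abs_le.1 h4
    rw [Real.norm_eq_abs, abs_le]
    constructor <;> nlinarith

variable [FiniteDimensional ℝ V] [MeasurableSpace V] [BorelSpace V]

/-! ## change of variables -/

theorem fs_map_diag (a b : ℝ) (ha : a ≠ 0) (hb : b ≠ 0) :
    Measure.map (Prod.map (fun ξ : V => a • ξ) (fun τ : ℝ => b * τ)) (volume : Measure (V × ℝ))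
      = ENNReal.ofReal |(a ^ Module.finrank ℝ V * b)⁻¹| • volume := by
  have h1 : Measure.map (fun ξ : V => a • ξ) volume = ENNReal.ofReal |(a ^ Module.finrank ℝ V)⁻¹| • (volume : Measure V) :=
    Measure.map_addHaar_smul volume ha
  have h2 : Measure.map (fun τ : ℝ => b * τ) volume = ENNReal.ofReal |b⁻¹| • (volume : Measure ℝ) := Real.map_volume_mul_left hb
  rw [Measure.volume_eq_prod, ← Measure.map_prod_map _ _ (measurable_const_smul a) (measurable_const_mul b), h1, h2,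
    Measure.prod_smul_left, Measure.prod_smul_right, smul_smul, ← ENNReal.ofReal_mul (abs_nonneg _), ← abs_mul, mul_inv]

theorem fs_map_Lam (v : V) (a b : ℝ) (ha : a ≠ 0) (hb : b ≠ 0) :
    Measure.map (Lam v a b) (volume : Measure (V × ℝ)) = ENNReal.ofReal |(a ^ Module.finrank ℝ V * b)⁻¹| • volume := by
  have hsk : MeasurePreserving (fun q : ℝ × V => (q.1, (2 * q.1) • v + q.2)) (volume : Measure (ℝ × V)) volume := by
    have := MeasurePreserving.skew_product (μa := (volume : Measure ℝ)) (μb := (volume : Measure ℝ)) (μc := (volume : Measure V)) (μd := (volume : Measure V))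
      (f := id) (MeasurePreserving.id _) (g := fun t x => (2 * t) • v + x)
      ((by fun_prop : Continuous (Function.uncurry fun (t : ℝ) (x : V) => (2 * t) • v + x)).measurable)
      (Filter.Eventually.of_forall fun t => (measurePreserving_add_left volume _).map_eq)
    exact this
  have hsh : MeasurePreserving (fun z : V × ℝ => (z.1 + (2 * z.2) • v, z.2)) (volume : Measure (V × ℝ)) volume := by
    have h1 : MeasurePreserving (Prod.swap : V × ℝ → ℝ × V) volume volume := Measure.measurePreserving_swap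
    have h2 : MeasurePreserving (Prod.swap : ℝ × V → V × ℝ) volume volume := Measure.measurePreserving_swap
    have h3 := h2.comp (hsk.comp h1)
    have e : (Prod.swap ∘ (fun q : ℝ × V => (q.1, (2 * q.1) • v + q.2)) ∘ Prod.swap) = fun z : V × ℝ => (z.1 + (2 * z.2) • v, z.2) := by
      funext z
      simp [add_comm]
    rwa [e] at h3
  have e : Lam v a b = Prod.map (fun ξ : V => a • ξ) (fun τ : ℝ => b * τ) ∘ (fun z : V × ℝ => (z.1 + (2 * z.2) • v, z.2)) := by
    funext z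
    simp only [Lam, Function.comp, Prod.map]
  rw [e, ← Measure.map_map (by fun_prop) hsh.measurable, hsh.map_eq, fs_map_diag a b ha hb]

/-- (Tonelli; `x ↦ a (x + 2 t v)` scales the volume of `V` by `a^k`; true for every `f` because `Lam v a b` is a measurable equivalence.) -/
theorem lintegral_Lam (v : V) {a b : ℝ} (ha : 0 < a) (hb : 0 < b) (f : V × ℝ → ℝ≥0∞) :
    ∫⁻ z, f (Lam v a b z) = ENNReal.ofReal ((a ^ Module.finrank ℝ V * b)⁻¹) * ∫⁻ z, f z := by
  have h := (bdu_membed (Lame v a b ha.ne' hb.ne')).lintegral_map (μ := volume) f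
  have e : Measure.map (⇑(Lame v a b ha.ne' hb.ne')) (volume : Measure (V × ℝ)) = ENNReal.ofReal |(a ^ Module.finrank ℝ V * b)⁻¹| • volume :=
    fs_map_Lam v a b ha.ne' hb.ne'
  rw [e, lintegral_smul_measure, abs_of_pos (by positivity)] at h
  exact h.symm

theorem ip_Lam (v : V) {a b : ℝ} (ha : 0 < a) (hb : 0 < b) (p : ℝ) (θ : V × ℝ → ℝ) (G : V × ℝ → ℂ) :
    ip p (fun z => ch (θ z) * G (Lam v a b z)) = ENNReal.ofReal ((a ^ Module.finrank ℝ V * b)⁻¹) * ip p G := by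
  unfold ip
  rw [← lintegral_Lam v ha hb (fun u => ‖G u‖ₑ ^ p)]
  congr 1
  ext z
  have : ‖ch (θ z)‖ₑ = 1 := by
    rw [← ofReal_norm, norm_ch, ENNReal.ofReal_one]
  rw [enorm_mul, this, one_mul]

/-! ## `FS` -/

theorem FS.mono {S S' : Set (V × ℝ)} {F : V × ℝ → ℂ} (h : FS S F) (hS : S ⊆ S') : FS S' F :=
  bdu_FS_mono h hS

theorem FS.sum {S : Set (V × ℝ)} {ι : Type} (s : Finset ι) {H : ι → V × ℝ → ℂ} (h : ∀ j ∈ s, FS S (H j)) :
    FS S (fun z => ∑ j ∈ s, H j z) :=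
  bdu_FS_sum s h

theorem FS.const_mul {S : Set (V × ℝ)} {F : V × ℝ → ℂ} (h : FS S F) (c : ℂ) : FS S (fun z => c * F z) :=
  bdu_FS_const_mul h c

/-- (dominated convergence: `continuous_of_dominated`.) -/
theorem FS.continuous {S : Set (V × ℝ)} {F : V × ℝ → ℂ} (h : FS S F) : Continuous F := by
  obtain ⟨g, h1, -, h3⟩ := h
  have e : F = fun z => ∫ w, ch (pr z w) * g w := funext h3
  rw [e]
  refine continuous_of_dominated (bound := fun w => ‖g w‖) (fun z => (bdu_int_ch h1 z).aestronglyMeasurable) (fun z => ?_) h1.norm ?_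
  · exact Filter.Eventually.of_forall fun w => by rw [norm_mul, norm_ch, one_mul]
  · refine Filter.Eventually.of_forall fun w => ?_
    have hc : Continuous fun z : V × ℝ => pr z w := by
      unfold pr
      fun_prop
    exact (bdu_ch_cont.comp hc).mul continuous_const

theorem FS.bdd {S : Set (V × ℝ)} {F : V × ℝ → ℂ} (h : FS S F) : ∃ B : ℝ, ∀ z, ‖F z‖ ≤ B := by
  obtain ⟨g, h1, -, h3⟩ := h
  refine ⟨∫ w, ‖g w‖, fun z => ?_⟩
  rw [h3]
  refine (norm_integral_le_integral_norm _).trans (le_of_eq ?_)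
  congr 1
  ext w
  rw [norm_mul, norm_ch, one_mul]

/-- translation in space-time (`g ↦ ch (pr z₀ ·) g`). -/
theorem FS.shift {S : Set (V × ℝ)} {F : V × ℝ → ℂ} (h : FS S F) (z₀ : V × ℝ) : FS S (fun z => F (z + z₀)) :=
  bdu_FS_translate h z₀

/-- modulation = translation in frequency. -/
theorem FS.modulate {S : Set (V × ℝ)} {F : V × ℝ → ℂ} (h : FS S F) (w₀ : V × ℝ) :
    FS ((fun w => w₀ + w) '' S) (fun z => ch (pr z w₀) * F z) :=
  bdu_FS_modulate h w₀

/-- linear change of variables. -/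
theorem FS.lin {S : Set (V × ℝ)} {G : V × ℝ → ℂ} (h : FS S G) (v : V) {a b : ℝ} (ha : 0 < a) (hb : 0 < b) :
    FS (LamT v a b '' S) (fun z => G (Lam v a b z)) :=
  bdu_FS_comp_Lam h v ha.ne' hb.ne'

/-- parabolic rescaling (`FS.lin` + `FS.modulate` + `Par_eq`). -/
theorem FS.par {S : Set (V × ℝ)} {G : V × ℝ → ℂ} (h : FS S G) (v : V) {σ : ℝ} (hσ : 0 < σ) :
    FS (Par v σ '' S) (fun z => ch (pr z (v, ‖v‖ ^ 2)) * G (Lam v σ (σ ^ 2) z)) :=
  bdu_FS_comp_Par h v hσ.ne'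

/-- general affine version of `FS.unpar`. -/
theorem FS.unlin {S : Set (V × ℝ)} {F : V × ℝ → ℂ} (h : FS S F) (v : V) {a b : ℝ} (ha : 0 < a) (hb : 0 < b) (w₀ : V × ℝ) :
    ∃ G : V × ℝ → ℂ, FS ((fun w => w₀ + LamT v a b w) ⁻¹' S) G ∧ ∀ z, F z = ch (pr z w₀) * G (Lam v a b z) := by
  set e := Lame v a b ha.ne' hb.ne' with he
  set eT := LamTe v a b ha.ne' hb.ne' with heT
  have h1 : FS ((fun w => -w₀ + w) '' S) (fun z => ch (pr z (-w₀)) * F z) := bdu_FS_modulate h _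
  have hT : ∀ z w, pr (e.symm z) w = pr z (eT.symm w) := by
    intro z w
    have := bdu_pr_Lam v a b (e.symm z) (eT.symm w)
    rw [← bdu_Lame_apply v a b ha.ne' hb.ne', ← bdu_LamTe_apply v a b ha.ne' hb.ne', ← he, ← heT, LinearEquiv.apply_symm_apply,
      LinearEquiv.apply_symm_apply] at this
    exact this.symm
  have h2 := bdu_FS_comp_linear h1 e.symm eT.symm hT
  refine ⟨_, bdu_FS_mono h2 ?_, fun z => ?_⟩
  · rintro _ ⟨_, ⟨w, hw, rfl⟩, rfl⟩
    rw [mem_preimage]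
    beta_reduce
    rw [← bdu_LamTe_apply v a b ha.ne' hb.ne', ← heT, LinearEquiv.apply_symm_apply, add_neg_cancel_left]
    exact hw
  · rw [← bdu_Lame_apply v a b ha.ne' hb.ne', ← he, LinearEquiv.symm_apply_apply, ← mul_assoc, ← bdu_ch_add, ← bdu_pr_add_right]
    simp [pr, ch]

/-- every `F ∈ FS S` is the parabolic rescaling of some `G`. -/
theorem FS.unpar {S : Set (V × ℝ)} {F : V × ℝ → ℂ} (h : FS S F) (v : V) {σ : ℝ} (hσ : 0 < σ) :
    ∃ G : V × ℝ → ℂ, FS (Par v σ ⁻¹' S) G ∧ ∀ z, F z = ch (pr z (v, ‖v‖ ^ 2)) * G (Lam v σ (σ ^ 2) z) := by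
  obtain ⟨G, hG, hz⟩ := h.unlin v hσ (pow_pos hσ 2) (v, ‖v‖ ^ 2)
  refine ⟨G, ?_, hz⟩
  have e : Par v σ = fun w => (v, ‖v‖ ^ 2) + LamT v σ (σ ^ 2) w := funext (Par_eq v σ)
  rw [e]
  exact hG

/-- products: the density is the convolution (`MeasureTheory.Integrable.integrable_convolution`, `support_convolution_subset`, Fubini + translation). -/
theorem FS.mul {S S' : Set (V × ℝ)} {F G : V × ℝ → ℂ} (hF : FS S F) (hG : FS S' G) :
    FS (S + S') (fun z => F z * G z) :=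
  bdu_FS_mul hF hG

/-- dilated and translated copy of a function with Fourier support in the unit ball. -/
theorem FS.dilate {η : V × ℝ → ℂ} (h : FS (closedBall 0 1) η) {R : ℝ} (hR : 0 < R) (z : V × ℝ) :
    FS (closedBall 0 (1 / R)) (fun y => η (R⁻¹ • (y - z))) := by
  have hR' : R⁻¹ ≠ 0 := inv_ne_zero hR.ne'
  have h1 := bdu_FS_comp_linear h (fun y => R⁻¹ • y) (LinearEquiv.smulOfNeZero ℝ (V × ℝ) R⁻¹ hR') (fun y w => by
    simp only [pr, LinearEquiv.smulOfNeZero_apply, Prod.smul_fst, Prod.smul_snd, inner_smul_left, inner_smul_right,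
      RCLike.conj_to_real, smul_eq_mul]
    ring)
  have h2 := bdu_FS_translate h1 (-z)
  simp only [← sub_eq_add_neg] at h2
  refine bdu_FS_mono h2 ?_
  rintro _ ⟨w, hw, rfl⟩
  rw [mem_closedBall_zero_iff] at hw ⊢
  rw [LinearEquiv.smulOfNeZero_apply, norm_smul, Real.norm_of_nonneg (inv_nonneg.2 hR.le), one_div]
  exact mul_le_of_le_one_right (inv_nonneg.2 hR.le) hw

/-- the time reflection as a linear equivalence -/
noncomputable def fsRefl : (V × ℝ) ≃ₗ[ℝ] (V × ℝ) :=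
  (LinearEquiv.refl ℝ V).prodCongr (LinearEquiv.neg ℝ)

/-- time reflection: the paraboloid `τ = -|ξ|²` of the papers. -/
theorem FS.reflect {S : Set (V × ℝ)} {F : V × ℝ → ℂ} (h : FS S F) :
    FS ((fun w : V × ℝ => (w.1, -w.2)) '' S) (fun z => F (z.1, -z.2)) := by
  have h1 := bdu_FS_comp_linear h (fun z => (z.1, -z.2)) (fsRefl (V := V)) (fun y w => by
    simp [pr, fsRefl])
  exact h1

end Claimed.Agent.BD
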