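import Claimed.Agent.Lib.BD.Resc
import Claimed.Agent.Lib.BD.GeoT
import Claimed.Agent.Lib.MK.Graph

/-!
# Box BD, units U6 + U7: multilinear Kakeya (adapter) and the ball inflation   (architect helper266)

`k = finrank V ≥ 1`, `d = k + 1`, `r = 1/σ`, `R = 1/σ²`.  NO pigeonholing (see the header of `Defs.lean`).
-/

set_option autoImplicit false
open MeasureTheory Set Metric
open scoped ENNReal NNReal

namespace Claimed.Agent.BD

variable {V : Type} [NormedAddCommGroup V] [InnerProductSpace ℝ V] [FiniteDimensional ℝ V] [MeasurableSpace V] [BorelSpace V]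

/-- the tube `{(x,t) : |x + 2 t v - a| ≤ h}` (direction `(-2v, 1)`). -/
def tube (v a : V) (h : ℝ) : Set (V × ℝ) := {z | ‖z.1 + (2 * z.2) • v - a‖ ≤ h}

/-- **U6: multilinear Kakeya**, weighted, time-graph tubes, `ε`-loss allowed (`S` = radius of the ball / radius of the tubes).
ADAPTER of `Lib/MK` (helper13: endpoint, lossless) or of Guth's short proof.  `Trans ν` ⟹ `|det ((2 v_i, 1))_i| ≥ θ(ν, B) > 0`: compactness of `{ξ ∈ (closedBall 0 B)^(k+1) | Trans ν ξ}` and `det = 0 ⟹` all points in a hyperplane. -/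
theorem bd_mk (hk : 1 ≤ Module.finrank ℝ V) (ν B ε : ℝ) (hν : 0 < ν) (hε : 0 < ε) :
    ∃ A : ℝ, ∀ (h S : ℝ) (z₀ : V × ℝ) (ι : Type) (s : Fin (dd V) → Finset ι) (v a : Fin (dd V) → ι → V) (c : Fin (dd V) → ι → ℝ≥0∞),
      0 < h → 1 ≤ S → (∀ i, ∀ j ∈ s i, ‖v i j‖ ≤ B) →
      (∀ j : Fin (dd V) → ι, (∀ i, j i ∈ s i) → Trans ν (fun i => v i (j i))) →
      ∫⁻ z in closedBall z₀ (S * h), ∏ i, (∑ j ∈ s i, c i j * (tube (v i j) (a i j) h).indicator 1 z) ^ (1 / (Module.finrank ℝ V : ℝ)) ≤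
        ENNReal.ofReal (A * S ^ ε * h ^ (dd V : ℝ)) * ∏ i, (∑ j ∈ s i, c i j) ^ (1 / (Module.finrank ℝ V : ℝ)) := by
  obtain ⟨C, M, hC, H⟩ := MK.mk_graph_fin.{0, 0} V hk (max B 0) (le_max_right _ _)
  have hB0 : 0 ≤ max B 0 := le_max_right _ _
  have hQ : 1 ≤ 1 + 1 / ν * (max B 0 + 1) := by
    have : 0 ≤ 1 / ν * (max B 0 + 1) := by positivity
    linarith
  refine ⟨C * (1 + 1 / ν * (max B 0 + 1)) ^ M, fun h S z₀ ι s v a c hh hS hv ht => ?_⟩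
  have key := H h (1 + 1 / ν * (max B 0 + 1)) hh hQ ι s v a c (fun i j hj => (hv i j hj).trans (le_max_left _ _))
    (fun j hj t => bdg_Trans_BdgTrans hν (ht j hj) ((hv _ _ (hj _)).trans (le_max_left _ _)) (fun i => v i (j i)) (fun _ => rfl) t)
  refine (setLIntegral_le_lintegral _ _).trans (key.trans ?_)
  refine mul_le_mul' (ENNReal.ofReal_le_ofReal ?_) le_rfl
  have e1 : h ^ (dd V : ℝ) = h ^ (Module.finrank ℝ V + 1) := by
    rw [Real.rpow_natCast]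
    rfl
  rw [e1]
  have h1 : 1 ≤ S ^ ε := Real.one_le_rpow hS hε.le
  have h2 : 0 ≤ C * (1 + 1 / ν * (max B 0 + 1)) ^ M := by positivity
  have h3 : 0 ≤ h ^ (Module.finrank ℝ V + 1) := by positivity
  nlinarith [mul_le_mul_of_nonneg_left h1 h2]

omit [FiniteDimensional ℝ V] [MeasurableSpace V] [BorelSpace V] in
theorem tk_norm_pi (v : V) (u : V × ℝ) {C : ℝ} (hv : ‖v‖ ≤ C) : ‖u.1 + (2 * u.2) • v‖ ≤ (1 + 2 * C) * ‖u‖ := by
  have h1 : ‖u.1‖ ≤ ‖u‖ := norm_fst_le u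
  have h2 : |u.2| ≤ ‖u‖ := norm_snd_le u
  calc ‖u.1 + (2 * u.2) • v‖ ≤ ‖u.1‖ + ‖(2 * u.2) • v‖ := norm_add_le _ _
    _ = ‖u.1‖ + 2 * |u.2| * ‖v‖ := by rw [norm_smul, Real.norm_eq_abs, abs_mul, abs_two]
    _ ≤ ‖u‖ + 2 * ‖u‖ * C := by gcongr
    _ = _ := by ring

omit [FiniteDimensional ℝ V] [MeasurableSpace V] [BorelSpace V] in
theorem tk_pi_le_Lam (v : V) (u : V × ℝ) {σ : ℝ} (hσ : 0 < σ) :
    σ * ‖u.1 + (2 * u.2) • v‖ ≤ ‖Lam v σ (σ ^ 2) u‖ := by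
  have h := norm_fst_le (Lam v σ (σ ^ 2) u)
  simp only [Lam, norm_smul, Real.norm_eq_abs, abs_of_pos hσ] at h ⊢
  exact h

omit [FiniteDimensional ℝ V] [MeasurableSpace V] [BorelSpace V] in
theorem tk_norm_le_Lam (v : V) (u : V × ℝ) {C σ : ℝ} (hv : ‖v‖ ≤ C) (hσ : 0 < σ) (hσ1 : σ ≤ 1) :
    σ ^ 2 * ‖u‖ ≤ (1 + 2 * C) * ‖Lam v σ (σ ^ 2) u‖ := by
  have hC : 0 ≤ C := (norm_nonneg v).trans hv
  have h1 := tk_pi_le_Lam v u hσ
  have h2 : σ ^ 2 * |u.2| ≤ ‖Lam v σ (σ ^ 2) u‖ := by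
    have h := norm_snd_le (Lam v σ (σ ^ 2) u)
    simp only [Lam, Real.norm_eq_abs, abs_mul, abs_of_pos (pow_pos hσ 2)] at h ⊢
    exact h
  have h3 : ‖u.1‖ ≤ ‖u.1 + (2 * u.2) • v‖ + 2 * |u.2| * C := by
    calc ‖u.1‖ = ‖(u.1 + (2 * u.2) • v) - (2 * u.2) • v‖ := by rw [add_sub_cancel_right]
      _ ≤ ‖u.1 + (2 * u.2) • v‖ + ‖(2 * u.2) • v‖ := norm_sub_le _ _
      _ = ‖u.1 + (2 * u.2) • v‖ + 2 * |u.2| * ‖v‖ := by rw [norm_smul, Real.norm_eq_abs, abs_mul, abs_two]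
      _ ≤ _ := by gcongr
  have hN := norm_nonneg (Lam v σ (σ ^ 2) u)
  have hP := norm_nonneg (u.1 + (2 * u.2) • v)
  have h4 : σ ^ 2 * ‖u.1 + (2 * u.2) • v‖ ≤ σ * ‖u.1 + (2 * u.2) • v‖ := by
    have : σ ^ 2 ≤ σ := by nlinarith
    gcongr
  rw [Prod.norm_def, Real.norm_eq_abs]
  rcases le_total ‖u.1‖ |u.2| with h | h
  · rw [max_eq_right h]
    nlinarith
  · rw [max_eq_left h]
    have : σ ^ 2 * ‖u.1‖ ≤ σ ^ 2 * ‖u.1 + (2 * u.2) • v‖ + 2 * C * (σ ^ 2 * |u.2|) := by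
      have := mul_le_mul_of_nonneg_left h3 (pow_pos hσ 2).le
      nlinarith
    nlinarith

/-- the pointwise real inequality behind `tube_kernel`. -/
theorem tk_pointwise {E E₁ D K L W P Q : ℝ} (hE : 0 ≤ E) (hE₁ : 0 ≤ E₁) (hK : 0 < K) (hL : 0 < L) (hW : 0 < W) (hP : 0 < P) (hQ : 0 < Q)
    (h1 : P ≤ L * K * W) (h2 : Q ≤ L * K * W) :
    L ^ (-(E + E₁)) * W ^ (-(E + E₁ + D)) ≤ K ^ (E + E₁) * P ^ (-E₁) * Q ^ (-E) * W ^ (-D) := by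
  have hT : 0 < L * K * W := by positivity
  have e1 : (L * K * W) ^ (-E₁) ≤ P ^ (-E₁) := Real.rpow_le_rpow_of_nonpos hP h1 (by linarith)
  have e2 : (L * K * W) ^ (-E) ≤ Q ^ (-E) := Real.rpow_le_rpow_of_nonpos hQ h2 (by linarith)
  have e3 : L ^ (-(E + E₁)) * W ^ (-(E + E₁ + D)) = K ^ (E + E₁) * (L * K * W) ^ (-E₁) * (L * K * W) ^ (-E) * W ^ (-D) := by
    rw [mul_assoc (K ^ (E + E₁)), ← Real.rpow_add hT, Real.mul_rpow (by positivity) hW.le, Real.mul_rpow hL.le hK.le]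
    have a1 : -E₁ + -E = -(E + E₁) := by ring
    have a2 : -(E + E₁ + D) = -(E + E₁) + -D := by ring
    rw [a1, a2, Real.rpow_add hW, Real.rpow_neg hK.le (E + E₁)]
    have : K ^ (E + E₁) ≠ 0 := (Real.rpow_pos_of_pos hK _).ne'
    field_simp
  rw [e3]
  gcongr

/-- the kernel estimate behind the tubes (Peetre only).  `Θ(y) = (1 + σ|y₁ + 2 y₂ v|)^(-E₁) (1 + σ²|y|)^(-E)`.
`∫ tw M v σ σ² (y - y') σ^d wt E' σ⁻¹ y' dy' ≤ A σ^(k+2) Θ(y)` for `M ≥ E + E₁`, `E' > E + E₁ + d`, `|v| ≤ C`, `σ ≤ 1`.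
PLAN: (1) `tw M v σ σ² y ≤ A σ^(k+2) Θ(y)` since `1 + σ²|y| ≤ (2 + 2C)(1 + σ|y₁+2y₂v|)(1 + σ²|y₂|)`; (2) `Θ(y - y') ≤ Θ(y) (1 + σ|y'₁ + 2y'₂v|)^(E₁) (1 + σ²|y'|)^E ≤ Θ(y) (2+2C)^(E₁) (1 + σ|y'|)^(E₁+E)`; (3) `∫ σ^d (1+σ|y'|)^(E₁+E-E') dy' < ∞` (`exists_lintegral_wt`). -/
theorem tube_kernel (C E E₁ : ℝ) (hC : 0 ≤ C) (hE : 0 ≤ E) (hE₁ : 0 ≤ E₁) :
    ∃ A : ℝ, ∀ (v : V) (σ : ℝ) (y : V × ℝ), ‖v‖ ≤ C → 0 < σ → σ ≤ 1 →
      ∫⁻ y', tw (E + E₁) v σ (σ ^ 2) (y - y') * (ENNReal.ofReal (σ ^ (dd V : ℝ)) * wt (E + E₁ + dd V + 1) σ⁻¹ y') ≤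
        ENNReal.ofReal (A * σ ^ ((dd V : ℝ) + 1) * (1 + σ * ‖y.1 + (2 * y.2) • v‖) ^ (-E₁)) * wt E (σ⁻¹ ^ 2) y := by
  obtain ⟨c, hc, hint⟩ := exists_lintegral_wt (V := V) (E := (dd V : ℝ) + 1) (by linarith)
  refine ⟨(1 + 2 * C) ^ (E + E₁) * c, fun v σ y hv hσ hσ1 => ?_⟩
  have hK : 0 < 1 + 2 * C := by linarith
  have hσk : σ ^ (Module.finrank ℝ V) * σ ^ 2 = σ ^ ((dd V : ℝ) + 1) := by
    have : ((dd V : ℝ) + 1) = ((Module.finrank ℝ V + 2 : ℕ) : ℝ) := by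
      unfold dd
      push_cast
      ring
    rw [this, Real.rpow_natCast, pow_add]
  have hpt : ∀ y' : V × ℝ, tw (E + E₁) v σ (σ ^ 2) (y - y') * (ENNReal.ofReal (σ ^ (dd V : ℝ)) * wt (E + E₁ + dd V + 1) σ⁻¹ y')
      ≤ (ENNReal.ofReal ((1 + 2 * C) ^ (E + E₁) * σ ^ ((dd V : ℝ) + 1) * (1 + σ * ‖y.1 + (2 * y.2) • v‖) ^ (-E₁)) * wt E (σ⁻¹ ^ 2) y
          * ENNReal.ofReal (σ ^ (dd V : ℝ))) * wt ((dd V : ℝ) + 1) σ⁻¹ y' := by
    intro y'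
    have hL : 0 < 1 + ‖Lam v σ (σ ^ 2) (y - y')‖ := by positivity
    have hW : 0 < 1 + ‖y'‖ / σ⁻¹ := by positivity
    have hP : 0 < 1 + σ * ‖y.1 + (2 * y.2) • v‖ := by positivity
    have hQ : 0 < 1 + ‖y‖ / σ⁻¹ ^ 2 := by positivity
    have hWe : 1 + ‖y'‖ / σ⁻¹ = 1 + σ * ‖y'‖ := by
      rw [div_inv_eq_mul, mul_comm]
    have hQe : 1 + ‖y‖ / σ⁻¹ ^ 2 = 1 + σ ^ 2 * ‖y‖ := by
      rw [inv_pow, div_inv_eq_mul, mul_comm]
    have hn := norm_nonneg (Lam v σ (σ ^ 2) (y - y'))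
    have hy' := norm_nonneg y'
    have h1 : 1 + σ * ‖y.1 + (2 * y.2) • v‖ ≤ (1 + ‖Lam v σ (σ ^ 2) (y - y')‖) * (1 + 2 * C) * (1 + ‖y'‖ / σ⁻¹) := by
      rw [hWe]
      have a1 := tk_pi_le_Lam v (y - y') hσ
      have a2 := tk_norm_pi v y' hv
      have a3 : ‖y.1 + (2 * y.2) • v‖ ≤ ‖(y - y').1 + (2 * (y - y').2) • v‖ + ‖y'.1 + (2 * y'.2) • v‖ := by
        have : y.1 + (2 * y.2) • v = ((y - y').1 + (2 * (y - y').2) • v) + (y'.1 + (2 * y'.2) • v) := by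
          simp only [Prod.fst_sub, Prod.snd_sub, mul_sub, sub_smul]
          abel
        rw [this]
        exact norm_add_le _ _
      have a4 : σ * ‖y.1 + (2 * y.2) • v‖ ≤ ‖Lam v σ (σ ^ 2) (y - y')‖ + (1 + 2 * C) * (σ * ‖y'‖) := by
        have := mul_le_mul_of_nonneg_left a3 hσ.le
        have := mul_le_mul_of_nonneg_left a2 hσ.le
        nlinarith
      have a5 : 0 ≤ σ * ‖y'‖ := by positivity
      have a6 : 0 ≤ ‖Lam v σ (σ ^ 2) (y - y')‖ * (σ * ‖y'‖) := by positivity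
      have a7 : 0 ≤ C * ‖Lam v σ (σ ^ 2) (y - y')‖ := by positivity
      have a8 : 0 ≤ C * (‖Lam v σ (σ ^ 2) (y - y')‖ * (σ * ‖y'‖)) := by positivity
      nlinarith
    have h2 : 1 + ‖y‖ / σ⁻¹ ^ 2 ≤ (1 + ‖Lam v σ (σ ^ 2) (y - y')‖) * (1 + 2 * C) * (1 + ‖y'‖ / σ⁻¹) := by
      rw [hWe, hQe]
      have a1 := tk_norm_le_Lam v (y - y') hv hσ hσ1
      have a3 : ‖y‖ ≤ ‖y - y'‖ + ‖y'‖ := by
        have : y = (y - y') + y' := by abel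
        calc ‖y‖ = ‖(y - y') + y'‖ := by rw [← this]
          _ ≤ _ := norm_add_le _ _
      have a4 : σ ^ 2 * ‖y‖ ≤ (1 + 2 * C) * ‖Lam v σ (σ ^ 2) (y - y')‖ + σ * ‖y'‖ := by
        have := mul_le_mul_of_nonneg_left a3 (pow_pos hσ 2).le
        have b : σ ^ 2 * ‖y'‖ ≤ σ * ‖y'‖ := by
          have : σ ^ 2 ≤ σ := by nlinarith
          gcongr
        nlinarith
      have a5 : 0 ≤ σ * ‖y'‖ := by positivity
      have a6 : 0 ≤ ‖Lam v σ (σ ^ 2) (y - y')‖ * (σ * ‖y'‖) := by positivity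
      have a7 : 0 ≤ C * (σ * ‖y'‖) := by positivity
      have a8 : 0 ≤ C * (‖Lam v σ (σ ^ 2) (y - y')‖ * (σ * ‖y'‖)) := by positivity
      nlinarith
    have h3 := tk_pointwise (D := (dd V : ℝ) + 1) hE hE₁ hK hL hW hP hQ h1 h2
    unfold tw wt
    rw [← ENNReal.ofReal_mul (by positivity), ← ENNReal.ofReal_mul (by positivity), ← ENNReal.ofReal_mul (by positivity),
      ← ENNReal.ofReal_mul (by positivity), ← ENNReal.ofReal_mul (by positivity)]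
    refine ENNReal.ofReal_le_ofReal ?_
    rw [hσk]
    have e : E + E₁ + (dd V : ℝ) + 1 = E + E₁ + ((dd V : ℝ) + 1) := by ring
    rw [e]
    have hs1 : 0 ≤ σ ^ ((dd V : ℝ) + 1) := by positivity
    have hs2 : 0 ≤ σ ^ (dd V : ℝ) := by positivity
    calc σ ^ ((dd V : ℝ) + 1) * (1 + ‖Lam v σ (σ ^ 2) (y - y')‖) ^ (-(E + E₁)) * (σ ^ (dd V : ℝ) * (1 + ‖y'‖ / σ⁻¹) ^ (-(E + E₁ + ((dd V : ℝ) + 1))))
        = σ ^ ((dd V : ℝ) + 1) * σ ^ (dd V : ℝ) * ((1 + ‖Lam v σ (σ ^ 2) (y - y')‖) ^ (-(E + E₁)) * (1 + ‖y'‖ / σ⁻¹) ^ (-(E + E₁ + ((dd V : ℝ) + 1)))) := by ring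
      _ ≤ σ ^ ((dd V : ℝ) + 1) * σ ^ (dd V : ℝ) * ((1 + 2 * C) ^ (E + E₁) * (1 + σ * ‖y.1 + (2 * y.2) • v‖) ^ (-E₁) * (1 + ‖y‖ / σ⁻¹ ^ 2) ^ (-E) * (1 + ‖y'‖ / σ⁻¹) ^ (-((dd V : ℝ) + 1))) := by
          gcongr
      _ = _ := by ring
  calc _ ≤ ∫⁻ y', (ENNReal.ofReal ((1 + 2 * C) ^ (E + E₁) * σ ^ ((dd V : ℝ) + 1) * (1 + σ * ‖y.1 + (2 * y.2) • v‖) ^ (-E₁)) * wt E (σ⁻¹ ^ 2) y
          * ENNReal.ofReal (σ ^ (dd V : ℝ))) * wt ((dd V : ℝ) + 1) σ⁻¹ y' := lintegral_mono hpt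
    _ = (ENNReal.ofReal ((1 + 2 * C) ^ (E + E₁) * σ ^ ((dd V : ℝ) + 1) * (1 + σ * ‖y.1 + (2 * y.2) • v‖) ^ (-E₁)) * wt E (σ⁻¹ ^ 2) y
          * ENNReal.ofReal (σ ^ (dd V : ℝ))) * ENNReal.ofReal (c * σ⁻¹ ^ (dd V : ℝ)) := by
        rw [lintegral_const_mul _ (measurable_wt _ _), hint _ (by positivity)]
    _ = _ := by
        have e : σ ^ (dd V : ℝ) * (c * σ⁻¹ ^ (dd V : ℝ)) = c := by
          rw [Real.inv_rpow hσ.le]
          have : σ ^ (dd V : ℝ) ≠ 0 := (Real.rpow_pos_of_pos hσ _).ne'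
          field_simp
        rw [mul_assoc, ← ENNReal.ofReal_mul (by positivity), e, mul_right_comm, ← ENNReal.ofReal_mul (by positivity)]
        congr 2
        ring

/-- Peetre for reals. -/
theorem td_peetre {E x x' δ : ℝ} (hE : 0 ≤ E) (hx : 0 ≤ x) (hx' : 0 ≤ x') (hδ : 0 ≤ δ) (h : x' ≤ x + δ) :
    (1 + x) ^ (-E) ≤ (1 + δ) ^ E * (1 + x') ^ (-E) := by
  have h1 : 1 + x' ≤ (1 + x) * (1 + δ) := by nlinarith [mul_nonneg hx hδ]
  have h2 : ((1 + x) * (1 + δ)) ^ (-E) ≤ (1 + x') ^ (-E) := Real.rpow_le_rpow_of_nonpos (by linarith) h1 (by linarith)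
  have h3 : (1 + x) ^ (-E) = (1 + δ) ^ E * ((1 + x) * (1 + δ)) ^ (-E) := by
    rw [Real.mul_rpow (by linarith) (by linarith), Real.rpow_neg (by linarith : (0 : ℝ) ≤ 1 + δ)]
    have : (1 + δ) ^ E ≠ 0 := (Real.rpow_pos_of_pos (by linarith) _).ne'
    field_simp
  rw [h3]
  gcongr

omit [InnerProductSpace ℝ V] [FiniteDimensional ℝ V] [MeasurableSpace V] [BorelSpace V] in
theorem td_wt_neg (E R : ℝ) (y : V × ℝ) : wt E R (-y) = wt E R y := by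
  unfold wt
  rw [norm_neg]

theorem td_avp_le (C E t : ℝ) (hC : 0 ≤ C) (hE : 0 < E) (ht : 1 ≤ t) :
    ∃ A : ℝ, 0 ≤ A ∧ ∀ (v : V) (σ : ℝ) (F : V × ℝ → ℂ) (z' : V × ℝ), ‖v‖ ≤ C → 0 < σ → σ ≤ 1 → FS (cap v (C * σ) (C * σ ^ 2)) F →
      avp t (E + 2 * dd V + 1) σ⁻¹ F z' ≤ ∫⁻ y, ‖F y‖ₑ ^ t *
        (ENNReal.ofReal (A * σ ^ ((dd V : ℝ) + 1) * (1 + σ * ‖(z' - y).1 + (2 * (z' - y).2) • v‖) ^ (-(dd V : ℝ))) * wt E (σ⁻¹ ^ 2) (z' - y)) := by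
  have hd : (0 : ℝ) ≤ dd V := Nat.cast_nonneg _
  obtain ⟨A₁, hA₁⟩ := loc_const_cap (V := V) C (E + dd V) t hC ht (by linarith)
  obtain ⟨A₂, hA₂⟩ := tube_kernel (V := V) C E (dd V) hC hE.le hd
  refine ⟨max A₁ 0 * max A₂ 0, by positivity, fun v σ F z' hv hσ hσ1 hF => ?_⟩
  have hFc := hF.continuous
  have hFt : ∀ y, ‖F y‖ₑ ^ t ≠ ∞ := fun y => ENNReal.rpow_ne_top_of_nonneg (by linarith) enorm_ne_top
  have hσd : σ⁻¹ ^ (-(dd V : ℝ)) = σ ^ (dd V : ℝ) := by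
    rw [Real.rpow_neg (by positivity), Real.inv_rpow hσ.le, inv_inv]
  have hE' : E + 2 * (dd V : ℝ) + 1 = E + dd V + dd V + 1 := by ring
  unfold avp
  rw [hσd, hE']
  have hm : Measurable (Function.uncurry fun y y' : V × ℝ => ‖F y'‖ₑ ^ t * (ENNReal.ofReal A₁ * (tw (E + dd V) v σ (σ ^ 2) (y - y') *
      (ENNReal.ofReal (σ ^ (dd V : ℝ)) * wt (E + dd V + dd V + 1) σ⁻¹ (y - z'))))) := by
    have m1 : Measurable fun a : (V × ℝ) × (V × ℝ) => ‖F a.2‖ₑ ^ t := (hFc.measurable.comp measurable_snd).enorm.pow_const _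
    have m2 : Measurable fun a : (V × ℝ) × (V × ℝ) => tw (E + dd V) v σ (σ ^ 2) (a.1 - a.2) :=
      (measurable_tw _ _ _ _).comp (measurable_fst.sub measurable_snd)
    have m3 : Measurable fun a : (V × ℝ) × (V × ℝ) => wt (E + dd V + dd V + 1) σ⁻¹ (a.1 - z') :=
      (measurable_wt _ _).comp (measurable_fst.sub measurable_const)
    exact m1.mul ((m2.mul (m3.const_mul _)).const_mul _)
  calc ENNReal.ofReal (σ ^ (dd V : ℝ)) * ∫⁻ y, ‖F y‖ₑ ^ t * wt (E + dd V + dd V + 1) σ⁻¹ (y - z')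
      ≤ ENNReal.ofReal (σ ^ (dd V : ℝ)) * ∫⁻ y, (ENNReal.ofReal A₁ * ∫⁻ y', ‖F y'‖ₑ ^ t * tw (E + dd V) v σ (σ ^ 2) (y - y')) * wt (E + dd V + dd V + 1) σ⁻¹ (y - z') := by
        gcongr with y
        exact hA₁ v σ F hσ hF y
    _ = ∫⁻ y, ∫⁻ y', ‖F y'‖ₑ ^ t * (ENNReal.ofReal A₁ * (tw (E + dd V) v σ (σ ^ 2) (y - y') *
          (ENNReal.ofReal (σ ^ (dd V : ℝ)) * wt (E + dd V + dd V + 1) σ⁻¹ (y - z')))) := by
        rw [← lintegral_const_mul' _ _ ENNReal.ofReal_ne_top]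
        refine lintegral_congr fun y => ?_
        rw [← lintegral_const_mul' _ _ ENNReal.ofReal_ne_top, ← lintegral_mul_const' _ _ (by unfold wt; exact ENNReal.ofReal_ne_top),
          ← lintegral_const_mul' _ _ ENNReal.ofReal_ne_top]
        refine lintegral_congr fun y' => ?_
        ring
    _ = ∫⁻ y', ∫⁻ y, ‖F y'‖ₑ ^ t * (ENNReal.ofReal A₁ * (tw (E + dd V) v σ (σ ^ 2) (y - y') *
          (ENNReal.ofReal (σ ^ (dd V : ℝ)) * wt (E + dd V + dd V + 1) σ⁻¹ (y - z')))) :=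
        lintegral_lintegral_swap hm.aemeasurable
    _ = ∫⁻ y', ‖F y'‖ₑ ^ t * (ENNReal.ofReal A₁ * ∫⁻ w, tw (E + dd V) v σ (σ ^ 2) ((z' - y') - w) *
          (ENNReal.ofReal (σ ^ (dd V : ℝ)) * wt (E + dd V + dd V + 1) σ⁻¹ w)) := by
        refine lintegral_congr fun y' => ?_
        rw [lintegral_const_mul' _ _ (hFt y'), lintegral_const_mul' _ _ ENNReal.ofReal_ne_top]
        congr 2
        rw [← lintegral_sub_left_eq_self (fun w => tw (E + dd V) v σ (σ ^ 2) ((z' - y') - w) *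
          (ENNReal.ofReal (σ ^ (dd V : ℝ)) * wt (E + dd V + dd V + 1) σ⁻¹ w)) z']
        refine lintegral_congr fun y => ?_
        have e1 : z' - y' - (z' - y) = y - y' := by abel
        have e2 : z' - y = -(y - z') := by abel
        simp only [e1]
        rw [e2, td_wt_neg]
    _ ≤ ∫⁻ y', ‖F y'‖ₑ ^ t * (ENNReal.ofReal A₁ * (ENNReal.ofReal (A₂ * σ ^ ((dd V : ℝ) + 1) * (1 + σ * ‖(z' - y').1 + (2 * (z' - y').2) • v‖) ^ (-(dd V : ℝ))) * wt E (σ⁻¹ ^ 2) (z' - y'))) := by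
        gcongr with y'
        exact hA₂ v σ (z' - y') hv hσ hσ1
    _ ≤ _ := by
        refine lintegral_mono fun y' => ?_
        refine mul_le_mul' le_rfl ?_
        rw [← mul_assoc]
        refine mul_le_mul' ?_ le_rfl
        calc ENNReal.ofReal A₁ * ENNReal.ofReal (A₂ * σ ^ ((dd V : ℝ) + 1) * (1 + σ * ‖(z' - y').1 + (2 * (z' - y').2) • v‖) ^ (-(dd V : ℝ)))
            ≤ ENNReal.ofReal (max A₁ 0) * ENNReal.ofReal (max A₂ 0 * σ ^ ((dd V : ℝ) + 1) * (1 + σ * ‖(z' - y').1 + (2 * (z' - y').2) • v‖) ^ (-(dd V : ℝ))) := by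
              gcongr
              · exact le_max_left _ _
              · exact le_max_left _ _
          _ = _ := by
              rw [← ENNReal.ofReal_mul (by positivity)]
              congr 1
              ring

/-- **domination by tubes** (one cap).  In the ball of radius `R = σ⁻²` about `z` the local average at radius `r = σ⁻¹` of `F ∈ FS (cap v (Cσ) (Cσ²))` is dominated by a finite sum of tubes of radius `r` in the direction of the cap,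
of total weight `≤ A (R/r)^k avp t E R F z`.
PLAN: `E₁ = k + 1`.  `loc_const_cap` + Tonelli + `tube_kernel`: `avp t E' r F z' ≤ A ∫ |F y|^t σ^(d+1) (1 + σ|π(z' - y)|)^(-E₁) wt E R (z' - y) dy`, `π(x,t) = x + 2 t v`.
`𝒜` = `exists_sep_net` of the ball `|a - π z| ≤ (1 + 2C) R` of `V` at scale `r`; `c a = A' ∫ |F y|^t σ^(d+1) (1 + σ|a - π y|)^(-E₁) wt E R (z - y) dy`; Peetre in both factors (`|π z' - a| ≤ r`, `|z' - z| ≤ R`);
`∑_a (1 + |a - π y|/r)^(-E₁) ≤ C` (`exists_sum_sep_le`); `σ^(d+1) = σ^(-k) R^(-d)`. -/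
theorem tube_dom (C E t : ℝ) (hC : 0 ≤ C) (hE : 0 < E) (ht : 1 ≤ t) :
    ∃ A : ℝ, ∀ (v : V) (σ : ℝ) (F : V × ℝ → ℂ) (z : V × ℝ), ‖v‖ ≤ C → 0 < σ → σ ≤ 1 → FS (cap v (C * σ) (C * σ ^ 2)) F →
      ∃ (𝒜 : Finset V) (c : V → ℝ≥0∞),
        (∀ z' ∈ closedBall z (σ⁻¹ ^ 2), avp t (E + 2 * dd V + 1) σ⁻¹ F z' ≤ ∑ a ∈ 𝒜, c a * (tube v a σ⁻¹).indicator 1 z') ∧
        ∑ a ∈ 𝒜, c a ≤ ENNReal.ofReal (A * σ ^ (-(Module.finrank ℝ V : ℝ))) * avp t E (σ⁻¹ ^ 2) F z := by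
  have hd : (0 : ℝ) ≤ dd V := Nat.cast_nonneg _
  have hkd : (Module.finrank ℝ V : ℝ) < dd V := by
    unfold dd
    push_cast
    linarith
  obtain ⟨A, hA0, hA⟩ := td_avp_le (V := V) C E t hC hE ht
  obtain ⟨C₃, hC₃⟩ := exists_sum_sep_le (V := V) hkd
  refine ⟨A * (2 ^ (dd V : ℝ) * C₃) * 2 ^ E, fun v σ F z hv hσ hσ1 hF => ?_⟩
  have hr : 0 < σ⁻¹ := by positivity
  have hR : (0 : ℝ) < σ⁻¹ ^ 2 := by positivity
  obtain ⟨𝒜, h1, h2, h3⟩ := exists_sep_net (z.1 + (2 * z.2) • v) (A := (1 + 2 * C) * σ⁻¹) (r := σ⁻¹) (by positivity) hr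
  have hFc := hF.continuous
  refine ⟨𝒜, fun a => ∫⁻ y, ‖F y‖ₑ ^ t * (ENNReal.ofReal (A * σ ^ ((dd V : ℝ) + 1) * (2 ^ (dd V : ℝ) * (1 + ‖a - (y.1 + (2 * y.2) • v)‖ / σ⁻¹) ^ (-(dd V : ℝ))))
      * (ENNReal.ofReal (2 ^ E) * wt E (σ⁻¹ ^ 2) (y - z))), ?_, ?_⟩
  · intro z' hz'
    have hz'' : ‖z' - z‖ ≤ σ⁻¹ ^ 2 := by
      rw [← dist_eq_norm]
      exact mem_closedBall.1 hz'
    obtain ⟨a, ha, hza⟩ := h3 (z'.1 + (2 * z'.2) • v) (by
      have e : z'.1 + (2 * z'.2) • v - (z.1 + (2 * z.2) • v) = (z' - z).1 + (2 * (z' - z).2) • v := by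
        simp only [Prod.fst_sub, Prod.snd_sub, mul_sub, sub_smul]
        abel
      rw [e]
      calc ‖(z' - z).1 + (2 * (z' - z).2) • v‖ ≤ (1 + 2 * C) * ‖z' - z‖ := tk_norm_pi v _ hv
        _ ≤ (1 + 2 * C) * σ⁻¹ ^ 2 := by gcongr
        _ = _ := by ring)
    have hmem : z' ∈ tube v a σ⁻¹ := hza
    calc avp t (E + 2 * dd V + 1) σ⁻¹ F z' ≤ _ := hA v σ F z' hv hσ hσ1 hF
      _ ≤ ∫⁻ y, ‖F y‖ₑ ^ t * (ENNReal.ofReal (A * σ ^ ((dd V : ℝ) + 1) * (2 ^ (dd V : ℝ) * (1 + ‖a - (y.1 + (2 * y.2) • v)‖ / σ⁻¹) ^ (-(dd V : ℝ))))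
            * (ENNReal.ofReal (2 ^ E) * wt E (σ⁻¹ ^ 2) (y - z))) := by
          refine lintegral_mono fun y => ?_
          refine mul_le_mul' le_rfl (mul_le_mul' (ENNReal.ofReal_le_ofReal ?_) ?_)
          · have := td_peetre (E := (dd V : ℝ)) (x := σ * ‖(z' - y).1 + (2 * (z' - y).2) • v‖) (x' := ‖a - (y.1 + (2 * y.2) • v)‖ / σ⁻¹) (δ := 1)
              hd (by positivity) (by positivity) zero_le_one (by
                rw [div_inv_eq_mul, mul_comm]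
                have e : a - (y.1 + (2 * y.2) • v) = ((z' - y).1 + (2 * (z' - y).2) • v) - (z'.1 + (2 * z'.2) • v - a) := by
                  simp only [Prod.fst_sub, Prod.snd_sub, mul_sub, sub_smul]
                  abel
                have h4 : ‖a - (y.1 + (2 * y.2) • v)‖ ≤ ‖(z' - y).1 + (2 * (z' - y).2) • v‖ + σ⁻¹ := by
                  rw [e]
                  exact (norm_sub_le _ _).trans (by gcongr)
                calc σ * ‖a - (y.1 + (2 * y.2) • v)‖ ≤ σ * (‖(z' - y).1 + (2 * (z' - y).2) • v‖ + σ⁻¹) := by gcongr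
                  _ = _ := by
                      rw [mul_add, mul_inv_cancel₀ hσ.ne'])
            have e2 : (1 + 1 : ℝ) = 2 := by norm_num
            rw [e2] at this
            gcongr
          · unfold wt
            rw [← ENNReal.ofReal_mul (by positivity)]
            refine ENNReal.ofReal_le_ofReal ?_
            have := td_peetre (E := E) (x := ‖z' - y‖ / σ⁻¹ ^ 2) (x' := ‖y - z‖ / σ⁻¹ ^ 2) (δ := 1)
              hE.le (by positivity) (by positivity) zero_le_one (by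
                have h4 : ‖y - z‖ ≤ ‖z' - y‖ + σ⁻¹ ^ 2 := by
                  have e : y - z = (z' - z) - (z' - y) := by abel
                  rw [e]
                  exact (norm_sub_le _ _).trans (by linarith)
                calc ‖y - z‖ / σ⁻¹ ^ 2 ≤ (‖z' - y‖ + σ⁻¹ ^ 2) / σ⁻¹ ^ 2 := by gcongr
                  _ = _ := by
                      rw [add_div, div_self hR.ne'])
            have e2 : (1 + 1 : ℝ) = 2 := by norm_num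
            rw [e2] at this
            exact this
      _ = (fun a => (∫⁻ y, ‖F y‖ₑ ^ t * (ENNReal.ofReal (A * σ ^ ((dd V : ℝ) + 1) * (2 ^ (dd V : ℝ) * (1 + ‖a - (y.1 + (2 * y.2) • v)‖ / σ⁻¹) ^ (-(dd V : ℝ))))
            * (ENNReal.ofReal (2 ^ E) * wt E (σ⁻¹ ^ 2) (y - z)))) * (tube v a σ⁻¹).indicator 1 z') a := by
          simp only []
          rw [indicator_of_mem hmem, Pi.one_apply, mul_one]
      _ ≤ _ := Finset.single_le_sum (f := fun a => (∫⁻ y, ‖F y‖ₑ ^ t * (ENNReal.ofReal (A * σ ^ ((dd V : ℝ) + 1) * (2 ^ (dd V : ℝ) * (1 + ‖a - (y.1 + (2 * y.2) • v)‖ / σ⁻¹) ^ (-(dd V : ℝ))))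
            * (ENNReal.ofReal (2 ^ E) * wt E (σ⁻¹ ^ 2) (y - z)))) * (tube v a σ⁻¹).indicator 1 z') (fun _ _ => bot_le) ha
  · have hmeas : ∀ a ∈ 𝒜, Measurable fun y : V × ℝ => ‖F y‖ₑ ^ t * (ENNReal.ofReal (A * σ ^ ((dd V : ℝ) + 1) * (2 ^ (dd V : ℝ) * (1 + ‖a - (y.1 + (2 * y.2) • v)‖ / σ⁻¹) ^ (-(dd V : ℝ))))
        * (ENNReal.ofReal (2 ^ E) * wt E (σ⁻¹ ^ 2) (y - z))) := by
      intro a _
      have m1 : Measurable fun y : V × ℝ => ‖F y‖ₑ ^ t := hFc.measurable.enorm.pow_const _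
      have m2 : Measurable fun y : V × ℝ => wt E (σ⁻¹ ^ 2) (y - z) := (measurable_wt _ _).comp (measurable_id.sub measurable_const)
      have m3 : Measurable fun y : V × ℝ => ENNReal.ofReal (A * σ ^ ((dd V : ℝ) + 1) * (2 ^ (dd V : ℝ) * (1 + ‖a - (y.1 + (2 * y.2) • v)‖ / σ⁻¹) ^ (-(dd V : ℝ)))) := by
        refine ENNReal.measurable_ofReal.comp ?_
        have c1 : Continuous fun y : V × ℝ => 1 + ‖a - (y.1 + (2 * y.2) • v)‖ / σ⁻¹ := by fun_prop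
        have c2 : Continuous fun y : V × ℝ => (1 + ‖a - (y.1 + (2 * y.2) • v)‖ / σ⁻¹) ^ (-(dd V : ℝ)) :=
          c1.rpow_const fun y => Or.inl (by positivity)
        exact ((c2.const_mul _).const_mul _).measurable
      exact m1.mul (m3.mul (m2.const_mul _))
    rw [← lintegral_finsetSum _ hmeas]
    calc ∫⁻ y, ∑ a ∈ 𝒜, ‖F y‖ₑ ^ t * (ENNReal.ofReal (A * σ ^ ((dd V : ℝ) + 1) * (2 ^ (dd V : ℝ) * (1 + ‖a - (y.1 + (2 * y.2) • v)‖ / σ⁻¹) ^ (-(dd V : ℝ))))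
            * (ENNReal.ofReal (2 ^ E) * wt E (σ⁻¹ ^ 2) (y - z)))
        ≤ ∫⁻ y, (ENNReal.ofReal (A * σ ^ ((dd V : ℝ) + 1) * (2 ^ (dd V : ℝ) * C₃)) * ENNReal.ofReal (2 ^ E)) * (‖F y‖ₑ ^ t * wt E (σ⁻¹ ^ 2) (y - z)) := by
          refine lintegral_mono fun y => ?_
          rw [← Finset.mul_sum, ← Finset.sum_mul, ← ENNReal.ofReal_sum_of_nonneg (fun a _ => by positivity), ← Finset.mul_sum, ← Finset.mul_sum]
          have h5 := hC₃ σ⁻¹ 𝒜 (y.1 + (2 * y.2) • v) hr h2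
          calc ‖F y‖ₑ ^ t * (ENNReal.ofReal (A * σ ^ ((dd V : ℝ) + 1) * (2 ^ (dd V : ℝ) * ∑ a ∈ 𝒜, (1 + ‖a - (y.1 + (2 * y.2) • v)‖ / σ⁻¹) ^ (-(dd V : ℝ))))
                * (ENNReal.ofReal (2 ^ E) * wt E (σ⁻¹ ^ 2) (y - z)))
              ≤ ‖F y‖ₑ ^ t * (ENNReal.ofReal (A * σ ^ ((dd V : ℝ) + 1) * (2 ^ (dd V : ℝ) * C₃))
                * (ENNReal.ofReal (2 ^ E) * wt E (σ⁻¹ ^ 2) (y - z))) := by
                refine mul_le_mul' le_rfl (mul_le_mul' (ENNReal.ofReal_le_ofReal ?_) le_rfl)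
                gcongr
            _ = _ := by ring
      _ = (ENNReal.ofReal (A * σ ^ ((dd V : ℝ) + 1) * (2 ^ (dd V : ℝ) * C₃)) * ENNReal.ofReal (2 ^ E)) * ∫⁻ y, ‖F y‖ₑ ^ t * wt E (σ⁻¹ ^ 2) (y - z) :=
          lintegral_const_mul' _ _ (ENNReal.mul_ne_top ENNReal.ofReal_ne_top ENNReal.ofReal_ne_top)
      _ = _ := by
          unfold avp
          rw [← ENNReal.ofReal_mul' (by positivity), ← mul_assoc (ENNReal.ofReal _), ← ENNReal.ofReal_mul' (by positivity)]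
          congr 2
          have e1 : (σ⁻¹ ^ 2) ^ (-(dd V : ℝ)) = σ ^ (2 * (dd V : ℝ)) := by
            rw [Real.rpow_neg hR.le, inv_pow, Real.inv_rpow (by positivity), inv_inv, ← Real.rpow_natCast σ 2, ← Real.rpow_mul hσ.le]
            norm_num
          have e2 : σ ^ ((dd V : ℝ) + 1) = σ ^ (-(Module.finrank ℝ V : ℝ)) * σ ^ (2 * (dd V : ℝ)) := by
            rw [← Real.rpow_add hσ]
            congr 1
            unfold dd
            push_cast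
            ring
          rw [e1, e2]
          ring

/-- **weighted linear form of the ball inflation** (`tube_dom` for every cap, index set `ι × V`, `bd_mk` with `h = σ⁻¹`, `S = σ⁻¹`; `h^d (σ^(-k))^(d/k) = R^d`). -/
theorem infl_weighted (hk : 1 ≤ Module.finrank ℝ V) (C ν E t ε : ℝ) (hC : 0 ≤ C) (hν : 0 < ν) (hE : 0 < E) (ht : 1 ≤ t) (hε : 0 < ε) :
    ∃ A : ℝ, ∀ (σ : ℝ) (ι : Type) (s : Fin (dd V) → Finset ι) (v : Fin (dd V) → ι → V) (H : Fin (dd V) → ι → V × ℝ → ℂ) (lam : Fin (dd V) → ι → ℝ≥0∞) (z : V × ℝ),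
      0 < σ → σ ≤ 1 → MRob C ν σ s v H →
      ENNReal.ofReal ((σ⁻¹ ^ 2) ^ (-(dd V : ℝ))) * ∫⁻ z' in closedBall z (σ⁻¹ ^ 2),
          ∏ i, (∑ j ∈ s i, lam i j * avp t (E + 2 * dd V + 1) σ⁻¹ (H i j) z') ^ (1 / (Module.finrank ℝ V : ℝ)) ≤
        ENNReal.ofReal (A * σ ^ (-ε)) * ∏ i, (∑ j ∈ s i, lam i j * avp t E (σ⁻¹ ^ 2) (H i j) z) ^ (1 / (Module.finrank ℝ V : ℝ)) := by
  have hkR : (0 : ℝ) < (Module.finrank ℝ V : ℝ) := by exact_mod_cast hk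
  have hκ : (0 : ℝ) ≤ 1 / (Module.finrank ℝ V : ℝ) := by positivity
  obtain ⟨A₁, hA₁⟩ := tube_dom (V := V) C E t hC hE ht
  obtain ⟨A₂, hA₂⟩ := bd_mk (V := V) hk ν C ε hν hε
  refine ⟨max A₂ 0 * ((max A₁ 0) ^ (1 / (Module.finrank ℝ V : ℝ))) ^ (dd V), fun σ ι s v H lam z hσ hσ1 hM => ?_⟩
  have hr : 0 < σ⁻¹ := by positivity
  have hr1 : 1 ≤ σ⁻¹ := (one_le_inv₀ hσ).2 hσ1
  have hR : (0 : ℝ) < σ⁻¹ ^ 2 := by positivity
  have hex : ∀ i j, j ∈ s i → ∃ (𝒜 : Finset V) (c : V → ℝ≥0∞),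
      (∀ z' ∈ closedBall z (σ⁻¹ ^ 2), avp t (E + 2 * dd V + 1) σ⁻¹ (H i j) z' ≤ ∑ a ∈ 𝒜, c a * (tube (v i j) a σ⁻¹).indicator 1 z') ∧
      ∑ a ∈ 𝒜, c a ≤ ENNReal.ofReal (A₁ * σ ^ (-(Module.finrank ℝ V : ℝ))) * avp t E (σ⁻¹ ^ 2) (H i j) z :=
    fun i j hj => hA₁ (v i j) σ (H i j) z ((hM.rob i).bdd j hj) hσ hσ1 ((hM.rob i).fs j hj)
  choose! 𝒜 c h1 h2 using hex
  have hmk := hA₂ σ⁻¹ σ⁻¹ z (Σ _ : ι, V) (fun i => (s i).sigma (𝒜 i)) (fun i x => v i x.1) (fun _ x => x.2)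
    (fun i x => lam i x.1 * c i x.1 x.2) hr hr1
    (fun i x hx => (hM.rob i).bdd x.1 (Finset.mem_sigma.1 hx).1)
    (fun x hx => hM.trans (fun i => (x i).1) fun i => (Finset.mem_sigma.1 (hx i)).1)
  simp only [Finset.sum_sigma] at hmk
  rw [← pow_two] at hmk
  have hK : ENNReal.ofReal (A₁ * σ ^ (-(Module.finrank ℝ V : ℝ))) ^ (1 / (Module.finrank ℝ V : ℝ))
      ≤ ENNReal.ofReal ((max A₁ 0) ^ (1 / (Module.finrank ℝ V : ℝ)) * σ⁻¹) := by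
    calc ENNReal.ofReal (A₁ * σ ^ (-(Module.finrank ℝ V : ℝ))) ^ (1 / (Module.finrank ℝ V : ℝ))
        ≤ ENNReal.ofReal (max A₁ 0 * σ ^ (-(Module.finrank ℝ V : ℝ))) ^ (1 / (Module.finrank ℝ V : ℝ)) := by
          refine ENNReal.rpow_le_rpow (ENNReal.ofReal_le_ofReal ?_) hκ
          gcongr
          exact le_max_left _ _
      _ = _ := by
          rw [ENNReal.ofReal_rpow_of_nonneg (by positivity) hκ, Real.mul_rpow (by positivity) (by positivity), ← Real.rpow_mul hσ.le]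
          congr 2
          rw [← Real.rpow_neg_one]
          congr 1
          field_simp
  calc ENNReal.ofReal ((σ⁻¹ ^ 2) ^ (-(dd V : ℝ))) * ∫⁻ z' in closedBall z (σ⁻¹ ^ 2),
          ∏ i, (∑ j ∈ s i, lam i j * avp t (E + 2 * dd V + 1) σ⁻¹ (H i j) z') ^ (1 / (Module.finrank ℝ V : ℝ))
      ≤ ENNReal.ofReal ((σ⁻¹ ^ 2) ^ (-(dd V : ℝ))) * ∫⁻ z' in closedBall z (σ⁻¹ ^ 2),
          ∏ i, (∑ j ∈ s i, ∑ a ∈ 𝒜 i j, lam i j * c i j a * (tube (v i j) a σ⁻¹).indicator 1 z') ^ (1 / (Module.finrank ℝ V : ℝ)) := by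
        refine mul_le_mul' le_rfl (setLIntegral_mono' measurableSet_closedBall fun z' hz' => ?_)
        refine Finset.prod_le_prod' fun i _ => ENNReal.rpow_le_rpow (Finset.sum_le_sum fun j hj => ?_) hκ
        calc lam i j * avp t (E + 2 * dd V + 1) σ⁻¹ (H i j) z' ≤ lam i j * ∑ a ∈ 𝒜 i j, c i j a * (tube (v i j) a σ⁻¹).indicator 1 z' :=
              mul_le_mul' le_rfl (h1 i j hj z' hz')
          _ = _ := by
              rw [Finset.mul_sum]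
              exact Finset.sum_congr rfl fun a _ => (mul_assoc _ _ _).symm
    _ ≤ ENNReal.ofReal ((σ⁻¹ ^ 2) ^ (-(dd V : ℝ))) * (ENNReal.ofReal (A₂ * σ⁻¹ ^ ε * σ⁻¹ ^ (dd V : ℝ)) *
          ∏ i, (∑ j ∈ s i, ∑ a ∈ 𝒜 i j, lam i j * c i j a) ^ (1 / (Module.finrank ℝ V : ℝ))) := mul_le_mul' le_rfl hmk
    _ ≤ ENNReal.ofReal ((σ⁻¹ ^ 2) ^ (-(dd V : ℝ))) * (ENNReal.ofReal (A₂ * σ⁻¹ ^ ε * σ⁻¹ ^ (dd V : ℝ)) *
          ∏ i, (ENNReal.ofReal ((max A₁ 0) ^ (1 / (Module.finrank ℝ V : ℝ)) * σ⁻¹) *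
            (∑ j ∈ s i, lam i j * avp t E (σ⁻¹ ^ 2) (H i j) z) ^ (1 / (Module.finrank ℝ V : ℝ)))) := by
        refine mul_le_mul' le_rfl (mul_le_mul' le_rfl (Finset.prod_le_prod' fun i _ => ?_))
        calc (∑ j ∈ s i, ∑ a ∈ 𝒜 i j, lam i j * c i j a) ^ (1 / (Module.finrank ℝ V : ℝ))
            ≤ (ENNReal.ofReal (A₁ * σ ^ (-(Module.finrank ℝ V : ℝ))) * ∑ j ∈ s i, lam i j * avp t E (σ⁻¹ ^ 2) (H i j) z) ^ (1 / (Module.finrank ℝ V : ℝ)) := by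
              refine ENNReal.rpow_le_rpow ?_ hκ
              rw [Finset.mul_sum]
              refine Finset.sum_le_sum fun j hj => ?_
              rw [← Finset.mul_sum]
              calc lam i j * ∑ a ∈ 𝒜 i j, c i j a ≤ lam i j * (ENNReal.ofReal (A₁ * σ ^ (-(Module.finrank ℝ V : ℝ))) * avp t E (σ⁻¹ ^ 2) (H i j) z) :=
                    mul_le_mul' le_rfl (h2 i j hj)
                _ = _ := by ring
          _ = ENNReal.ofReal (A₁ * σ ^ (-(Module.finrank ℝ V : ℝ))) ^ (1 / (Module.finrank ℝ V : ℝ)) *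
                (∑ j ∈ s i, lam i j * avp t E (σ⁻¹ ^ 2) (H i j) z) ^ (1 / (Module.finrank ℝ V : ℝ)) := ENNReal.mul_rpow_of_nonneg _ _ hκ
          _ ≤ _ := mul_le_mul' hK le_rfl
    _ ≤ _ := by
        rw [Finset.prod_mul_distrib, Finset.prod_const, Finset.card_univ, Fintype.card_fin, ← mul_assoc, ← mul_assoc]
        refine mul_le_mul' ?_ le_rfl
        rw [← ENNReal.ofReal_pow (by positivity), ← ENNReal.ofReal_mul (by positivity), ← ENNReal.ofReal_mul' (by positivity)]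
        refine ENNReal.ofReal_le_ofReal ?_
        have e1 : (σ⁻¹ ^ 2) ^ (-(dd V : ℝ)) = (σ ^ (dd V)) ^ 2 := by
          rw [Real.rpow_neg hR.le, Real.rpow_natCast, inv_pow, inv_pow, inv_inv, ← pow_mul, ← pow_mul, mul_comm]
        have e2 : σ⁻¹ ^ (dd V : ℝ) = (σ ^ (dd V))⁻¹ := by
          rw [Real.rpow_natCast, inv_pow]
        have e3 : σ⁻¹ ^ ε = σ ^ (-ε) := by
          rw [Real.rpow_neg hσ.le, Real.inv_rpow hσ.le]
        rw [e1, e2, e3, mul_pow, inv_pow]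
        have hs : σ ^ (dd V) ≠ 0 := (pow_pos hσ _).ne'
        have hX : 0 ≤ σ ^ (-ε) * ((max A₁ 0) ^ (1 / (Module.finrank ℝ V : ℝ))) ^ (dd V) := by positivity
        calc (σ ^ dd V) ^ 2 * (A₂ * σ ^ (-ε) * (σ ^ dd V)⁻¹) * (((max A₁ 0) ^ (1 / (Module.finrank ℝ V : ℝ))) ^ (dd V) * (σ ^ dd V)⁻¹)
            = A₂ * (σ ^ (-ε) * ((max A₁ 0) ^ (1 / (Module.finrank ℝ V : ℝ))) ^ (dd V)) := by
              field_simp
          _ ≤ max A₂ 0 * (σ ^ (-ε) * ((max A₁ 0) ^ (1 / (Module.finrank ℝ V : ℝ))) ^ (dd V)) :=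
              mul_le_mul_of_nonneg_right (le_max_left _ _) hX
          _ = _ := by ring

theorem MRob.cont {C ν ρ : ℝ} {ι : Type} {s : Fin (dd V) → Finset ι} {v : Fin (dd V) → ι → V}
    {H : Fin (dd V) → ι → V × ℝ → ℂ} (h : MRob C ν ρ s v H) (i : Fin (dd V)) {j : ι} (hj : j ∈ s i) : Continuous (H i j) :=
  ((h.rob i).fs j hj).continuous

/-- the abstract form of the ball inflation: weight trick + Jensen. -/
theorem infl_abs {α : Type*} [MeasurableSpace α] (μ : Measure α) {n : ℕ} {ι : Type} (s : Fin n → Finset ι)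
    (g : Fin n → ι → α → ℝ≥0∞) (m : Fin n → ι → ℝ≥0∞) {θ q κ β : ℝ} (K N : ℝ≥0∞)
    (hθ0 : 0 < θ) (hθ1 : θ ≤ 1) (hq : 0 ≤ q) (hβ0 : 0 ≤ β) (hβ1 : β ≤ 1) (hκβ : κ * β = θ * q)
    (hg : ∀ i, ∀ j ∈ s i, Measurable (g i j)) (hm : ∀ i, ∀ j ∈ s i, m i j ≠ ∞)
    (h0 : ∀ i, ∀ j ∈ s i, m i j = 0 → ∀ x, g i j x = 0)
    (hW : N * ∫⁻ x, ∏ i, (∑ j ∈ s i, m i j ^ (θ - 1) * g i j x) ^ κ ∂μ
      ≤ K * ∏ i, (∑ j ∈ s i, m i j ^ (θ - 1) * m i j) ^ κ) :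
    N * ∫⁻ x, ∏ i, (∑ j ∈ s i, g i j x ^ θ) ^ q ∂μ
      ≤ K ^ β * (N * μ univ) ^ (1 - β) * ∏ i, (∑ j ∈ s i, m i j ^ θ) ^ q := by
  have hβ' : 0 ≤ 1 - β := by linarith
  have hmm : ∀ i, ∀ j ∈ s i, m i j ^ (θ - 1) * m i j = m i j ^ θ := by
    intro i j hj
    by_cases h : m i j = 0
    · rw [h, mul_zero, ENNReal.zero_rpow_of_pos hθ0]
    · have h1 := ENNReal.rpow_add (θ - 1) 1 h (hm i j hj)
      rw [ENNReal.rpow_one] at h1
      rw [← h1]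
      congr 1
      ring
  have hS : ∀ i, ∑ j ∈ s i, m i j ^ (θ - 1) * m i j = ∑ j ∈ s i, m i j ^ θ := fun i => Finset.sum_congr rfl (hmm i)
  simp only [hS] at hW
  have hpt : ∀ x, ∏ i, (∑ j ∈ s i, g i j x ^ θ) ^ q
      ≤ (∏ i, (∑ j ∈ s i, m i j ^ (θ - 1) * g i j x) ^ κ) ^ β * ∏ i, (∑ j ∈ s i, m i j ^ θ) ^ ((1 - θ) * q) := by
    intro x
    rw [← ENNReal.prod_rpow_of_nonneg hβ0, ← Finset.prod_mul_distrib]
    refine Finset.prod_le_prod' fun i _ => ?_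
    have h1 := abs_weight_trick hθ0 hθ1 (s i) (fun j => g i j x) (m i) (hm i) (fun j hj h => h0 i j hj h x)
    calc (∑ j ∈ s i, g i j x ^ θ) ^ q
        ≤ ((∑ j ∈ s i, m i j ^ (θ - 1) * g i j x) ^ θ * (∑ j ∈ s i, m i j ^ θ) ^ (1 - θ)) ^ q :=
          ENNReal.rpow_le_rpow h1 hq
      _ = _ := by
          rw [ENNReal.mul_rpow_of_nonneg _ _ hq, ← ENNReal.rpow_mul, ← ENNReal.rpow_mul, ← ENNReal.rpow_mul, hκβ]
  have hf : Measurable fun x => ∏ i, (∑ j ∈ s i, m i j ^ (θ - 1) * g i j x) ^ κ :=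
    Finset.measurable_prod _ fun i _ => (Finset.measurable_sum _ fun j hj => (hg i j hj).const_mul _).pow_const _
  have hN : N = N ^ β * N ^ (1 - β) := by
    rw [← ENNReal.rpow_add_of_nonneg _ _ hβ0 hβ', add_sub_cancel, ENNReal.rpow_one]
  calc N * ∫⁻ x, ∏ i, (∑ j ∈ s i, g i j x ^ θ) ^ q ∂μ
      ≤ N * ∫⁻ x, (∏ i, (∑ j ∈ s i, m i j ^ (θ - 1) * g i j x) ^ κ) ^ β
          * ∏ i, (∑ j ∈ s i, m i j ^ θ) ^ ((1 - θ) * q) ∂μ := by
        gcongr with x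
        exact hpt x
    _ = N * ((∫⁻ x, (∏ i, (∑ j ∈ s i, m i j ^ (θ - 1) * g i j x) ^ κ) ^ β ∂μ)
          * ∏ i, (∑ j ∈ s i, m i j ^ θ) ^ ((1 - θ) * q)) := by
        rw [lintegral_mul_const _ (hf.pow_const _)]
    _ ≤ N * (((∫⁻ x, ∏ i, (∑ j ∈ s i, m i j ^ (θ - 1) * g i j x) ^ κ ∂μ) ^ β * μ univ ^ (1 - β))
          * ∏ i, (∑ j ∈ s i, m i j ^ θ) ^ ((1 - θ) * q)) := by
        gcongr
        exact abs_jensen hβ0 hβ1 _ hf.aemeasurable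
    _ = (N * ∫⁻ x, ∏ i, (∑ j ∈ s i, m i j ^ (θ - 1) * g i j x) ^ κ ∂μ) ^ β * (N * μ univ) ^ (1 - β)
          * ∏ i, (∑ j ∈ s i, m i j ^ θ) ^ ((1 - θ) * q) := by
        rw [ENNReal.mul_rpow_of_nonneg _ _ hβ0, ENNReal.mul_rpow_of_nonneg _ _ hβ']
        conv_lhs => rw [hN]
        ring
    _ ≤ (K * ∏ i, (∑ j ∈ s i, m i j ^ θ) ^ κ) ^ β * (N * μ univ) ^ (1 - β)
          * ∏ i, (∑ j ∈ s i, m i j ^ θ) ^ ((1 - θ) * q) := by
        gcongr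
    _ = K ^ β * (N * μ univ) ^ (1 - β) * ∏ i, (∑ j ∈ s i, m i j ^ θ) ^ q := by
        rw [ENNReal.mul_rpow_of_nonneg _ _ hβ0, ← ENNReal.prod_rpow_of_nonneg hβ0]
        have e : ∀ i, ((∑ j ∈ s i, m i j ^ θ) ^ κ) ^ β * (∑ j ∈ s i, m i j ^ θ) ^ ((1 - θ) * q)
            = (∑ j ∈ s i, m i j ^ θ) ^ q := by
          intro i
          rw [← ENNReal.rpow_mul, hκβ, ← ENNReal.rpow_add_of_nonneg _ _ (by positivity)
            (mul_nonneg (by linarith) hq)]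
          congr 1
          ring
        calc K ^ β * (∏ i, ((∑ j ∈ s i, m i j ^ θ) ^ κ) ^ β) * (N * μ univ) ^ (1 - β)
              * ∏ i, (∑ j ∈ s i, m i j ^ θ) ^ ((1 - θ) * q)
            = K ^ β * (N * μ univ) ^ (1 - β) * ((∏ i, ((∑ j ∈ s i, m i j ^ θ) ^ κ) ^ β)
              * ∏ i, (∑ j ∈ s i, m i j ^ θ) ^ ((1 - θ) * q)) := by ring
          _ = _ := by rw [← Finset.prod_mul_distrib, Finset.prod_congr rfl fun i _ => e i]

/-- **ball inflation, local form**.  `θ = 2/t`, `m_j = avp t E R (H i j) z`, `lam = m^(θ-1)`: `abs_weight_trick` pointwise in `z'` (`m_j = 0 ⟹ H i j = 0`: `eq_zero_of_avp_eq_zero`; `m_j ≠ ∞`: `avp_ne_top`, so `E > d`),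
`abs_jensen` on the ball (`p/(d t) ≤ 1/k`; `exists_volume_closedBall`), `infl_weighted`, `m^(θ-1) m = m^θ`. -/
theorem infl_local (hk : 1 ≤ Module.finrank ℝ V) (C ν E t p ε : ℝ) (hC : 0 ≤ C) (hν : 0 < ν) (hE : (dd V : ℝ) < E) (ht : 2 ≤ t) (hp : 0 < p)
    (hpt : p * Module.finrank ℝ V ≤ dd V * t) (hε : 0 < ε) :
    ∃ A : ℝ, ∀ (σ : ℝ) (ι : Type) (s : Fin (dd V) → Finset ι) (v : Fin (dd V) → ι → V) (H : Fin (dd V) → ι → V × ℝ → ℂ) (z : V × ℝ),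
      0 < σ → σ ≤ 1 → MRob C ν σ s v H →
      ENNReal.ofReal ((σ⁻¹ ^ 2) ^ (-(dd V : ℝ))) * ∫⁻ z' in closedBall z (σ⁻¹ ^ 2),
          ∏ i, (∑ j ∈ s i, avp t (E + 2 * dd V + 1) σ⁻¹ (H i j) z' ^ (2 / t)) ^ (p / (2 * (dd V : ℝ))) ≤
        ENNReal.ofReal (A * σ ^ (-ε)) * ∏ i, (∑ j ∈ s i, avp t E (σ⁻¹ ^ 2) (H i j) z ^ (2 / t)) ^ (p / (2 * (dd V : ℝ))) := by
  have hd : (0 : ℝ) < dd V := by
    have : 0 < dd V := Nat.succ_pos _
    exact_mod_cast this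
  have hkR : (0 : ℝ) < (Module.finrank ℝ V : ℝ) := by exact_mod_cast hk
  have ht0 : 0 < t := by linarith
  obtain ⟨A, hA⟩ := infl_weighted hk C ν E t ε hC hν (lt_trans hd hE) (by linarith) hε
  obtain ⟨c, hc, hvol⟩ := exists_volume_closedBall (V := V)
  refine ⟨max A 1 * max c 1, fun σ ι s v H z hσ hσ1 hM => ?_⟩
  have hR : (0 : ℝ) < σ⁻¹ ^ 2 := by positivity
  have hβ0 : 0 ≤ p * Module.finrank ℝ V / (dd V * t) := by positivity
  have hβ1 : p * Module.finrank ℝ V / (dd V * t) ≤ 1 := by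
    rw [div_le_one (by positivity)]
    exact hpt
  have hmain := infl_abs (volume.restrict (closedBall z (σ⁻¹ ^ 2))) s
    (fun i j z' => avp t (E + 2 * dd V + 1) σ⁻¹ (H i j) z') (fun i j => avp t E (σ⁻¹ ^ 2) (H i j) z)
    (θ := 2 / t) (q := p / (2 * (dd V : ℝ))) (κ := 1 / (Module.finrank ℝ V : ℝ)) (β := p * Module.finrank ℝ V / (dd V * t))
    (ENNReal.ofReal (A * σ ^ (-ε))) (ENNReal.ofReal ((σ⁻¹ ^ 2) ^ (-(dd V : ℝ))))
    (by positivity) (by rw [div_le_one ht0]; exact ht) (by positivity) hβ0 hβ1 (by field_simp)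
    (fun i j hj => measurable_avp _ _ _ (hM.cont i hj))
    (fun i j hj => by
      obtain ⟨B, hB⟩ := ((hM.rob i).fs j hj).bdd
      exact avp_ne_top ht0.le hE hR hB z)
    (fun i j hj h0 z' => by
      have h1 := eq_zero_of_avp_eq_zero ht0 hR (hM.cont i hj) h0
      unfold avp
      simp [h1, ENNReal.zero_rpow_of_pos ht0])
    (hA σ ι s v H (fun i j => avp t E (σ⁻¹ ^ 2) (H i j) z ^ (2 / t - 1)) z hσ hσ1 hM)
  refine hmain.trans ?_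
  gcongr
  rw [Measure.restrict_apply_univ, hvol _ _ hR, ← ENNReal.ofReal_mul (by positivity)]
  have e1 : (σ⁻¹ ^ 2) ^ (-(dd V : ℝ)) * (c * (σ⁻¹ ^ 2) ^ (dd V : ℝ)) = c := by
    rw [Real.rpow_neg hR.le]
    field_simp
  rw [e1]
  have hσε : 1 ≤ σ ^ (-ε) := Real.one_le_rpow_of_pos_of_le_one_of_nonpos hσ hσ1 (by linarith)
  have h1 : ENNReal.ofReal (A * σ ^ (-ε)) ^ (p * Module.finrank ℝ V / (dd V * t)) ≤ ENNReal.ofReal (max A 1 * σ ^ (-ε)) := by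
    have h2 : (1 : ℝ≥0∞) ≤ ENNReal.ofReal (max A 1 * σ ^ (-ε)) := by
      rw [← ENNReal.ofReal_one]
      refine ENNReal.ofReal_le_ofReal ?_
      have := le_max_right A 1
      nlinarith
    calc ENNReal.ofReal (A * σ ^ (-ε)) ^ (p * Module.finrank ℝ V / (dd V * t))
        ≤ ENNReal.ofReal (max A 1 * σ ^ (-ε)) ^ (p * Module.finrank ℝ V / (dd V * t)) := by
          refine ENNReal.rpow_le_rpow (ENNReal.ofReal_le_ofReal ?_) hβ0
          gcongr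
          exact le_max_left _ _
      _ ≤ ENNReal.ofReal (max A 1 * σ ^ (-ε)) ^ (1 : ℝ) := ENNReal.rpow_le_rpow_of_exponent_le h2 hβ1
      _ = _ := ENNReal.rpow_one _
  have h3 : ENNReal.ofReal c ^ (1 - p * Module.finrank ℝ V / (dd V * t)) ≤ ENNReal.ofReal (max c 1) := by
    have h2 : (1 : ℝ≥0∞) ≤ ENNReal.ofReal (max c 1) := by
      rw [← ENNReal.ofReal_one]
      exact ENNReal.ofReal_le_ofReal (le_max_right _ _)
    calc ENNReal.ofReal c ^ (1 - p * Module.finrank ℝ V / (dd V * t))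
        ≤ ENNReal.ofReal (max c 1) ^ (1 - p * Module.finrank ℝ V / (dd V * t)) :=
          ENNReal.rpow_le_rpow (ENNReal.ofReal_le_ofReal (le_max_left _ _)) (by linarith)
      _ ≤ ENNReal.ofReal (max c 1) ^ (1 : ℝ) := ENNReal.rpow_le_rpow_of_exponent_le h2 (by linarith)
      _ = _ := ENNReal.rpow_one _
  calc _ ≤ ENNReal.ofReal (max A 1 * σ ^ (-ε)) * ENNReal.ofReal (max c 1) := mul_le_mul' h1 h3
    _ = _ := by
        rw [← ENNReal.ofReal_mul (by positivity)]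
        congr 1
        ring

/-- Tonelli over the centre of a ball. -/
theorem lintegral_ball_centre {G : V × ℝ → ℝ≥0∞} (hG : Measurable G) (R : ℝ) :
    ∫⁻ z, ∫⁻ z' in closedBall z R, G z' = ∫⁻ z', G z' * volume (closedBall z' R) := by
  have h1 : ∀ z : V × ℝ, ∫⁻ z' in closedBall z R, G z' = ∫⁻ z', if dist z' z ≤ R then G z' else 0 := by
    intro z
    rw [← lintegral_indicator measurableSet_closedBall]
    refine lintegral_congr fun z' => ?_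
    by_cases h : dist z' z ≤ R
    · rw [if_pos h, indicator_of_mem (mem_closedBall.2 h)]
    · rw [if_neg h, indicator_of_notMem (fun h' => h (mem_closedBall.1 h'))]
  simp only [h1]
  have hm : Measurable (Function.uncurry fun z z' : V × ℝ => if dist z' z ≤ R then G z' else 0) := by
    refine Measurable.ite (measurableSet_le (measurable_snd.dist measurable_fst) measurable_const) (hG.comp measurable_snd) measurable_const
  rw [lintegral_lintegral_swap hm.aemeasurable]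
  refine lintegral_congr fun z' => ?_
  have h2 : (fun z : V × ℝ => if dist z' z ≤ R then G z' else 0) = (closedBall z' R).indicator fun _ => G z' := by
    funext z
    by_cases h : dist z' z ≤ R
    · rw [if_pos h, indicator_of_mem (mem_closedBall.2 (by rwa [dist_comm]))]
    · rw [if_neg h, indicator_of_notMem (fun h' => h (by rw [dist_comm]; exact mem_closedBall.1 h'))]
  rw [h2, lintegral_indicator_const measurableSet_closedBall]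

/-- **U7: ball inflation** (integrate `infl_local` over the centre `z`; Tonelli: `∫ dz ∫_{|z' - z| ≤ R} G(z') dz' = |B_R| ∫ G`). -/
theorem infl (hk : 1 ≤ Module.finrank ℝ V) (C ν E t p ε : ℝ) (hC : 0 ≤ C) (hν : 0 < ν) (hE : (dd V : ℝ) < E) (ht : 2 ≤ t) (hp : 0 < p)
    (hpt : p * Module.finrank ℝ V ≤ dd V * t) (hε : 0 < ε) :
    ∃ A : ℝ, ∀ (σ : ℝ) (ι : Type) (s : Fin (dd V) → Finset ι) (v : Fin (dd V) → ι → V) (H : Fin (dd V) → ι → V × ℝ → ℂ),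
      0 < σ → σ ≤ 1 → MRob C ν σ s v H →
      mA p t (E + 2 * dd V + 1) σ⁻¹ s H ≤ ENNReal.ofReal (A * σ ^ (-ε)) * mA p t E (σ⁻¹ ^ 2) s H := by
  obtain ⟨A, hA⟩ := infl_local hk C ν E t p ε hC hν hE ht hp hpt hε
  obtain ⟨c, hc, hvol⟩ := exists_volume_closedBall (V := V)
  refine ⟨c⁻¹ * A, fun σ ι s v H hσ hσ1 hM => ?_⟩
  have hR : (0 : ℝ) < σ⁻¹ ^ 2 := by positivity
  have hG : Measurable fun z' : V × ℝ =>
      ∏ i, (∑ j ∈ s i, avp t (E + 2 * dd V + 1) σ⁻¹ (H i j) z' ^ (2 / t)) ^ (p / (2 * (dd V : ℝ))) :=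
    Finset.measurable_prod _ fun i _ => (Finset.measurable_sum _ fun j hj =>
      (measurable_avp _ _ _ (hM.cont i hj)).pow_const _).pow_const _
  have h1 := lintegral_mono (μ := (volume : Measure (V × ℝ))) fun z => hA σ ι s v H z hσ hσ1 hM
  rw [lintegral_const_mul' _ _ ENNReal.ofReal_ne_top, lintegral_const_mul' _ _ ENNReal.ofReal_ne_top,
    lintegral_ball_centre hG] at h1
  simp only [hvol _ _ hR] at h1
  rw [lintegral_mul_const _ hG, mul_comm (∫⁻ z', _) _, ← mul_assoc, ← ENNReal.ofReal_mul (by positivity)] at h1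
  have e1 : (σ⁻¹ ^ 2) ^ (-(dd V : ℝ)) * (c * (σ⁻¹ ^ 2) ^ (dd V : ℝ)) = c := by
    rw [Real.rpow_neg hR.le]
    field_simp
  rw [e1] at h1
  unfold mA
  calc ∫⁻ z, ∏ i, (∑ j ∈ s i, avp t (E + 2 * dd V + 1) σ⁻¹ (H i j) z ^ (2 / t)) ^ (p / (2 * (dd V : ℝ)))
      = ENNReal.ofReal c⁻¹ * (ENNReal.ofReal c *
          ∫⁻ z, ∏ i, (∑ j ∈ s i, avp t (E + 2 * dd V + 1) σ⁻¹ (H i j) z ^ (2 / t)) ^ (p / (2 * (dd V : ℝ)))) := by
        rw [← mul_assoc, ← ENNReal.ofReal_mul (by positivity), inv_mul_cancel₀ hc.ne', ENNReal.ofReal_one, one_mul]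
    _ ≤ ENNReal.ofReal c⁻¹ * (ENNReal.ofReal (A * σ ^ (-ε)) *
          ∫⁻ z, ∏ i, (∑ j ∈ s i, avp t E (σ⁻¹ ^ 2) (H i j) z ^ (2 / t)) ^ (p / (2 * (dd V : ℝ)))) := by gcongr
    _ = _ := by
        rw [← mul_assoc, ← ENNReal.ofReal_mul (by positivity), mul_assoc]

end Claimed.Agent.BD
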