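import Claimed.Agent.Lib.BD.Lev
import Claimed.Agent.Lib.BD.Stmt

/-!
# Box BD, unit U9, EXIT: `mdec_main` (`Lev.lean`) ⟹ `IterStmt V p C` (`Stmt.lean`)   (helper164)

Dictionary: `s = l + 1`, level `l'` of `IterStmt` = level `j = l' - 1` of `Lev.lean`, `ρ = 2^-M`, `M = 2^s j₀`, `ρ^((1/2)^j) = 2^-(M/2^j)`; `ε` of `mdec_main` = `ε p`; `levB` = the product with the weights `bdnW`.
Also: the numerics of `bdT`, `bdKap`.
-/

set_option autoImplicit false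
open MeasureTheory Set Metric
open scoped ENNReal NNReal

namespace Claimed.Agent.BD

/-! ## numerics of the exponents -/

theorem bd9_kap {k : ℕ} (hk : 1 ≤ k) {p : ℝ} (hp : 2 ≤ p) :
    2 ≤ bdT k p ∧ bdT k p ≤ p ∧ 0 ≤ bdKap k p ∧ bdKap k p ≤ 1 ∧ 1 / bdT k p = bdKap k p / 2 + (1 - bdKap k p) / p ∧
      p * k ≤ ((k : ℝ) + 1) * bdT k p := by
  have hk1 : (1 : ℝ) ≤ k := by exact_mod_cast hk
  have hk0 : (0 : ℝ) < k := by linarith
  have hk2 : (0 : ℝ) < (k : ℝ) + 1 := by linarith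
  have hp0 : (0 : ℝ) < p := by linarith
  by_cases h : p * k ≤ 2 * (k + 1)
  · have hT : bdT k p = 2 := by
      unfold bdT
      apply max_eq_left
      rw [div_le_iff₀ hk2]
      exact h
    have hK : bdKap k p = 1 := by
      unfold bdKap
      rw [if_pos h]
    rw [hT, hK]
    refine ⟨le_rfl, hp, by norm_num, le_rfl, by norm_num, by linarith⟩
  · push Not at h
    have hT : bdT k p = p * k / (k + 1) := by
      unfold bdT
      apply max_eq_right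
      rw [le_div_iff₀ hk2]
      exact h.le
    have hK : bdKap k p = 2 / (k * (p - 2)) := by
      unfold bdKap
      rw [if_neg (not_le.2 h)]
    have hp2 : 0 < p - 2 := by
      by_contra hc
      push Not at hc
      have : p = 2 := by linarith
      subst this
      linarith
    have hkp : 2 < k * (p - 2) := by nlinarith
    have hkp0 : 0 < k * (p - 2) := by linarith
    rw [hT, hK]
    refine ⟨?_, ?_, by positivity, ?_, ?_, ?_⟩
    · rw [le_div_iff₀ hk2]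
      exact h.le
    · rw [div_le_iff₀ hk2]
      nlinarith
    · rw [div_le_one hkp0]
      exact hkp.le
    · field_simp
      ring
    · rw [mul_div_cancel₀ _ hk2.ne']

theorem bd9_kap_half {k : ℕ} (hk : 1 ≤ k) {p : ℝ} (hp' : p * k < 2 * ((k : ℝ) + 2)) : 1 / 2 < bdKap k p := by
  have hk1 : (1 : ℝ) ≤ k := by exact_mod_cast hk
  by_cases h : p * k ≤ 2 * (k + 1)
  · unfold bdKap
    rw [if_pos h]
    norm_num
  · unfold bdKap
    rw [if_neg h]
    push Not at h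
    have hkp0 : 0 < k * (p - 2) := by nlinarith
    rw [lt_div_iff₀ hkp0]
    nlinarith

/-! ## dyadic scales -/

theorem bd9_rho_pow (M i : ℕ) (h : 2 ^ i ∣ M) : ((2 : ℝ) ^ (-(M : ℝ))) ^ ((1 / 2 : ℝ) ^ i) = (2 : ℝ) ^ (-((M / 2 ^ i : ℕ) : ℝ)) := by
  rw [← Real.rpow_mul (by norm_num : (0 : ℝ) ≤ 2)]
  congr 1
  have h1 : (M : ℝ) = ((M / 2 ^ i : ℕ) : ℝ) * 2 ^ i := by
    have := Nat.div_mul_cancel h
    exact_mod_cast this.symm
  rw [h1, one_div, inv_pow]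
  field_simp

variable {V : Type} [NormedAddCommGroup V] [InnerProductSpace ℝ V] [FiniteDimensional ℝ V] [MeasurableSpace V] [BorelSpace V]

theorem MDecLe.mono_M {p C ν E R₀ ρ : ℝ} {M M' : ℝ≥0∞} (h : MDecLe V p C ν E R₀ ρ M) (hM : M ≤ M') : MDecLe V p C ν E R₀ ρ M' := by
  intro ι s v H hH
  exact (h ι s v H hH).trans (by gcongr)

/-- the product formula in the indexing of `Stmt.lean`. -/
theorem bd9_levB {κ : ℝ} (h0 : 0 ≤ κ) (h1 : κ ≤ 1) (e : ℕ → ℝ≥0∞) (s : ℕ) (hs : 1 ≤ s) :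
    levB κ (fun j => e (j + 1)) (s - 1) = ∏ l ∈ Finset.Icc 2 s, e l ^ bdnW κ s l := by
  rw [levB_eq_prod h0 h1]
  obtain ⟨l, rfl⟩ : ∃ l, s = l + 1 := ⟨s - 1, by omega⟩
  rw [Nat.add_sub_cancel, show (2 : ℕ) = 1 + 1 from rfl, ← Finset.map_add_right_Icc, Finset.prod_map]
  refine Finset.prod_congr rfl fun j hj => ?_
  simp only [addRightEmbedding_apply]
  unfold bdnW
  rw [Nat.add_sub_add_right]

/-- **U9 exit**. -/
theorem bd9_iterStmt (hk : 1 ≤ Module.finrank ℝ V) {p C : ℝ} (hp : 2 ≤ p) (hC : 1 ≤ C) : IterStmt V p C := by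
  obtain ⟨ht, htp, h0, h1, hκ, hpt⟩ := bd9_kap hk hp
  have hp0 : 0 < p := by linarith
  have ht0 : 0 < bdT (Module.finrank ℝ V) p := by linarith
  have hpt' : p * Module.finrank ℝ V ≤ dd V * bdT (Module.finrank ℝ V) p := by
    have : ((dd V : ℕ) : ℝ) = (Module.finrank ℝ V : ℝ) + 1 := by
      unfold dd
      push_cast
      ring
    rw [this]
    exact hpt
  intro s hs
  refine ⟨levE V (s - 1) * p / bdT (Module.finrank ℝ V) p, ?_, ?_⟩
  · have h1' : (dd V : ℝ) + 1 ≤ levE V (s - 1) := by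
      unfold levE
      have : (0 : ℝ) ≤ ((s - 1 : ℕ) : ℝ) * (2 * dd V + 1) := by positivity
      linarith
    have hd : (0 : ℝ) ≤ dd V := by positivity
    rw [lt_div_iff₀ ht0]
    nlinarith
  intro ε ν R₀ hε hν hR₀
  obtain ⟨X, hX⟩ := mdec_main hk hp ht htp h0 h1 hκ hpt' (s - 1) C ν (ε * p) hC hν (by positivity)
  obtain ⟨j0, hj0⟩ := pow_unbounded_of_one_lt R₀ (one_lt_two : (1 : ℝ) < 2)
  refine ⟨(max X 1) ^ (1 / p), j0, fun j hj e he => ?_⟩
  obtain ⟨M, hM⟩ : ∃ M : ℕ, M = 2 ^ s * j := ⟨_, rfl⟩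
  rw [← hM] at he ⊢
  have hρ0 : (0 : ℝ) < (2 : ℝ) ^ (-(M : ℝ)) := by positivity
  have hρ1 : (2 : ℝ) ^ (-(M : ℝ)) ≤ 1 := Real.rpow_le_one_of_one_le_of_nonpos (by norm_num) (by simp)
  have hdvd : ∀ i, i ≤ s → 2 ^ i ∣ M := fun i hi => by
    rw [hM]
    exact Dvd.dvd.mul_right (pow_dvd_pow 2 hi) j
  have hR : R₀ ≤ (((2 : ℝ) ^ (-(M : ℝ))) ^ ((1 / 2 : ℝ) ^ (s - 1)))⁻¹ := by
    rw [bd9_rho_pow M (s - 1) (hdvd _ (by omega)), ← Real.rpow_neg (by norm_num), neg_neg, Real.rpow_natCast]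
    have h2 : j0 ≤ M / 2 ^ (s - 1) := by
      have h3 : M = 2 ^ (s - 1) * (2 * j) := by
        rw [hM, ← mul_assoc, ← pow_succ]
        congr 2
        omega
      rw [h3, Nat.mul_div_cancel_left _ (by positivity)]
      omega
    calc R₀ ≤ 2 ^ j0 := hj0.le
      _ ≤ 2 ^ (M / 2 ^ (s - 1)) := pow_le_pow_right₀ (by norm_num) h2
  have hD : ∀ i, 1 ≤ i → i ≤ s - 1 → DecLe V p C ((2 : ℝ) ^ (-(M : ℝ)) / ((2 : ℝ) ^ (-(M : ℝ))) ^ ((1 / 2 : ℝ) ^ i)) (e (i + 1)) := by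
    intro i hi1 hi2
    have h2 := he (i + 1) (Finset.mem_Icc.2 ⟨by omega, by omega⟩)
    rw [Nat.add_sub_cancel] at h2
    have h3 : (2 : ℝ) ^ (-(M : ℝ)) / ((2 : ℝ) ^ (-(M : ℝ))) ^ ((1 / 2 : ℝ) ^ i) = (2 : ℝ) ^ (-((M - M / 2 ^ i : ℕ) : ℝ)) := by
      rw [bd9_rho_pow M i (hdvd i (by omega)), ← Real.rpow_sub (by norm_num)]
      congr 1
      rw [Nat.cast_sub (Nat.div_le_self _ _)]
      ring
    rw [h3]
    exact h2
  have key := hX _ R₀ (fun i => e (i + 1)) hρ0 hρ1 (by linarith) hR hD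
  refine key.mono_M ?_
  rw [bd9_levB h0 h1 e s hs, ENNReal.mul_rpow_of_nonneg _ _ hp0.le]
  gcongr
  have hX1 : (0 : ℝ) < max X 1 := lt_of_lt_of_le one_pos (le_max_right _ _)
  rw [ENNReal.ofReal_rpow_of_nonneg (by positivity) hp0.le]
  apply ENNReal.ofReal_le_ofReal
  rw [Real.mul_rpow (by positivity) (by positivity), ← Real.rpow_mul hX1.le, one_div_mul_cancel hp0.ne', Real.rpow_one,
    ← Real.rpow_mul (by norm_num), ← Real.rpow_mul (by norm_num)]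
  have hpos : (0 : ℝ) < (2 : ℝ) ^ ((ε + (Module.finrank ℝ V : ℝ) / 2 ^ s) * (M : ℝ) * p) := by positivity
  have hexp : -(M : ℝ) * -(ε * p + (1 / 2 : ℝ) ^ (s - 1) * (Module.finrank ℝ V : ℝ) * p / 2) = (ε + (Module.finrank ℝ V : ℝ) / 2 ^ s) * (M : ℝ) * p := by
    obtain ⟨l, rfl⟩ : ∃ l, s = l + 1 := ⟨s - 1, by omega⟩
    rw [Nat.add_sub_cancel, pow_succ, one_div, inv_pow]
    field_simp
  rw [hexp]
  exact mul_le_mul_of_nonneg_right (le_max_left _ _) hpos.le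

end Claimed.Agent.BD
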