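import Claimed.Agent.Lib.BD.Fs

/-!
# Box BD, unit U1: the two kernels   (architect helper266)

The ONLY place where Fourier inversion / Schwartz functions of Mathlib are used.  Build everything as a PRODUCT `f(x) g(t)` of functions on the inner product spaces `V` and `ℝ` (Mathlib's `𝓕` needs an inner product space; `V × ℝ` carries the sup norm),
pass from Mathlib's `e^{-2πi⟪x,ξ⟫}` to `ch (pr · ·)` by the dilation `ξ ↦ 2π ξ`.
Sources: `ContDiffBump`, `HasCompactSupport.toSchwartzMap` / `SchwartzMap.fourierTransformCLM`, `SchwartzMap.decay`, `Continuous.fourierInv_fourier_eq` (or `MeasureTheory.Integrable.fourierInv_fourier_eq`), `integral_prod_mul`.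
-/

set_option autoImplicit false
open MeasureTheory Set Metric
open scoped ENNReal NNReal

namespace Claimed.Agent.BD

variable (V : Type) [NormedAddCommGroup V] [InnerProductSpace ℝ V] [FiniteDimensional ℝ V] [MeasurableSpace V] [BorelSpace V]

open scoped FourierTransform SchwartzMap ContDiff in
/-- one factor: on a finite dimensional inner product space `W` there are `φ` smooth, `φ ≥ 0`, supported in the ball of radius `r`, and `K y = ∫ e^{i⟪y,w⟫} φ w dw` rapidly decreasing with the inversion formula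
`φ w = c ∫ e^{-i⟪y,w⟫} K y dy`. -/
theorem exists_bump_pair (W : Type) [NormedAddCommGroup W] [InnerProductSpace ℝ W] [FiniteDimensional ℝ W] [MeasurableSpace W] [BorelSpace W]
    {r₁ r₂ : ℝ} (h0 : 0 < r₁) (h1 : r₁ < r₂) :
    ∃ (φ : W → ℝ) (K : W → ℂ) (c : ℝ), Continuous φ ∧ (∀ w, 0 ≤ φ w ∧ φ w ≤ 1) ∧ (∀ w, ‖w‖ ≤ r₁ → φ w = 1) ∧ (∀ w, r₂ ≤ ‖w‖ → φ w = 0) ∧
      Continuous K ∧ (∀ y, K y = ∫ w, ch (inner ℝ y w) * (φ w : ℂ)) ∧ (∀ M : ℝ, ∃ C : ℝ, ∀ y, ‖K y‖ ≤ C * (1 + ‖y‖) ^ (-M)) ∧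
      0 < c ∧ ∀ w, (φ w : ℂ) = c * ∫ y, ch (-inner ℝ y w) * K y := by
  let φ : ContDiffBump (0 : W) := ⟨r₁, r₂, h0, h1⟩
  obtain ⟨g, hg⟩ : ∃ g : W → ℂ, g = fun ξ => ((φ ξ : ℝ) : ℂ) := ⟨_, rfl⟩
  have hzero : ∀ ξ : W, r₂ ≤ ‖ξ‖ → φ ξ = 0 := by
    intro ξ hξ
    exact φ.zero_of_le_dist (by rw [dist_zero_right]; exact hξ)
  have hcs : HasCompactSupport g := by
    apply HasCompactSupport.intro (isCompact_closedBall (0:W) r₂)
    intro ξ hξ
    simp only [Metric.mem_closedBall, dist_zero_right, not_le] at hξ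
    rw [hg]
    simp only
    rw [hzero ξ hξ.le]
    simp
  have hsm : ContDiff ℝ ∞ g := by
    rw [hg]
    exact Complex.ofRealCLM.contDiff.comp φ.contDiff
  let G : 𝓢(W, ℂ) := hcs.toSchwartzMap hsm
  have hGg : ∀ ξ, G ξ = g ξ := fun ξ => rfl
  have hπ : 0 < 2 * Real.pi := by positivity
  have hG : ∀ x : W, ∫ ξ, ch (inner ℝ x ξ) * ((φ ξ : ℝ) : ℂ) = (𝓕 G) (-(2 * Real.pi)⁻¹ • x) := by
    intro x
    rw [SchwartzMap.fourier_coe, Real.fourier_eq']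
    apply integral_congr_ae
    refine Filter.Eventually.of_forall fun ξ => ?_
    simp only [smul_eq_mul]
    rw [hGg, hg]
    congr 1
    unfold ch
    congr 2
    rw [inner_smul_right, real_inner_comm]
    have := Real.pi_pos
    push_cast
    field_simp
  refine ⟨fun ξ => φ ξ, fun y => (𝓕 G) (-(2 * Real.pi)⁻¹ • y), ((2 * Real.pi) ^ Module.finrank ℝ W)⁻¹, φ.continuous,
    fun w => ⟨φ.nonneg, φ.le_one⟩, fun w hw => ?_, hzero, ?_, fun y => (hG y).symm, ?_, by positivity, ?_⟩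
  · exact φ.one_of_mem_closedBall (by rw [Metric.mem_closedBall, dist_zero_right]; exact hw)
  · exact (𝓕 G).continuous.comp (continuous_const.smul continuous_id)
  · intro M
    obtain ⟨N, hN⟩ : ∃ N : ℕ, N = ⌈M⌉₊ := ⟨_, rfl⟩
    obtain ⟨C₀, hC₀⟩ : ∃ C₀ : ℝ, C₀ = 2 ^ N * (Finset.Iic (N, 0)).sup (fun m => SchwartzMap.seminorm ℝ m.1 m.2) (𝓕 G) := ⟨_, rfl⟩
    have hC₀nn : 0 ≤ C₀ := by rw [hC₀]; positivity
    refine ⟨(2 * Real.pi) ^ N * C₀, fun x => ?_⟩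
    obtain ⟨w, hw⟩ : ∃ w : W, w = -(2 * Real.pi)⁻¹ • x := ⟨_, rfl⟩
    simp only
    rw [← hw]
    have h1 := SchwartzMap.one_add_le_sup_seminorm_apply (𝕜 := ℝ) (m := (N, 0)) (k := N) (n := 0) le_rfl le_rfl (𝓕 G) w
    rw [norm_iteratedFDeriv_zero, ← hC₀] at h1
    have hπ3 := Real.pi_gt_three
    have hwn : ‖w‖ = ‖x‖ / (2 * Real.pi) := by
      rw [hw, norm_smul, norm_neg, norm_inv, Real.norm_of_nonneg (by positivity)]
      field_simp
    have h2 : 1 + ‖x‖ ≤ 2 * Real.pi * (1 + ‖w‖) := by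
      rw [hwn]
      have : 2 * Real.pi * (1 + ‖x‖ / (2 * Real.pi)) = 2 * Real.pi + ‖x‖ := by field_simp
      rw [this]
      linarith
    have hx0 : 0 < 1 + ‖x‖ := by positivity
    have h3 : (1 + ‖x‖) ^ N * ‖(𝓕 G) w‖ ≤ (2 * Real.pi) ^ N * C₀ := by
      calc (1 + ‖x‖) ^ N * ‖(𝓕 G) w‖ ≤ (2 * Real.pi * (1 + ‖w‖)) ^ N * ‖(𝓕 G) w‖ := by
            gcongr
        _ = (2 * Real.pi) ^ N * ((1 + ‖w‖) ^ N * ‖(𝓕 G) w‖) := by rw [mul_pow]; ring
        _ ≤ _ := by gcongr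
    have hmono : (1 + ‖x‖) ^ (-(N : ℝ)) ≤ (1 + ‖x‖) ^ (-M) :=
      Real.rpow_le_rpow_of_exponent_le (by linarith [norm_nonneg x]) (neg_le_neg (by rw [hN]; exact Nat.le_ceil M))
    have h4 : ‖(𝓕 G) w‖ ≤ (2 * Real.pi) ^ N * C₀ * (1 + ‖x‖) ^ (-(N : ℝ)) := by
      rw [Real.rpow_neg hx0.le, Real.rpow_natCast, ← div_eq_mul_inv, le_div_iff₀ (by positivity)]
      linarith
    exact h4.trans (mul_le_mul_of_nonneg_left hmono (by positivity))
  · intro w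
    have hinv : 𝓕⁻ (𝓕 (G : W → ℂ)) = G :=
      G.continuous.fourierInv_fourier_eq G.integrable (by rw [← SchwartzMap.fourier_coe]; exact (𝓕 G).integrable)
    have h2 : g w = 𝓕⁻ (𝓕 (G : W → ℂ)) w := by rw [hinv]; rfl
    have h3 := Measure.integral_comp_smul (volume : Measure W)
      (fun v => Complex.exp ((↑(2 * Real.pi * inner ℝ v w) * Complex.I)) • (𝓕 (G : W → ℂ)) v) (-(2 * Real.pi)⁻¹)
    have h4 : ((φ w : ℝ) : ℂ) = g w := by rw [hg]
    simp only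
    rw [h4, h2, Real.fourierInv_eq']
    have h5 : ∫ y, ch (-inner ℝ y w) * (𝓕 G) (-(2 * Real.pi)⁻¹ • y) =
        ∫ y, Complex.exp ((↑(2 * Real.pi * inner ℝ (-(2 * Real.pi)⁻¹ • y) w) * Complex.I)) • (𝓕 (G : W → ℂ)) (-(2 * Real.pi)⁻¹ • y) := by
      apply integral_congr_ae
      refine Filter.Eventually.of_forall fun y => ?_
      simp only [smul_eq_mul]
      rw [SchwartzMap.fourier_coe]
      congr 1
      unfold ch
      congr 2
      rw [real_inner_smul_left]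
      have := Real.pi_pos
      push_cast
      field_simp
    rw [h5, h3]
    have h6 : |((-(2 * Real.pi)⁻¹) ^ Module.finrank ℝ W)⁻¹| = (2 * Real.pi) ^ Module.finrank ℝ W := by
      rw [abs_inv, abs_pow, abs_neg, abs_inv, abs_of_pos hπ, inv_pow, inv_inv]
    rw [h6, Complex.real_smul, ← mul_assoc]
    have h7 : ((((2 * Real.pi) ^ Module.finrank ℝ W)⁻¹ : ℝ) : ℂ) * (((2 * Real.pi) ^ Module.finrank ℝ W : ℝ) : ℂ) = 1 := by
      rw [← Complex.ofReal_mul, inv_mul_cancel₀ (by positivity)]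
      simp
    rw [h7, one_mul]


theorem bde_norm_ch (θ : ℝ) : ‖ch θ‖ = 1 := by
  unfold ch
  exact Complex.norm_exp_ofReal_mul_I θ

theorem bde_ch_sub_one (θ : ℝ) : ‖ch θ - 1‖ ≤ |θ| := by
  unfold ch
  have := Real.norm_exp_I_mul_ofReal_sub_one_le (x := θ)
  rw [mul_comm] at this
  simpa using this

theorem bde_ch_cont : Continuous ch := by
  unfold ch
  fun_prop

theorem bde_ch_add (a b : ℝ) : ch (a + b) = ch a * ch b := by
  unfold ch
  rw [← Complex.exp_add]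
  congr 1
  push_cast
  ring

theorem bde_ch_conj (a : ℝ) : (starRingEnd ℂ) (ch a) = ch (-a) := by
  unfold ch
  rw [← Complex.exp_conj]
  congr 1
  simp

section one
variable {W : Type} [NormedAddCommGroup W] [InnerProductSpace ℝ W] [FiniteDimensional ℝ W] [MeasurableSpace W] [BorelSpace W]

/-- a continuous function vanishing outside a ball is integrable -/
theorem bde_int_phi {φ : W → ℝ} {r : ℝ} (hφc : Continuous φ) (hφ0 : ∀ w, r ≤ ‖w‖ → φ w = 0) : Integrable φ := by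
  apply hφc.integrable_of_hasCompactSupport
  apply HasCompactSupport.intro (isCompact_closedBall (0:W) r)
  intro ξ hξ
  simp only [Metric.mem_closedBall, dist_zero_right, not_le] at hξ
  exact hφ0 ξ hξ.le

/-- a continuous rapidly decreasing function is integrable -/
theorem bde_int_K {K : W → ℂ} (hKc : Continuous K) (hdec : ∀ M : ℝ, ∃ C : ℝ, ∀ y, ‖K y‖ ≤ C * (1 + ‖y‖) ^ (-M)) : Integrable K := by
  obtain ⟨C, hC⟩ := hdec ((Module.finrank ℝ W : ℝ) + 1)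
  have h1 : Integrable (fun y : W => C * (1 + ‖y‖) ^ (-((Module.finrank ℝ W : ℝ) + 1))) :=
    (integrable_one_add_norm (by linarith)).const_mul C
  exact h1.mono' hKc.aestronglyMeasurable (Filter.Eventually.of_forall hC)

/-- `|K|²` has Fourier support in the ball of radius `2r` -/
theorem bde_sq_vanish {φ : W → ℝ} {K : W → ℂ} {c r : ℝ} (hφc : Continuous φ) (hφ0 : ∀ w, r ≤ ‖w‖ → φ w = 0) (hKc : Continuous K)
    (hK : ∀ y, K y = ∫ w, ch (inner ℝ y w) * (φ w : ℂ)) (hdec : ∀ M : ℝ, ∃ C : ℝ, ∀ y, ‖K y‖ ≤ C * (1 + ‖y‖) ^ (-M)) (hc : 0 < c)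
    (hinv : ∀ w, (φ w : ℂ) = c * ∫ y, ch (-inner ℝ y w) * K y) (u : W) (hu : 2 * r ≤ ‖u‖) :
    ∫ y, ((‖K y‖ ^ 2 : ℝ) : ℂ) * ch (inner ℝ y u) = 0 := by
  have hφi : Integrable φ := bde_int_phi hφc hφ0
  have hKi : Integrable K := bde_int_K hKc hdec
  have h1 : ∀ y, ((‖K y‖ ^ 2 : ℝ) : ℂ) * ch (inner ℝ y u) = ∫ w, (ch (-inner ℝ y (w - u)) * K y) * (φ w : ℂ) := by
    intro y
    have e1 : ((‖K y‖ ^ 2 : ℝ) : ℂ) = K y * (starRingEnd ℂ) (K y) := by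
      rw [Complex.mul_conj, Complex.normSq_eq_norm_sq]
    have e2 : (starRingEnd ℂ) (K y) = ∫ w, ch (-inner ℝ y w) * (φ w : ℂ) := by
      rw [hK y, ← integral_conj]
      apply integral_congr_ae
      refine Filter.Eventually.of_forall fun w => ?_
      simp only [map_mul, bde_ch_conj, Complex.conj_ofReal]
    rw [e1, e2, mul_assoc, mul_comm _ (ch (inner ℝ y u)), ← mul_assoc, ← integral_const_mul]
    apply integral_congr_ae
    refine Filter.Eventually.of_forall fun w => ?_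
    simp only
    have e3 : -inner ℝ y (w - u) = inner ℝ y u + -inner ℝ y w := by
      rw [inner_sub_right]
      ring
    rw [e3, bde_ch_add]
    ring
  simp_rw [h1]
  rw [integral_integral_swap]
  · apply integral_eq_zero_of_ae
    refine Filter.Eventually.of_forall fun w => ?_
    simp only [Pi.zero_apply]
    rw [integral_mul_const]
    have e4 : ∫ y, ch (-inner ℝ y (w - u)) * K y = (c : ℂ)⁻¹ * (φ (w - u) : ℂ) := by
      rw [hinv (w - u), ← mul_assoc, inv_mul_cancel₀ (by exact_mod_cast hc.ne'), one_mul]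
    rw [e4]
    by_cases hw : r ≤ ‖w‖
    · rw [hφ0 w hw]
      simp
    · have hw' : r ≤ ‖w - u‖ := by
        have := norm_sub_norm_le u w
        rw [norm_sub_rev] at this
        push Not at hw
        linarith
      rw [hφ0 _ hw']
      simp
  · have h2 : Integrable (fun p : W × W => K p.1 * (φ p.2 : ℂ)) (volume.prod volume) := hKi.mul_prod hφi.ofReal
    have h3 : (Function.uncurry fun y w => (ch (-inner ℝ y (w - u)) * K y) * (φ w : ℂ)) =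
        fun p : W × W => ch (-inner ℝ p.1 (p.2 - u)) * (K p.1 * (φ p.2 : ℂ)) := by
      ext p
      simp only [Function.uncurry]
      ring
    rw [h3]
    refine h2.bdd_mul (c := 1) ?_ ?_
    · exact (bde_ch_cont.comp (by fun_prop)).aestronglyMeasurable
    · exact Filter.Eventually.of_forall fun p => (bde_norm_ch _).le

/-- lower bound of the transform on the unit ball, when the support has radius `1/2` -/
theorem bde_lower {φ : W → ℝ} {K : W → ℂ} (hφc : Continuous φ) (hφn : ∀ w, 0 ≤ φ w ∧ φ w ≤ 1) (hφ0 : ∀ w, 1 / 2 ≤ ‖w‖ → φ w = 0)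
    (hK : ∀ y, K y = ∫ w, ch (inner ℝ y w) * (φ w : ℂ)) (y : W) (hy : ‖y‖ ≤ 1) : (∫ w, φ w) / 2 ≤ ‖K y‖ := by
  have hφi : Integrable φ := bde_int_phi hφc hφ0
  have hchint : Integrable fun w => ch (inner ℝ y w) * (φ w : ℂ) := by
    refine hφi.ofReal.bdd_mul (c := 1) ?_ ?_
    · exact (bde_ch_cont.comp (by fun_prop)).aestronglyMeasurable
    · exact Filter.Eventually.of_forall fun ξ => (bde_norm_ch _).le
  have hI : ∫ w, (φ w : ℂ) = ((∫ w, φ w : ℝ) : ℂ) := integral_ofReal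
  have e : K y = ((∫ w, φ w : ℝ) : ℂ) + ∫ w, (ch (inner ℝ y w) - 1) * (φ w : ℂ) := by
    have : ∀ w, (ch (inner ℝ y w) - 1) * (φ w : ℂ) = ch (inner ℝ y w) * (φ w : ℂ) - (φ w : ℂ) := fun w => by ring
    simp_rw [this]
    have e0 : ∫ w, (ch (inner ℝ y w) * (φ w : ℂ) - (φ w : ℂ)) = (∫ w, ch (inner ℝ y w) * (φ w : ℂ)) - ∫ w, (φ w : ℂ) :=
      integral_sub hchint hφi.ofReal
    rw [e0, hI, hK y]
    ring
  have hb : ‖∫ w, (ch (inner ℝ y w) - 1) * (φ w : ℂ)‖ ≤ (∫ w, φ w) / 2 := by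
    calc ‖∫ w, (ch (inner ℝ y w) - 1) * (φ w : ℂ)‖ ≤ ∫ w, ‖(ch (inner ℝ y w) - 1) * (φ w : ℂ)‖ := norm_integral_le_integral_norm _
      _ ≤ ∫ w, 1 / 2 * φ w := by
        apply integral_mono_of_nonneg (Filter.Eventually.of_forall fun ξ => norm_nonneg _) (hφi.const_mul _)
        refine Filter.Eventually.of_forall fun w => ?_
        simp only
        rw [norm_mul, Complex.norm_real, Real.norm_of_nonneg (hφn w).1]
        by_cases hw : 1 / 2 ≤ ‖w‖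
        · rw [hφ0 w hw]; simp
        · push Not at hw
          apply mul_le_mul_of_nonneg_right _ (hφn w).1
          refine (bde_ch_sub_one _).trans ((abs_real_inner_le_norm y w).trans ?_)
          nlinarith [norm_nonneg y, norm_nonneg w]
      _ = (∫ w, φ w) / 2 := by rw [integral_const_mul]; ring
  have hI0 : 0 ≤ ∫ w, φ w := integral_nonneg fun w => (hφn w).1
  rw [e]
  have h2 : ‖((∫ w, φ w : ℝ) : ℂ)‖ = ∫ w, φ w := by rw [Complex.norm_real, Real.norm_of_nonneg hI0]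
  have := norm_sub_le_norm_add ((∫ w, φ w : ℝ) : ℂ) (∫ w, (ch (inner ℝ y w) - 1) * (φ w : ℂ))
  linarith

theorem bde_int_pos {φ : W → ℝ} (hφc : Continuous φ) (hφn : ∀ w, 0 ≤ φ w ∧ φ w ≤ 1) (hφ1 : ∀ w, ‖w‖ ≤ 1 / 4 → φ w = 1)
    (hφ0 : ∀ w, 1 / 2 ≤ ‖w‖ → φ w = 0) : 0 < ∫ w, φ w := by
  apply hφc.integral_pos_of_hasCompactSupport_nonneg_nonzero (x := 0)
  · apply HasCompactSupport.intro (isCompact_closedBall (0:W) (1 / 2))
    intro ξ hξ
    simp only [Metric.mem_closedBall, dist_zero_right, not_le] at hξ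
    exact hφ0 ξ hξ.le
  · exact fun w => (hφn w).1
  · rw [hφ1 0 (by simp)]
    exact one_ne_zero

end one

/-- **the localising bump**: Fourier support in the unit ball, `≥ 1` on the unit ball, rapidly decreasing; `|η|²` has Fourier support in the ball of radius `2`.
PLAN: `η(x,t) = A η₁(x) η₂(t)`, `η_i = K` of `exists_bump_pair` with `r₂ = 1`: `Re η_i(y) ≥ cos 1 ∫ φ > 0` for `|y| ≤ 1`.  Last clause: `|η_i|² = ∫ e^{i⟪y,u⟫} (φ ⋆ φ~)(u) du`, `φ ⋆ φ~` continuous with support in the ball of radius `2`,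
`|η_i|²` integrable: inversion. -/
theorem exists_eta : ∃ η : V × ℝ → ℂ, FS (closedBall 0 1) η ∧ (∀ y, ‖y‖ ≤ 1 → 1 ≤ ‖η y‖) ∧
    (∀ M : ℝ, ∃ C : ℝ, ∀ y, ‖η y‖ ≤ C * (1 + ‖y‖) ^ (-M)) ∧
    ∀ w : V × ℝ, 2 < ‖w‖ → ∫ y, ((‖η y‖ ^ 2 : ℝ) : ℂ) * ch (pr y w) = 0 := by
  obtain ⟨φ₁, K₁, c₁, a1, a2, a3, a4, a5, a6, a7, a8, a9⟩ := exists_bump_pair V (r₁ := 1 / 4) (r₂ := 1 / 2) (by norm_num) (by norm_num)
  obtain ⟨φ₂, K₂, c₂, b1, b2, b3, b4, b5, b6, b7, b8, b9⟩ := exists_bump_pair ℝ (r₁ := 1 / 4) (r₂ := 1 / 2) (by norm_num) (by norm_num)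
  have hI₁ : 0 < ∫ w, φ₁ w := bde_int_pos a1 a2 a3 a4
  have hI₂ : 0 < ∫ w, φ₂ w := bde_int_pos b1 b2 b3 b4
  obtain ⟨I₁, hI₁d⟩ : ∃ I : ℝ, I = ∫ w, φ₁ w := ⟨_, rfl⟩
  obtain ⟨I₂, hI₂d⟩ : ∃ I : ℝ, I = ∫ w, φ₂ w := ⟨_, rfl⟩
  rw [← hI₁d] at hI₁
  rw [← hI₂d] at hI₂
  obtain ⟨A, hA⟩ : ∃ A : ℝ, A = 4 / (I₁ * I₂) := ⟨_, rfl⟩
  have hA0 : 0 < A := by rw [hA]; positivity
  obtain ⟨g, hg⟩ : ∃ g : V × ℝ → ℂ, g = fun w => (A : ℂ) * ((φ₁ w.1 : ℂ) * (φ₂ w.2 : ℂ)) := ⟨_, rfl⟩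
  have hin : ∀ a b : ℝ, inner ℝ a b = a * b := fun a b => by simp [mul_comm]
  have hfac : ∀ z : V × ℝ, ∫ w, ch (pr z w) * g w = (A : ℂ) * (K₁ z.1 * K₂ z.2) := by
    intro z
    rw [a6, b6, Measure.volume_eq_prod, ← integral_prod_mul, ← integral_const_mul]
    apply integral_congr_ae
    refine Filter.Eventually.of_forall fun w => ?_
    simp only [hg, pr]
    rw [bde_ch_add, hin]
    ring
  refine ⟨fun z => (A : ℂ) * (K₁ z.1 * K₂ z.2), ⟨g, ?_, ?_, fun z => (hfac z).symm⟩, ?_, ?_, ?_⟩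
  · rw [hg, Measure.volume_eq_prod]
    exact ((bde_int_phi a1 a4).ofReal.mul_prod (bde_int_phi b1 b4).ofReal).const_mul _
  · intro w hw
    rw [Metric.mem_closedBall, dist_zero_right, Prod.norm_def, max_le_iff, not_and_or, not_le, not_le] at hw
    rw [hg]
    rcases hw with h | h
    · simp [a4 w.1 (by linarith)]
    · simp [b4 w.2 (by linarith)]
  · intro z hz
    rw [Prod.norm_def, max_le_iff] at hz
    simp only
    rw [norm_mul, norm_mul, Complex.norm_real, Real.norm_of_nonneg hA0.le]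
    have q1 := bde_lower a1 a2 a4 a6 z.1 hz.1
    have q2 := bde_lower b1 b2 b4 b6 z.2 hz.2
    rw [← hI₁d] at q1
    rw [← hI₂d] at q2
    have q3 : I₁ / 2 * (I₂ / 2) ≤ ‖K₁ z.1‖ * ‖K₂ z.2‖ := mul_le_mul q1 q2 (by positivity) (norm_nonneg _)
    calc (1 : ℝ) = A * (I₁ / 2 * (I₂ / 2)) := by rw [hA]; field_simp; norm_num
      _ ≤ A * (‖K₁ z.1‖ * ‖K₂ z.2‖) := mul_le_mul_of_nonneg_left q3 hA0.le
  · intro M
    obtain ⟨C₁, h₁⟩ := a7 M
    obtain ⟨C₂, h₂⟩ := b7 M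
    obtain ⟨C₁', h₁'⟩ := a7 0
    obtain ⟨C₂', h₂'⟩ := b7 0
    simp only [neg_zero, Real.rpow_zero, mul_one] at h₁' h₂'
    have c₁' : 0 ≤ C₁' := (norm_nonneg _).trans (h₁' 0)
    have c₂' : 0 ≤ C₂' := (norm_nonneg _).trans (h₂' 0)
    have c₁0 : 0 ≤ C₁ := by
      have := (norm_nonneg _).trans (h₁ 0)
      simpa using this
    have c₂0 : 0 ≤ C₂ := by
      have := (norm_nonneg _).trans (h₂ 0)
      simpa using this
    refine ⟨A * (C₁ * C₂' + C₁' * C₂), fun z => ?_⟩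
    simp only
    rw [norm_mul, norm_mul, Complex.norm_real, Real.norm_of_nonneg hA0.le, mul_assoc]
    apply mul_le_mul_of_nonneg_left _ hA0.le
    have hp : 0 ≤ (1 + ‖z‖) ^ (-M) := Real.rpow_nonneg (by positivity) _
    rcases le_total ‖z.1‖ ‖z.2‖ with h | h
    · have hz : ‖z‖ = ‖z.2‖ := by rw [Prod.norm_def]; exact max_eq_right h
      calc ‖K₁ z.1‖ * ‖K₂ z.2‖ ≤ C₁' * (C₂ * (1 + ‖z.2‖) ^ (-M)) := mul_le_mul (h₁' _) (h₂ _) (norm_nonneg _) c₁'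
        _ = C₁' * C₂ * (1 + ‖z‖) ^ (-M) := by rw [hz]; ring
        _ ≤ (C₁ * C₂' + C₁' * C₂) * (1 + ‖z‖) ^ (-M) := by
          apply mul_le_mul_of_nonneg_right _ hp
          nlinarith [mul_nonneg c₁0 c₂']
    · have hz : ‖z‖ = ‖z.1‖ := by rw [Prod.norm_def]; exact max_eq_left h
      calc ‖K₁ z.1‖ * ‖K₂ z.2‖ ≤ (C₁ * (1 + ‖z.1‖) ^ (-M)) * C₂' :=
            mul_le_mul (h₁ _) (h₂' _) (norm_nonneg _) ((norm_nonneg _).trans (h₁ _))
        _ = C₁ * C₂' * (1 + ‖z‖) ^ (-M) := by rw [hz]; ring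
        _ ≤ (C₁ * C₂' + C₁' * C₂) * (1 + ‖z‖) ^ (-M) := by
          apply mul_le_mul_of_nonneg_right _ hp
          nlinarith [mul_nonneg c₁' c₂0]
  · intro w hw
    have e1 : ∀ y : V × ℝ, ((‖(A : ℂ) * (K₁ y.1 * K₂ y.2)‖ ^ 2 : ℝ) : ℂ) * ch (pr y w) =
        ((A ^ 2 : ℝ) : ℂ) * ((((‖K₁ y.1‖ ^ 2 : ℝ) : ℂ) * ch (inner ℝ y.1 w.1)) * (((‖K₂ y.2‖ ^ 2 : ℝ) : ℂ) * ch (inner ℝ y.2 w.2))) := by
      intro y
      rw [norm_mul, norm_mul, Complex.norm_real, Real.norm_of_nonneg hA0.le, pr, bde_ch_add, hin]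
      push_cast
      ring
    simp only
    simp_rw [e1]
    have e2 : ∫ a : V × ℝ, (((‖K₁ a.1‖ ^ 2 : ℝ) : ℂ) * ch (inner ℝ a.1 w.1)) * (((‖K₂ a.2‖ ^ 2 : ℝ) : ℂ) * ch (inner ℝ a.2 w.2)) =
        (∫ x : V, ((‖K₁ x‖ ^ 2 : ℝ) : ℂ) * ch (inner ℝ x w.1)) * ∫ t : ℝ, ((‖K₂ t‖ ^ 2 : ℝ) : ℂ) * ch (inner ℝ t w.2) := by
      rw [Measure.volume_eq_prod]
      exact integral_prod_mul (fun x : V => ((‖K₁ x‖ ^ 2 : ℝ) : ℂ) * ch (inner ℝ x w.1))
        (fun t : ℝ => ((‖K₂ t‖ ^ 2 : ℝ) : ℂ) * ch (inner ℝ t w.2))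
    rw [integral_const_mul, e2]
    rw [Prod.norm_def, lt_max_iff] at hw
    rcases hw with h | h
    · rw [bde_sq_vanish a1 a4 a5 a6 a7 a8 a9 w.1 (by linarith)]
      simp
    · rw [bde_sq_vanish b1 b4 b5 b6 b7 b8 b9 w.2 (by linarith)]
      simp


/-! ### helpers of `exists_ker` (helper83) -/

section ker3

open scoped FourierTransform SchwartzMap

section one

variable {E : Type} [NormedAddCommGroup E] [InnerProductSpace ℝ E] [FiniteDimensional ℝ E] [MeasurableSpace E] [BorelSpace E]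

theorem bdb_ch_eq (θ : ℝ) : ch θ = ((Real.fourierChar ((2 * Real.pi)⁻¹ * θ) : Circle) : ℂ) := by
  rw [Real.fourierChar_apply, ch]
  congr 2
  have : (2 * Real.pi) ≠ 0 := by positivity
  field_simp

theorem bdb_norm_ch (θ : ℝ) : ‖ch θ‖ = 1 := by
  rw [ch, Complex.norm_exp_ofReal_mul_I]

omit [FiniteDimensional ℝ E] [MeasurableSpace E] [BorelSpace E] in
/-- rapid decay of a Schwartz function -/
theorem bdb_schwartz_decay (f : 𝓢(E, ℂ)) (M : ℝ) : ∃ C : ℝ, 0 ≤ C ∧ ∀ x, ‖f x‖ ≤ C * (1 + ‖x‖) ^ (-M) := by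
  obtain ⟨k, hk⟩ := exists_nat_ge M
  have h := fun x => SchwartzMap.one_add_le_sup_seminorm_apply (𝕜 := ℝ) (m := (k, 0)) (le_refl k) (le_refl 0) f x
  refine ⟨2 ^ k * ((Finset.Iic (k, 0)).sup fun m => SchwartzMap.seminorm ℝ m.1 m.2) f, by positivity, fun x => ?_⟩
  have h1 := h x
  rw [norm_iteratedFDeriv_zero] at h1
  have hx : (1 : ℝ) ≤ 1 + ‖x‖ := by linarith [norm_nonneg x]
  have hpos : (0 : ℝ) < 1 + ‖x‖ := by linarith
  have h2 : (1 + ‖x‖) ^ M ≤ (1 + ‖x‖) ^ k := by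
    rw [← Real.rpow_natCast]
    exact Real.rpow_le_rpow_of_exponent_le hx hk
  rw [Real.rpow_neg hpos.le, ← div_eq_mul_inv, le_div_iff₀ (Real.rpow_pos_of_pos hpos M)]
  calc ‖f x‖ * (1 + ‖x‖) ^ M ≤ ‖f x‖ * (1 + ‖x‖) ^ k := mul_le_mul_of_nonneg_left h2 (norm_nonneg _)
    _ = (1 + ‖x‖) ^ k * ‖f x‖ := mul_comm _ _
    _ ≤ _ := h1

/-- a Schwartz kernel whose transform is `1` on the ball of radius `R` -/
theorem bdb_ker1 {R : ℝ} (hR : 0 < R) : ∃ K : 𝓢(E, ℂ), ∀ w : E, ‖w‖ ≤ R → ∫ y, ch (-(inner ℝ y w)) * K y = 1 := by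
  have hpi : (0 : ℝ) < (2 * Real.pi)⁻¹ := by positivity
  have hpiR : (0 : ℝ) < (2 * Real.pi)⁻¹ * R := by positivity
  let b : ContDiffBump (0 : E) := ⟨(2 * Real.pi)⁻¹ * R, 2 * ((2 * Real.pi)⁻¹ * R), hpiR, by linarith⟩
  have hc : HasCompactSupport (fun x : E => ((b x : ℝ) : ℂ)) :=
    b.hasCompactSupport.comp_left (g := fun r : ℝ => (r : ℂ)) Complex.ofReal_zero
  have hs : ContDiff ℝ ((⊤ : ℕ∞) : WithTop ℕ∞) (fun x : E => ((b x : ℝ) : ℂ)) := Complex.ofRealCLM.contDiff.comp b.contDiff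
  let Ψ : 𝓢(E, ℂ) := hc.toSchwartzMap hs
  refine ⟨𝓕⁻ Ψ, fun w hw => ?_⟩
  have h1 : 𝓕 (𝓕⁻ Ψ) = Ψ := FourierInvPair.fourier_fourierInv_eq Ψ
  have h2 : (𝓕 (𝓕⁻ Ψ)) ((2 * Real.pi)⁻¹ • w) = 1 := by
    rw [h1]
    show ((b ((2 * Real.pi)⁻¹ • w) : ℝ) : ℂ) = 1
    rw [b.one_of_mem_closedBall]
    · simp
    · rw [Metric.mem_closedBall, dist_zero_right, norm_smul, Real.norm_of_nonneg hpi.le]
      show (2 * Real.pi)⁻¹ * ‖w‖ ≤ (2 * Real.pi)⁻¹ * R
      exact mul_le_mul_of_nonneg_left hw hpi.le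
  rw [SchwartzMap.fourier_coe, Real.fourier_eq] at h2
  rw [← h2]
  refine integral_congr_ae (Filter.Eventually.of_forall fun y => ?_)
  show ch (-(inner ℝ y w)) * (𝓕⁻ Ψ) y = (Real.fourierChar (-(inner ℝ y ((2 * Real.pi)⁻¹ • w)))) • (𝓕⁻ Ψ) y
  rw [bdb_ch_eq, Circle.smul_def, smul_eq_mul, inner_smul_right]
  congr 3
  ring

end one

variable {V}

theorem bdb_ch_add (a b : ℝ) : ch (a + b) = ch a * ch b := by
  unfold ch
  rw [← Complex.exp_add]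
  congr 1
  push_cast
  ring

theorem bdb_continuous_ch : Continuous ch := by
  unfold ch
  fun_prop

omit [FiniteDimensional ℝ V] [MeasurableSpace V] [BorelSpace V] in
theorem bdb_continuous_pr : Continuous fun p : (V × ℝ) × (V × ℝ) => pr p.1 p.2 := by
  unfold pr
  fun_prop

omit [InnerProductSpace ℝ V] [FiniteDimensional ℝ V] [MeasurableSpace V] [BorelSpace V] in
/-- decay of a tensor product -/
theorem bdb_decay_prod {f₁ : V → ℂ} {f₂ : ℝ → ℂ} (h₁ : ∀ M : ℝ, ∃ C : ℝ, 0 ≤ C ∧ ∀ x, ‖f₁ x‖ ≤ C * (1 + ‖x‖) ^ (-M))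
    (h₂ : ∀ M : ℝ, ∃ C : ℝ, 0 ≤ C ∧ ∀ x, ‖f₂ x‖ ≤ C * (1 + ‖x‖) ^ (-M)) (M : ℝ) :
    ∃ C : ℝ, 0 ≤ C ∧ ∀ z : V × ℝ, ‖f₁ z.1 * f₂ z.2‖ ≤ C * (1 + ‖z‖) ^ (-M) := by
  obtain ⟨C₁, hC₁, H₁⟩ := h₁ (max M 0)
  obtain ⟨C₂, hC₂, H₂⟩ := h₂ (max M 0)
  refine ⟨C₁ * C₂, by positivity, fun z => ?_⟩
  have hle : ∀ r : ℝ, 0 ≤ r → (1 + r) ^ (-(max M 0)) ≤ 1 := fun r hr =>
    Real.rpow_le_one_of_one_le_of_nonpos (by linarith) (by simp)
  have hpos : ∀ r : ℝ, 0 ≤ r → 0 ≤ (1 + r) ^ (-(max M 0)) := fun r hr => Real.rpow_nonneg (by linarith) _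
  have hM : (1 + ‖z‖) ^ (-(max M 0)) ≤ (1 + ‖z‖) ^ (-M) :=
    Real.rpow_le_rpow_of_exponent_le (by linarith [norm_nonneg z]) (by simp)
  rw [norm_mul]
  have a1 := H₁ z.1
  have a2 := H₂ z.2
  have key : (1 + ‖z.1‖) ^ (-(max M 0)) * (1 + ‖z.2‖) ^ (-(max M 0)) ≤ (1 + ‖z‖) ^ (-(max M 0)) := by
    rcases le_total ‖z.1‖ ‖z.2‖ with h | h
    · have : ‖z‖ = ‖z.2‖ := by rw [Prod.norm_def, max_eq_right h]
      rw [this]
      exact mul_le_of_le_one_left (hpos _ (norm_nonneg _)) (hle _ (norm_nonneg _))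
    · have : ‖z‖ = ‖z.1‖ := by rw [Prod.norm_def, max_eq_left h]
      rw [this]
      exact mul_le_of_le_one_right (hpos _ (norm_nonneg _)) (hle _ (norm_nonneg _))
  calc ‖f₁ z.1‖ * ‖f₂ z.2‖ ≤ (C₁ * (1 + ‖z.1‖) ^ (-(max M 0))) * (C₂ * (1 + ‖z.2‖) ^ (-(max M 0))) :=
        mul_le_mul a1 a2 (norm_nonneg _) (mul_nonneg hC₁ (hpos _ (norm_nonneg _)))
    _ = C₁ * C₂ * ((1 + ‖z.1‖) ^ (-(max M 0)) * (1 + ‖z.2‖) ^ (-(max M 0))) := by ring
    _ ≤ C₁ * C₂ * (1 + ‖z‖) ^ (-M) := mul_le_mul_of_nonneg_left (key.trans hM) (by positivity)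

end ker3

/-- **the reproducing kernel** of the ball of radius `C`.
PLAN: `ψ(ξ,τ) = φ₁(ξ) φ₂(τ) = 1` on the ball, `K(x,t) = c₁ c₂ K₁(x) K₂(t)` (reflected as needed): `F z = ∫ ch (pr z w) ψ w g w = ∫∫ ch (pr (z - y) w) K y g w = ∫ K y F (z - y)` (Fubini). -/
theorem exists_ker (C : ℝ) : ∃ K : V × ℝ → ℂ, Continuous K ∧ (∀ M : ℝ, ∃ C' : ℝ, ∀ y, ‖K y‖ ≤ C' * (1 + ‖y‖) ^ (-M)) ∧
    ∀ F : V × ℝ → ℂ, FS (closedBall 0 C) F → ∀ z, F z = ∫ y, K y * F (z - y) := by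
  have hR : (0 : ℝ) < max C 1 := lt_of_lt_of_le one_pos (le_max_right _ _)
  obtain ⟨K₁, h₁⟩ := bdb_ker1 (E := V) hR
  obtain ⟨K₂, h₂⟩ := bdb_ker1 (E := ℝ) hR
  have hKint : Integrable (fun y : V × ℝ => K₁ y.1 * K₂ y.2) := by
    rw [Measure.volume_eq_prod]
    exact K₁.integrable.mul_prod K₂.integrable
  refine ⟨fun y => K₁ y.1 * K₂ y.2, (K₁.continuous.comp continuous_fst).mul (K₂.continuous.comp continuous_snd),
    fun M => (bdb_decay_prod (bdb_schwartz_decay K₁) (bdb_schwartz_decay K₂) M).imp fun _ h => h.2, ?_⟩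
  rintro F ⟨g, hg, hg0, hF⟩ z
  have hone : ∀ w : V × ℝ, w ∈ Metric.closedBall (0 : V × ℝ) C → ∫ y : V × ℝ, ch (-(pr y w)) * (K₁ y.1 * K₂ y.2) = 1 := by
    intro w hw
    rw [Metric.mem_closedBall, dist_zero_right, Prod.norm_def, max_le_iff] at hw
    have e := integral_prod_mul (μ := (volume : Measure V)) (ν := (volume : Measure ℝ))
      (fun y => ch (-(inner ℝ y w.1)) * K₁ y) (fun y => ch (-(inner ℝ y w.2)) * K₂ y)
    rw [h₁ _ (hw.1.trans (le_max_left _ _)), h₂ _ (hw.2.trans (le_max_left _ _)), one_mul, ← Measure.volume_eq_prod] at e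
    rw [← e]
    refine integral_congr_ae (Filter.Eventually.of_forall fun y => ?_)
    show ch (-(pr y w)) * (K₁ y.1 * K₂ y.2) = ch (-(inner ℝ y.1 w.1)) * K₁ y.1 * (ch (-(inner ℝ y.2 w.2)) * K₂ y.2)
    have : (inner ℝ y.2 w.2 : ℝ) = y.2 * w.2 := by simp [mul_comm]
    rw [pr, neg_add, bdb_ch_add, this]
    ring
  have hprsub : ∀ y w : V × ℝ, pr (z - y) w = pr z w + -(pr y w) := by
    intro y w
    unfold pr
    rw [Prod.fst_sub, Prod.snd_sub, inner_sub_left]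
    ring
  -- Fubini
  have hint : Integrable (Function.uncurry fun (y w : V × ℝ) => ch (pr (z - y) w) * g w * (K₁ y.1 * K₂ y.2)) (volume.prod volume) := by
    have h0 : Integrable (fun p : (V × ℝ) × (V × ℝ) => (K₁ p.1.1 * K₂ p.1.2) * g p.2) (volume.prod volume) := hKint.mul_prod hg
    have h1 : Integrable (fun p : (V × ℝ) × (V × ℝ) => ch (pr (z - p.1) p.2) * ((K₁ p.1.1 * K₂ p.1.2) * g p.2)) (volume.prod volume) := by
      refine h0.bdd_mul (c := 1) ?_ ?_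
      · have : Continuous fun p : (V × ℝ) × (V × ℝ) => ch (pr (z - p.1) p.2) :=
          bdb_continuous_ch.comp (bdb_continuous_pr.comp ((continuous_const.sub continuous_fst).prodMk continuous_snd))
        exact this.aestronglyMeasurable
      · exact Filter.Eventually.of_forall fun p => (bdb_norm_ch _).le
    refine h1.congr (Filter.Eventually.of_forall fun p => ?_)
    show ch (pr (z - p.1) p.2) * ((K₁ p.1.1 * K₂ p.1.2) * g p.2) = ch (pr (z - p.1) p.2) * g p.2 * (K₁ p.1.1 * K₂ p.1.2)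
    ring
  calc F z = ∫ w, ch (pr z w) * g w := hF z
    _ = ∫ w, ∫ y : V × ℝ, ch (pr (z - y) w) * g w * (K₁ y.1 * K₂ y.2) := by
        refine integral_congr_ae (Filter.Eventually.of_forall fun w => ?_)
        show ch (pr z w) * g w = ∫ y : V × ℝ, ch (pr (z - y) w) * g w * (K₁ y.1 * K₂ y.2)
        by_cases hw : w ∈ Metric.closedBall (0 : V × ℝ) C
        · have : ∀ y : V × ℝ, ch (pr (z - y) w) * g w * (K₁ y.1 * K₂ y.2) = (ch (pr z w) * g w) * (ch (-(pr y w)) * (K₁ y.1 * K₂ y.2)) := by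
            intro y
            rw [hprsub, bdb_ch_add]
            ring
          simp only [this]
          rw [integral_const_mul, hone w hw, mul_one]
        · simp [hg0 w hw]
    _ = ∫ y : V × ℝ, ∫ w, ch (pr (z - y) w) * g w * (K₁ y.1 * K₂ y.2) := (integral_integral_swap hint).symm
    _ = ∫ y : V × ℝ, (K₁ y.1 * K₂ y.2) * F (z - y) := by
        refine integral_congr_ae (Filter.Eventually.of_forall fun y => ?_)
        show ∫ w, ch (pr (z - y) w) * g w * (K₁ y.1 * K₂ y.2) = (K₁ y.1 * K₂ y.2) * F (z - y)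
        rw [integral_mul_const, hF, mul_comm]

end Claimed.Agent.BD
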