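import Claimed.Agent.Lib.BD.Infl

/-!
# Box BD, unit U9 (concrete half): the multiscale iteration in the language of `Defs.lean`   (architect helper266)

Fixed: `k = finrank V ≥ 1`, `d = k + 1`, exponents `2 ≤ t ≤ p`, `0 ≤ κ ≤ 1`, `1/t = κ/2 + (1-κ)/p`, `p k ≤ d t`  (`t = max 2 (p k/d)`).
A fine transverse multi-family `MRob C ν ρ s v H`.  LEVEL `l`: scale `σ_l = ρ^(2^-l)` (`σ_0 = ρ`, `σ_(l+1)² = σ_l`), ANY groupings `Grp Cg σ_l (s i) (v i) (π i) (u i)`, grouped pieces `gsum (s i) (π i) (H i)`.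
`lev_main l` : `mA p t E σ_l⁻¹ (grouped) ≤ X ρ^(-ε) (levB κ e l)^p mD p s H` for `E ≥ levE l`, where `e j` is any decoupling constant at scale `ρ/σ_j` (parameter `C`).
No tower of groupings is ever built: the induction step refines the given grouping once (`Grp.refine`, pairs) and uses the induction hypothesis for the refined grouping.
STEP `l → l+1` (`σ' = σ_(l+1)`, `σ = σ'² = σ_l`):
`mA t (E+2d+1) σ'⁻¹ G' ≤ [infl] mA t E σ⁻¹ G' ≤ [mA_holder] (mA 2 E σ⁻¹ G')^κ (mA p E σ⁻¹ G')^(1-κ)`,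
`mA 2 E σ⁻¹ G' ≤ [mA_orth, G'' refines G'] mA 2 E σ⁻¹ G'' ≤ [mA_mono_t] mA t E σ⁻¹ G'' ≤ [IH]`,   `mA p E σ⁻¹ G' ≤ [mA_le_mD] mD G' ≤ [mD_group] (e (l+1))^p mD fine`.
-/

set_option autoImplicit false
open MeasureTheory Set Metric
open scoped ENNReal NNReal

namespace Claimed.Agent.BD

variable {V : Type} [NormedAddCommGroup V] [InnerProductSpace ℝ V] [FiniteDimensional ℝ V] [MeasurableSpace V] [BorelSpace V]

/-- the recursion of the constants: `B_0 = 1`, `B_(l+1) = B_l^κ e_(l+1)^(1-κ)`. -/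
noncomputable def levB (κ : ℝ) (e : ℕ → ℝ≥0∞) : ℕ → ℝ≥0∞
  | 0 => 1
  | l + 1 => levB κ e l ^ κ * e (l + 1) ^ (1 - κ)

variable (V) in
/-- the ladder of weight exponents. -/
noncomputable def levE (l : ℕ) : ℝ := (dd V + 1) + l * (2 * dd V + 1)

/-- closed form of `levB` (induction on `l`). -/
theorem levB_eq_prod {κ : ℝ} (h0 : 0 ≤ κ) (h1 : κ ≤ 1) (e : ℕ → ℝ≥0∞) (l : ℕ) :
    levB κ e l = ∏ j ∈ Finset.Icc 1 l, e j ^ ((1 - κ) * κ ^ (l - j)) := by
  induction l with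
  | zero => simp [levB]
  | succ l ih =>
    rw [levB, ih, Finset.prod_Icc_succ_top (by omega), ← ENNReal.prod_rpow_of_nonneg h0]
    congr 1
    · apply Finset.prod_congr rfl
      intro j hj
      rw [Finset.mem_Icc] at hj
      rw [← ENNReal.rpow_mul]
      congr 1
      have : l + 1 - j = (l - j) + 1 := by omega
      rw [this, pow_succ]
      ring
    · simp

open scoped Classical in
/-- grouping a transverse multi-family (`Rob.group`; the centres of the clusters are centres of the family: `Grp.rep`). -/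
theorem MRob.group {C Cg ν ρ σ : ℝ} {ι ι' : Type} {s : Fin (dd V) → Finset ι} {v : Fin (dd V) → ι → V} {H : Fin (dd V) → ι → V × ℝ → ℂ}
    (h : MRob C ν ρ s v H) {π : Fin (dd V) → ι → ι'} {u : Fin (dd V) → ι' → V} (hg : ∀ i, Grp Cg σ (s i) (v i) (π i) (u i)) (hρ : 0 < ρ) (hσ : ρ ≤ σ) (hC : 0 ≤ C) :
    MRob (max (C + 1) Cg) ν σ (fun i => (s i).image (π i)) u (fun i => gsum (s i) (π i) (H i)) := by
  refine ⟨fun i => (h.rob i).group (hg i) hρ hσ hC, fun j hj => ?_⟩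
  have hex : ∀ i, ∃ θ' ∈ s i, u i (j i) = v i θ' := by
    intro i
    obtain ⟨θ, hθ, e⟩ := Finset.mem_image.1 (hj i)
    obtain ⟨θ', hθ', e'⟩ := (hg i).rep θ hθ
    exact ⟨θ', hθ', by rw [← e, e']⟩
  choose θ' h1 h2 using hex
  have := h.trans θ' h1
  simp_rw [h2]
  exact this

open scoped Classical in
/-- grouping in two steps. -/
theorem gsum_gsum {ι ι' ι'' : Type} (s : Finset ι) (π : ι → ι') (q : ι' → ι'') (H : ι → V × ℝ → ℂ) (J : ι'') :
    gsum (s.image π) q (gsum s π H) J = gsum s (fun θ => q (π θ)) H J := by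
  funext z
  unfold gsum
  have hmaps : ∀ θ ∈ s.filter (fun θ => q (π θ) = J), π θ ∈ (s.image π).filter (fun J' => q J' = J) := by
    intro θ hθ
    obtain ⟨a, b⟩ := Finset.mem_filter.1 hθ
    exact Finset.mem_filter.2 ⟨Finset.mem_image_of_mem _ a, b⟩
  rw [← Finset.sum_fiberwise_of_maps_to hmaps]
  apply Finset.sum_congr rfl
  intro J' hJ'
  have hq := (Finset.mem_filter.1 hJ').2
  apply Finset.sum_congr _ fun _ _ => rfl
  ext θ
  simp only [Finset.mem_filter]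
  constructor
  · rintro ⟨a, b⟩
    exact ⟨⟨a, by rw [b]; exact hq⟩, b⟩
  · rintro ⟨⟨a, -⟩, b⟩
    exact ⟨a, b⟩

/-! ### helpers (helper164) -/


/-- the measure `R^(-d) (1 + |y - z|/R)^(-E) dy`. -/
noncomputable def levMu (E R : ℝ) (z : V × ℝ) : Measure (V × ℝ) :=
  volume.withDensity (fun y => ENNReal.ofReal (R ^ (-(dd V : ℝ))) * wt E R (y - z))

theorem lev_meas_wt (E R : ℝ) (z : V × ℝ) : Measurable (fun y : V × ℝ => wt E R (y - z)) :=
  (measurable_wt E R).comp (measurable_id.sub_const z)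

theorem lev_meas_dens (E R : ℝ) (z : V × ℝ) : Measurable (fun y : V × ℝ => ENNReal.ofReal (R ^ (-(dd V : ℝ))) * wt E R (y - z)) :=
  (lev_meas_wt E R z).const_mul _

theorem lev_avp_eq (t E R : ℝ) {F : V × ℝ → ℂ} (hF : Continuous F) (z : V × ℝ) :
    avp t E R F z = ∫⁻ y, ‖F y‖ₑ ^ t ∂(levMu E R z) := by
  unfold avp levMu
  rw [lintegral_withDensity_eq_lintegral_mul _ (lev_meas_dens E R z) (hF.measurable.enorm.pow_const t),
    ← lintegral_const_mul _ (show Measurable (fun y => ‖F y‖ₑ ^ t * wt E R (y - z)) from (hF.measurable.enorm.pow_const t).mul (lev_meas_wt E R z))]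
  refine lintegral_congr fun y => ?_
  simp only [Pi.mul_apply]
  ring

theorem lev_haar : (volume : Measure (V × ℝ)).IsAddHaarMeasure := by
  rw [Measure.volume_eq_prod]
  infer_instance

theorem lev_mu_univ {E : ℝ} (hE : (dd V : ℝ) < E) :
    ∃ c : ℝ, 0 < c ∧ ∀ (R : ℝ) (z : V × ℝ), 0 < R → levMu E R z univ = ENNReal.ofReal c := by
  obtain ⟨c, hc, h⟩ := exists_lintegral_wt (V := V) hE
  refine ⟨c, hc, fun R z hR => ?_⟩
  have := lev_haar (V := V)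
  unfold levMu
  rw [withDensity_apply _ MeasurableSet.univ, Measure.restrict_univ,
    lintegral_const_mul _ (lev_meas_wt E R z),
    lintegral_sub_right_eq_self (fun y => wt E R y) z, h R hR, ← ENNReal.ofReal_mul (by positivity)]
  congr 1
  rw [mul_comm c, ← mul_assoc, ← Real.rpow_add hR]
  simp

omit [FiniteDimensional ℝ V] [MeasurableSpace V] [BorelSpace V] in
theorem lev_dd_pos : (0 : ℝ) < dd V := by
  unfold dd
  positivity

/-- `∏_{i < m} (c x_i)^(e/m) = c^e ∏ x_i^(e/m)`. -/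
theorem lev_prod_const {m : ℕ} (hm : 0 < m) (c : ℝ≥0∞) (x : Fin m → ℝ≥0∞) {e : ℝ} (he : 0 ≤ e) :
    ∏ i, (c * x i) ^ (e / (m : ℝ)) = c ^ e * ∏ i, x i ^ (e / (m : ℝ)) := by
  have hm' : (0 : ℝ) < m := by exact_mod_cast hm
  have h1 : ∀ i, (c * x i) ^ (e / (m : ℝ)) = c ^ (e / (m : ℝ)) * x i ^ (e / (m : ℝ)) := fun i =>
    ENNReal.mul_rpow_of_nonneg _ _ (by positivity)
  simp only [h1]
  rw [Finset.prod_mul_distrib, Finset.prod_const, Finset.card_univ, Fintype.card_fin, ← ENNReal.rpow_natCast, ← ENNReal.rpow_mul]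
  congr 2
  field_simp

theorem lev_meas_mA (t E R a b : ℝ) {ι : Type} (s : Fin (dd V) → Finset ι) (H : Fin (dd V) → ι → V × ℝ → ℂ)
    (hH : ∀ i, ∀ j ∈ s i, Continuous (H i j)) :
    Measurable (fun z => ∏ i, (∑ j ∈ s i, avp t E R (H i j) z ^ a) ^ b) := by
  refine Finset.measurable_fun_prod _ fun i _ => Measurable.pow_const ?_ _
  exact Finset.measurable_fun_sum _ fun j hj => (measurable_avp t E R (hH i j hj)).pow_const _

theorem lev_lint_prod_le {p : ℝ} (hp : 0 ≤ p) (c : ℝ≥0∞) (X Y : Fin (dd V) → V × ℝ → ℝ≥0∞)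
    (hY : Measurable (fun z => ∏ i, Y i z ^ (p / (2 * (dd V : ℝ))))) (h : ∀ i z, X i z ≤ c * Y i z) :
    ∫⁻ z, ∏ i, X i z ^ (p / (2 * (dd V : ℝ))) ≤ c ^ (p / 2) * ∫⁻ z, ∏ i, Y i z ^ (p / (2 * (dd V : ℝ))) := by
  have hd := lev_dd_pos (V := V)
  have hdn : 0 < dd V := by exact_mod_cast hd
  have he : p / (2 * (dd V : ℝ)) = (p / 2) / (dd V : ℝ) := by
    field_simp
  rw [← lintegral_const_mul _ hY]
  refine lintegral_mono fun z => ?_
  simp only [he]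
  rw [← lev_prod_const hdn c (fun i => Y i z) (by positivity : 0 ≤ p / 2)]
  exact Finset.prod_le_prod' fun i _ => ENNReal.rpow_le_rpow (h i z) (by positivity)

/-- interpolation of the local averages. -/
theorem lev_avp_interp {t p κ : ℝ} (ht : 0 < t) (hp : 0 < p) (h0 : 0 ≤ κ) (h1 : κ ≤ 1) (h : 1 / t = κ / 2 + (1 - κ) / p)
    (E R : ℝ) {F : V × ℝ → ℂ} (hF : Continuous F) (z : V × ℝ) :
    avp t E R F z ^ (2 / t) ≤ (avp 2 E R F z ^ ((2 : ℝ) / 2)) ^ κ * (avp p E R F z ^ (2 / p)) ^ (1 - κ) := by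
  have h1' : 0 ≤ 1 - κ := by linarith
  have key := abs_interp (μ := levMu E R z) ht (by norm_num : (0 : ℝ) < 2) hp h0 h1 h (fun y => ‖F y‖ₑ) hF.measurable.enorm.aemeasurable
  rw [← lev_avp_eq t E R hF z, ← lev_avp_eq 2 E R hF z, ← lev_avp_eq p E R hF z] at key
  have key2 := ENNReal.rpow_le_rpow key (by norm_num : (0 : ℝ) ≤ 2)
  rw [ENNReal.mul_rpow_of_nonneg _ _ (by norm_num : (0 : ℝ) ≤ 2), ← ENNReal.rpow_mul, ← ENNReal.rpow_mul, ← ENNReal.rpow_mul] at key2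
  rw [← ENNReal.rpow_mul, ← ENNReal.rpow_mul]
  convert key2 using 3 <;> ring

/-- **(I2)** Hölder everywhere: `abs_interp` for the measure `R^(-d) wt E R (y - z) dy`, `abs_holder_sum` over the caps, product over `i`, `abs_holder_two` in `z`. -/
theorem mA_holder {p t κ E R : ℝ} (hp : 0 < p) (ht : 0 < t) (h0 : 0 ≤ κ) (h1 : κ ≤ 1) (h : 1 / t = κ / 2 + (1 - κ) / p)
    {ι : Type} (s : Fin (dd V) → Finset ι) (H : Fin (dd V) → ι → V × ℝ → ℂ) (hH : ∀ i, ∀ j ∈ s i, Continuous (H i j)) :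
    mA p t E R s H ≤ mA p 2 E R s H ^ κ * mA p p E R s H ^ (1 - κ) := by
  have hd := lev_dd_pos (V := V)
  have h1' : 0 ≤ 1 - κ := by linarith
  obtain ⟨a, ha⟩ : ∃ a : ℝ, a = p / (2 * (dd V : ℝ)) := ⟨_, rfl⟩
  have ha0 : 0 ≤ a := by
    rw [ha]
    positivity
  unfold mA
  rw [← ha]
  calc ∫⁻ z, ∏ i, (∑ j ∈ s i, avp t E R (H i j) z ^ (2 / t)) ^ a
      ≤ ∫⁻ z, (∏ i, (∑ j ∈ s i, avp 2 E R (H i j) z ^ ((2 : ℝ) / 2)) ^ a) ^ κ * (∏ i, (∑ j ∈ s i, avp p E R (H i j) z ^ (2 / p)) ^ a) ^ (1 - κ) := by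
        refine lintegral_mono fun z => ?_
        rw [← ENNReal.prod_rpow_of_nonneg h0, ← ENNReal.prod_rpow_of_nonneg h1', ← Finset.prod_mul_distrib]
        refine Finset.prod_le_prod' fun i _ => ?_
        rw [← ENNReal.rpow_mul, ← ENNReal.rpow_mul, mul_comm a κ, mul_comm a (1 - κ), ENNReal.rpow_mul, ENNReal.rpow_mul,
          ← ENNReal.mul_rpow_of_nonneg _ _ ha0]
        refine ENNReal.rpow_le_rpow ?_ ha0
        calc ∑ j ∈ s i, avp t E R (H i j) z ^ (2 / t)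
            ≤ ∑ j ∈ s i, (avp 2 E R (H i j) z ^ ((2 : ℝ) / 2)) ^ κ * (avp p E R (H i j) z ^ (2 / p)) ^ (1 - κ) :=
              Finset.sum_le_sum fun j hj => lev_avp_interp ht hp h0 h1 h E R (hH i j hj) z
          _ ≤ _ := abs_holder_sum h0 h1 _ _ _
    _ ≤ _ := abs_holder_two h0 h1 _ _ (lev_meas_mA 2 E R _ a s H hH).aemeasurable (lev_meas_mA p E R _ a s H hH).aemeasurable

/-- comparison of the local `L^a` and `L^b` averages. -/
theorem lev_avp_mono_t {a b E : ℝ} (ha : 0 < a) (hab : a ≤ b) (hE : (dd V : ℝ) < E) :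
    ∃ c : ℝ, 0 < c ∧ ∀ (R : ℝ) (F : V × ℝ → ℂ) (z : V × ℝ), 0 < R → Continuous F →
      avp a E R F z ^ (2 / a) ≤ ENNReal.ofReal c * avp b E R F z ^ (2 / b) := by
  obtain ⟨c, hc, hmu⟩ := lev_mu_univ (V := V) hE
  have hb : 0 < b := by linarith
  have hexp : 0 ≤ 1 / a - 1 / b := by
    rw [sub_nonneg]
    exact one_div_le_one_div_of_le ha hab
  refine ⟨(c ^ (1 / a - 1 / b)) ^ (2 : ℝ), by positivity, fun R F z hR hF => ?_⟩
  have key := abs_Lp_mono (μ := levMu E R z) ha hab (fun y => ‖F y‖ₑ) hF.measurable.enorm.aemeasurable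
  rw [← lev_avp_eq a E R hF z, ← lev_avp_eq b E R hF z, hmu R z hR] at key
  have key2 := ENNReal.rpow_le_rpow key (by norm_num : (0 : ℝ) ≤ 2)
  rw [ENNReal.mul_rpow_of_nonneg _ _ (by norm_num : (0 : ℝ) ≤ 2), ← ENNReal.rpow_mul, ← ENNReal.rpow_mul,
    ENNReal.ofReal_rpow_of_pos hc, ENNReal.ofReal_rpow_of_pos (by positivity)] at key2
  calc avp a E R F z ^ (2 / a) = avp a E R F z ^ (1 / a * 2) := by
        congr 1
        ring
    _ ≤ _ := key2
    _ = _ := by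
        rw [mul_comm]
        congr 2
        ring

/-- comparison of the local `L^a` and `L^b` averages, `a ≤ b` (`abs_Lp_mono`; total mass of `R^(-d) wt E R` is `c_E`: `exists_lintegral_wt`). -/
theorem mA_mono_t (p a b E : ℝ) (hp : 0 < p) (ha : 0 < a) (hab : a ≤ b) (hE : (dd V : ℝ) < E) :
    ∃ A : ℝ, ∀ (R : ℝ) (ι : Type) (s : Fin (dd V) → Finset ι) (H : Fin (dd V) → ι → V × ℝ → ℂ), 0 < R → (∀ i, ∀ j ∈ s i, Continuous (H i j)) →
      mA p a E R s H ≤ ENNReal.ofReal A * mA p b E R s H := by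
  obtain ⟨c, hc, h⟩ := lev_avp_mono_t (V := V) ha hab hE
  refine ⟨c ^ (p / 2), fun R ι s H hR hH => ?_⟩
  unfold mA
  rw [← ENNReal.ofReal_rpow_of_pos hc]
  refine lev_lint_prod_le hp.le _ _ _ (lev_meas_mA b E R _ _ s H hH) fun i z => ?_
  rw [Finset.mul_sum]
  exact Finset.sum_le_sum fun j hj => h R (H i j) z hR (hH i j hj)

open scoped Classical in
/-- **(I1)** `L²` orthogonality at the radius `σ⁻¹`: regrouping a robust family at scale `σ` (`orth` for every cluster; `cap u (Cσ) (Cσ²) ⊆ {|ξ - u| ≤ C σ}`). -/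
theorem mA_orth (p C E : ℝ) (hp : 0 < p) (hC : 0 ≤ C) (hE : 0 ≤ E) :
    ∃ A : ℝ, ∀ (σ : ℝ) (ι ι' : Type) (s : Fin (dd V) → Finset ι) (u : Fin (dd V) → ι → V) (F : Fin (dd V) → ι → V × ℝ → ℂ) (q : Fin (dd V) → ι → ι'),
      0 < σ → (∀ i, Rob C σ (s i) (u i) (F i)) →
      mA p 2 E σ⁻¹ (fun i => (s i).image (q i)) (fun i => gsum (s i) (q i) (F i)) ≤ ENNReal.ofReal A * mA p 2 E σ⁻¹ s F := by
  obtain ⟨A, hA⟩ := orth (V := V) C E hC hE
  refine ⟨(max A 0) ^ (p / 2), fun σ ι ι' s u F q hσ hR => ?_⟩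
  have hcont : ∀ i, ∀ j ∈ s i, Continuous (F i j) := fun i j hj => ((hR i).fs j hj).continuous
  unfold mA
  rw [← ENNReal.ofReal_rpow_of_nonneg (le_max_right _ _) (by positivity)]
  refine lev_lint_prod_le hp.le _ _ _ (lev_meas_mA 2 E σ⁻¹ _ _ s F hcont) fun i z => ?_
  have e : ((2 : ℝ) / 2) = 1 := by norm_num
  simp only [e, ENNReal.rpow_one]
  calc ∑ J ∈ (s i).image (q i), avp 2 E σ⁻¹ (gsum (s i) (q i) (F i) J) z
      ≤ ∑ J ∈ (s i).image (q i), ENNReal.ofReal A * ∑ j ∈ (s i).filter (fun θ => q i θ = J), avp 2 E σ⁻¹ (F i j) z := by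
        refine Finset.sum_le_sum fun J _ => ?_
        refine hA σ⁻¹ ι _ (u i) (F i) (inv_pos.2 hσ) (fun j hj => ?_) (fun ξ t ht h => ?_) z
        · refine ((hR i).fs j (Finset.mem_of_mem_filter j hj)).mono fun w hw => ?_
          show ‖w.1 - u i j‖ ≤ C / σ⁻¹
          rw [div_inv_eq_mul]
          exact hw.1
        · refine (hR i).mult ξ t (ht.trans (Finset.filter_subset _ _)) fun j hj => ?_
          have := h j hj
          rwa [one_div, inv_inv] at this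
    _ = ENNReal.ofReal A * ∑ j ∈ s i, avp 2 E σ⁻¹ (F i j) z := by
        rw [← Finset.mul_sum]
        congr 1
        exact Finset.sum_fiberwise_of_maps_to (fun j hj => Finset.mem_image_of_mem _ hj) _
    _ ≤ _ := by
        gcongr
        exact le_max_left _ _

/-- **(I4')** `abs_holder_prod` over `i`, `abs_l2Lp`, `exists_lintegral_avp`. -/
theorem mA_le_mD (p E : ℝ) (hp : 2 ≤ p) (hE : (dd V : ℝ) < E) :
    ∃ A : ℝ, ∀ (R : ℝ) (ι : Type) (s : Fin (dd V) → Finset ι) (H : Fin (dd V) → ι → V × ℝ → ℂ), 0 < R → (∀ i, ∀ j ∈ s i, Continuous (H i j)) →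
      mA p p E R s H ≤ ENNReal.ofReal A * mD p s H := by
  obtain ⟨c, hc, h⟩ := exists_lintegral_avp (V := V) hE
  have hd := lev_dd_pos (V := V)
  have hdn : 0 < dd V := by exact_mod_cast hd
  have hp0 : 0 < p := by linarith
  refine ⟨c, fun R ι s H hR hH => ?_⟩
  unfold mA mD
  have e1 : ∀ x : ℝ≥0∞, x ^ (p / (2 * (dd V : ℝ))) = (x ^ (p / 2)) ^ (1 / (dd V : ℝ)) := fun x => by
    rw [← ENNReal.rpow_mul]
    congr 1
    field_simp
  simp only [e1]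
  calc ∫⁻ z, ∏ i, ((∑ j ∈ s i, avp p E R (H i j) z ^ (2 / p)) ^ (p / 2)) ^ (1 / (dd V : ℝ))
      ≤ ∏ i, (∫⁻ z, (∑ j ∈ s i, avp p E R (H i j) z ^ (2 / p)) ^ (p / 2)) ^ (1 / (dd V : ℝ)) :=
        abs_holder_prod hdn _ fun i => (Measurable.pow_const (Finset.measurable_fun_sum _ fun j hj =>
          (measurable_avp p E R (hH i j hj)).pow_const _) _).aemeasurable
    _ ≤ ∏ i, (ENNReal.ofReal c * (∑ j ∈ s i, nm p (H i j) ^ (2 : ℝ)) ^ (p / 2)) ^ (1 / (dd V : ℝ)) := by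
        refine Finset.prod_le_prod' fun i _ => ENNReal.rpow_le_rpow ?_ (by positivity)
        calc ∫⁻ z, (∑ j ∈ s i, avp p E R (H i j) z ^ (2 / p)) ^ (p / 2)
            ≤ (∑ j ∈ s i, (∫⁻ z, avp p E R (H i j) z) ^ (2 / p)) ^ (p / 2) :=
              abs_l2Lp hp _ _ fun j hj => (measurable_avp p E R (hH i j hj)).aemeasurable
          _ = (∑ j ∈ s i, ENNReal.ofReal c ^ (2 / p) * nm p (H i j) ^ (2 : ℝ)) ^ (p / 2) := by
              congr 1
              refine Finset.sum_congr rfl fun j hj => ?_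
              rw [h R p (H i j) hR (hH i j hj), ENNReal.mul_rpow_of_nonneg _ _ (by positivity)]
              congr 1
              unfold nm
              rw [← ENNReal.rpow_mul]
              congr 1
              ring
          _ = _ := by
              rw [← Finset.mul_sum, ENNReal.mul_rpow_of_nonneg _ _ (by positivity), ← ENNReal.rpow_mul]
              congr 2
              field_simp
              simp
    _ = _ := by
        rw [lev_prod_const hdn _ _ zero_le_one, ENNReal.rpow_one]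

open scoped Classical in
/-- **(I5)** rescaling of every cluster (`DecLe.group`). -/
theorem mD_group {p C Cg ρ σ : ℝ} {D : ℝ≥0∞} (hD : DecLe V p C (ρ / σ) D) (hp : 0 < p) (hC : 1 ≤ C) (hρ : 0 < ρ) (hσ : 0 < σ)
    {ι ι' : Type} {s : Fin (dd V) → Finset ι} {v : Fin (dd V) → ι → V} {H : Fin (dd V) → ι → V × ℝ → ℂ} (h : ∀ i, Rob C ρ (s i) (v i) (H i))
    {π : Fin (dd V) → ι → ι'} {u : Fin (dd V) → ι' → V} (hg : ∀ i, Grp Cg σ (s i) (v i) (π i) (u i)) :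
    mD p (fun i => (s i).image (π i)) (fun i => gsum (s i) (π i) (H i)) ≤ D ^ p * mD p s H := by
  have hd := lev_dd_pos (V := V)
  have hdn : 0 < dd V := by exact_mod_cast hd
  have he : p / (2 * (dd V : ℝ)) = (p / 2) / (dd V : ℝ) := by
    field_simp
  unfold mD
  simp only [he]
  calc ∏ i, (∑ J ∈ (s i).image (π i), nm p (gsum (s i) (π i) (H i) J) ^ (2 : ℝ)) ^ (p / 2 / (dd V : ℝ))
      ≤ ∏ i, (D ^ (2 : ℝ) * ∑ θ ∈ s i, nm p (H i θ) ^ (2 : ℝ)) ^ (p / 2 / (dd V : ℝ)) :=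
        Finset.prod_le_prod' fun i _ => ENNReal.rpow_le_rpow (DecLe.group hD hp hC hρ hσ (h i) (hg i)) (by positivity)
    _ = (D ^ (2 : ℝ)) ^ (p / 2) * ∏ i, (∑ θ ∈ s i, nm p (H i θ) ^ (2 : ℝ)) ^ (p / 2 / (dd V : ℝ)) :=
        lev_prod_const hdn _ _ (by positivity)
    _ = _ := by
        rw [← ENNReal.rpow_mul]
        congr 2
        ring

omit [InnerProductSpace ℝ V] [FiniteDimensional ℝ V] [MeasurableSpace V] [BorelSpace V] in
open scoped Classical in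
theorem lev_gsum_cont {ι ι' : Type} (s : Finset ι) (π : ι → ι') (H : ι → V × ℝ → ℂ) (hH : ∀ j ∈ s, Continuous (H j)) (J : ι') :
    Continuous (gsum s π H J) := by
  unfold gsum
  exact continuous_finsetSum _ fun θ hθ => hH θ (Finset.mem_filter.1 hθ).1

open scoped Classical in
/-- **level 0** (I7): `mA_mono_t` (`t ≤ p`), `mA_le_mD`, `mD_group` with `σ = ρ` and `decLe_trivial` at scale `1`. -/
theorem lev_zero (p t C Cg E : ℝ) (hp : 2 ≤ p) (ht : 0 < t) (htp : t ≤ p) (hC : 1 ≤ C) (hE : (dd V : ℝ) < E) :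
    ∃ X : ℝ, ∀ (ρ : ℝ) (ι ι' : Type) (s : Fin (dd V) → Finset ι) (v : Fin (dd V) → ι → V) (H : Fin (dd V) → ι → V × ℝ → ℂ)
      (π : Fin (dd V) → ι → ι') (u : Fin (dd V) → ι' → V), 0 < ρ → ρ ≤ 1 → (∀ i, Rob C ρ (s i) (v i) (H i)) → (∀ i, Grp Cg ρ (s i) (v i) (π i) (u i)) →
      mA p t E ρ⁻¹ (fun i => (s i).image (π i)) (fun i => gsum (s i) (π i) (H i)) ≤ ENNReal.ofReal X * mD p s H := by
  have hp0 : 0 < p := by linarith
  obtain ⟨A1, h1⟩ := mA_mono_t (V := V) p t p E hp0 ht htp hE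
  obtain ⟨A2, h2⟩ := mA_le_mD (V := V) p E hp hE
  have hD := decLe_trivial (V := V) (p := p) (C := C) (ρ := 1) (by linarith) (by linarith) one_pos
  obtain ⟨D0, hD0⟩ : ∃ D0 : ℝ, D0 = ((2 * (C / 1) + 1) ^ Module.finrank ℝ V * C) ^ (1 / 2 : ℝ) := ⟨_, rfl⟩
  rw [← hD0] at hD
  have hD00 : 0 ≤ D0 := by
    rw [hD0]
    positivity
  refine ⟨max A1 0 * (max A2 0 * D0 ^ p), fun ρ ι ι' s v H π u hρ _ hR hG => ?_⟩
  have hcont : ∀ i, ∀ J ∈ (s i).image (π i), Continuous (gsum (s i) (π i) (H i) J) := fun i J _ =>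
    lev_gsum_cont _ _ _ (fun j hj => ((hR i).fs j hj).continuous) J
  have hD' : DecLe V p C (ρ / ρ) (ENNReal.ofReal D0) := by
    rw [div_self hρ.ne']
    exact hD
  calc mA p t E ρ⁻¹ (fun i => (s i).image (π i)) (fun i => gsum (s i) (π i) (H i))
      ≤ ENNReal.ofReal A1 * mA p p E ρ⁻¹ (fun i => (s i).image (π i)) (fun i => gsum (s i) (π i) (H i)) :=
        h1 ρ⁻¹ _ _ _ (inv_pos.2 hρ) hcont
    _ ≤ ENNReal.ofReal (max A1 0) * (ENNReal.ofReal (max A2 0) * (ENNReal.ofReal D0 ^ p * mD p s H)) := by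
        gcongr
        · exact le_max_left _ _
        · refine (h2 ρ⁻¹ _ _ _ (inv_pos.2 hρ) hcont).trans ?_
          gcongr
          · exact le_max_left _ _
          · exact mD_group hD' hp0 hC hρ hρ hR hG
    _ = _ := by
        rw [ENNReal.ofReal_rpow_of_nonneg hD00 hp0.le, ENNReal.ofReal_mul (le_max_right _ _), ENNReal.ofReal_mul (le_max_right _ _)]
        ring

theorem lev_main_aux_arith {κ p : ℝ} (h0 : 0 ≤ κ) (h1 : κ ≤ 1) (hp : 0 ≤ p) (a c c4 L el D : ℝ≥0∞) :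
    a * ((c * L ^ p * D) ^ κ * (c4 * (el ^ p * D)) ^ (1 - κ)) = (a * c ^ κ * c4 ^ (1 - κ)) * (L ^ κ * el ^ (1 - κ)) ^ p * D := by
  have h1' : 0 ≤ 1 - κ := by linarith
  have hD : D ^ κ * D ^ (1 - κ) = D := by
    rw [← ENNReal.rpow_add_of_nonneg _ _ h0 h1']
    simp
  rw [ENNReal.mul_rpow_of_nonneg _ _ h0, ENNReal.mul_rpow_of_nonneg _ _ h0, ENNReal.mul_rpow_of_nonneg _ _ h1', ENNReal.mul_rpow_of_nonneg _ _ h1',
    ENNReal.mul_rpow_of_nonneg _ _ hp, ← ENNReal.rpow_mul, ← ENNReal.rpow_mul, ← ENNReal.rpow_mul, ← ENNReal.rpow_mul, mul_comm p κ, mul_comm p (1 - κ)]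
  calc a * (c ^ κ * L ^ (κ * p) * D ^ κ * (c4 ^ (1 - κ) * (el ^ ((1 - κ) * p) * D ^ (1 - κ))))
      = a * c ^ κ * c4 ^ (1 - κ) * (L ^ (κ * p) * el ^ ((1 - κ) * p)) * (D ^ κ * D ^ (1 - κ)) := by ring
    _ = _ := by rw [hD]

theorem lev_main_aux_const {κ : ℝ} (h0 : 0 ≤ κ) (h1 : κ ≤ 1) {A1 B A4 r1 r2 r : ℝ} (hA1 : 0 ≤ A1) (hB : 0 ≤ B) (hA4 : 0 ≤ A4) (hr1 : 0 ≤ r1) (hr2 : 1 ≤ r2)
    (hr : r1 * r2 ≤ r) :
    ENNReal.ofReal (A1 * r1) * ENNReal.ofReal (B * r2) ^ κ * ENNReal.ofReal A4 ^ (1 - κ) ≤ ENNReal.ofReal (A1 * B ^ κ * A4 ^ (1 - κ) * r) := by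
  have h1' : 0 ≤ 1 - κ := by linarith
  have hr20 : 0 ≤ r2 := by linarith
  rw [ENNReal.ofReal_rpow_of_nonneg (by positivity) h0, ENNReal.ofReal_rpow_of_nonneg hA4 h1', ← ENNReal.ofReal_mul (by positivity),
    ← ENNReal.ofReal_mul (by positivity)]
  refine ENNReal.ofReal_le_ofReal ?_
  rw [Real.mul_rpow hB hr20]
  have h2 : r2 ^ κ ≤ r2 := by
    calc r2 ^ κ ≤ r2 ^ (1 : ℝ) := Real.rpow_le_rpow_of_exponent_le hr2 h1
      _ = r2 := Real.rpow_one _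
  have hBk : 0 ≤ B ^ κ := Real.rpow_nonneg hB _
  have hA4k : 0 ≤ A4 ^ (1 - κ) := Real.rpow_nonneg hA4 _
  calc A1 * r1 * (B ^ κ * r2 ^ κ) * A4 ^ (1 - κ) = (A1 * B ^ κ * A4 ^ (1 - κ)) * (r1 * r2 ^ κ) := by ring
    _ ≤ (A1 * B ^ κ * A4 ^ (1 - κ)) * r := by
        refine mul_le_mul_of_nonneg_left ?_ (by positivity)
        exact le_trans (mul_le_mul_of_nonneg_left h2 hr1) hr

open scoped Classical in
theorem lev_main_aux_regroup (p t E R : ℝ) {ι ι' ι'' : Type} (s : Fin (dd V) → Finset ι) (π : Fin (dd V) → ι → ι') (q : Fin (dd V) → ι' → ι'')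
    (H : Fin (dd V) → ι → V × ℝ → ℂ) :
    mA p t E R (fun i => ((s i).image (π i)).image (q i)) (fun i => gsum ((s i).image (π i)) (q i) (gsum (s i) (π i) (H i)))
      = mA p t E R (fun i => (s i).image (fun θ => q i (π i θ))) (fun i => gsum (s i) (fun θ => q i (π i θ)) (H i)) := by
  have e1 : (fun i => ((s i).image (π i)).image (q i)) = fun i => (s i).image (fun θ => q i (π i θ)) := by
    funext i
    rw [Finset.image_image]
    rfl
  have e2 : (fun i => gsum ((s i).image (π i)) (q i) (gsum (s i) (π i) (H i))) = fun i => gsum (s i) (fun θ => q i (π i θ)) (H i) := by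
    funext i J
    exact gsum_gsum (s i) (π i) (q i) (H i) J
  rw [e1, e2]

theorem lev_main_aux_levE (l : ℕ) : levE V (l + 1) = levE V l + (2 * dd V + 1) := by
  unfold levE
  push_cast
  ring

theorem lev_main_aux_levE_ge (l : ℕ) : (dd V : ℝ) + 1 ≤ levE V l := by
  unfold levE
  have : (0 : ℝ) ≤ l * (2 * dd V + 1) := by positivity
  linarith

open scoped Classical in
/-- **the levels** (induction on `l`; base `lev_zero`; step in the header; `ε` is halved at every step; `σ'^(-ε) ≤ ρ^(-ε)`). -/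
theorem lev_main (hk : 1 ≤ Module.finrank ℝ V) {p t κ : ℝ} (hp : 2 ≤ p) (ht : 2 ≤ t) (htp : t ≤ p) (h0 : 0 ≤ κ) (h1 : κ ≤ 1) (h : 1 / t = κ / 2 + (1 - κ) / p)
    (hpt : p * Module.finrank ℝ V ≤ dd V * t) (l : ℕ) (C ν Cg E ε : ℝ) (hC : 1 ≤ C) (hν : 0 < ν) (hCg : 0 ≤ Cg) (hE : levE V l ≤ E) (hε : 0 < ε) :
    ∃ X : ℝ, ∀ (ρ : ℝ) (e : ℕ → ℝ≥0∞) (ι ι' : Type) (s : Fin (dd V) → Finset ι) (v : Fin (dd V) → ι → V) (H : Fin (dd V) → ι → V × ℝ → ℂ)
      (π : Fin (dd V) → ι → ι') (u : Fin (dd V) → ι' → V), 0 < ρ → ρ ≤ 1 →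
      (∀ j, 1 ≤ j → j ≤ l → DecLe V p C (ρ / ρ ^ ((1 / 2 : ℝ) ^ j)) (e j)) → MRob C ν ρ s v H →
      (∀ i, Grp Cg (ρ ^ ((1 / 2 : ℝ) ^ l)) (s i) (v i) (π i) (u i)) →
      mA p t E (ρ ^ ((1 / 2 : ℝ) ^ l))⁻¹ (fun i => (s i).image (π i)) (fun i => gsum (s i) (π i) (H i)) ≤
        ENNReal.ofReal (X * ρ ^ (-ε)) * levB κ e l ^ p * mD p s H := by
  induction l generalizing Cg E ε with
  | zero =>
    have hEd : (dd V : ℝ) < E := by
      have := lev_main_aux_levE_ge (V := V) 0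
      linarith
    obtain ⟨X, hX⟩ := lev_zero (V := V) p t C Cg E hp (by linarith) htp hC hEd
    refine ⟨max X 0, ?_⟩
    intro ρ e ι ι' s v H π u hρ hρ1 _ hM hg
    have e0 : ρ ^ ((1 / 2 : ℝ) ^ 0) = ρ := by rw [pow_zero, Real.rpow_one]
    rw [e0] at hg ⊢
    refine (hX ρ ι ι' s v H π u hρ hρ1 hM.rob hg).trans ?_
    have hr : 1 ≤ ρ ^ (-ε) := Real.one_le_rpow_of_pos_of_le_one_of_nonpos hρ hρ1 (by linarith)
    have hle : X ≤ max X 0 * ρ ^ (-ε) := by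
      calc X ≤ max X 0 := le_max_left _ _
        _ = max X 0 * 1 := (mul_one _).symm
        _ ≤ max X 0 * ρ ^ (-ε) := mul_le_mul_of_nonneg_left hr (le_max_right _ _)
    have hB : levB κ e 0 = 1 := rfl
    rw [hB, ENNReal.one_rpow, mul_one]
    exact mul_le_mul_left (ENNReal.ofReal_le_ofReal hle) _
  | succ l ih =>
    obtain ⟨E0, hE0⟩ : ∃ E0 : ℝ, E0 = E - (2 * dd V + 1) := ⟨_, rfl⟩
    have hEE : E = E0 + 2 * dd V + 1 := by rw [hE0]; ring
    have hE0l : levE V l ≤ E0 := by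
      rw [lev_main_aux_levE] at hE
      linarith
    have hE0d : (dd V : ℝ) < E0 := by
      have := lev_main_aux_levE_ge (V := V) l
      linarith
    have hE00 : 0 ≤ E0 := le_trans (by positivity) hE0d.le
    have hp0 : 0 < p := by linarith
    have hC0 : 0 ≤ C := by linarith
    obtain ⟨C1, hC1⟩ : ∃ C1 : ℝ, C1 = max (C + 1) Cg := ⟨_, rfl⟩
    obtain ⟨Cg2, hCg2⟩ : ∃ Cg2 : ℝ, Cg2 = (21 : ℝ) ^ Module.finrank ℝ V * Cg := ⟨_, rfl⟩
    obtain ⟨C2, hC2⟩ : ∃ C2 : ℝ, C2 = max (C + 1) Cg2 := ⟨_, rfl⟩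
    have hC10 : 0 ≤ C1 := by rw [hC1]; exact le_trans (by linarith) (le_max_left _ _)
    have hC20 : 0 ≤ C2 := by rw [hC2]; exact le_trans (by linarith) (le_max_left _ _)
    have hCg20 : 0 ≤ Cg2 := by rw [hCg2]; positivity
    obtain ⟨A1, hA1⟩ := infl (V := V) hk C1 ν E0 t p (ε / 2) hC10 hν hE0d ht hp0 hpt (by linarith)
    obtain ⟨A2, hA2⟩ := mA_orth (V := V) p C2 E0 hp0 hC20 hE00
    obtain ⟨A3, hA3⟩ := mA_mono_t (V := V) p 2 t E0 hp0 (by norm_num) ht hE0d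
    obtain ⟨X0, hX0⟩ := ih Cg2 E0 (ε / 2) hCg20 hE0l (by linarith)
    obtain ⟨A4, hA4⟩ := mA_le_mD (V := V) p E0 hp hE0d
    refine ⟨max A1 0 * (max A2 0 * max A3 0 * max X0 0) ^ κ * max A4 0 ^ (1 - κ), ?_⟩
    intro ρ e ι ι' s v H π u hρ hρ1 hdec hM hg
    obtain ⟨σ', hσ'⟩ : ∃ σ' : ℝ, σ' = ρ ^ ((1 / 2 : ℝ) ^ (l + 1)) := ⟨_, rfl⟩
    obtain ⟨σ, hσ⟩ : ∃ σ : ℝ, σ = ρ ^ ((1 / 2 : ℝ) ^ l) := ⟨_, rfl⟩
    rw [← hσ'] at hg ⊢
    have hσ'0 : 0 < σ' := by rw [hσ']; exact Real.rpow_pos_of_pos hρ _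
    have hσ0 : 0 < σ := by rw [hσ]; exact Real.rpow_pos_of_pos hρ _
    have hσσ : σ' ^ 2 = σ := by
      rw [hσ', hσ, ← Real.rpow_natCast, ← Real.rpow_mul hρ.le]
      congr 1
      rw [pow_succ]
      push_cast
      ring
    have hb1 : ((1 / 2 : ℝ) ^ (l + 1)) ≤ 1 := pow_le_one₀ (by norm_num) (by norm_num)
    have hσ'1 : σ' ≤ 1 := by rw [hσ']; exact Real.rpow_le_one hρ.le hρ1 (by positivity)
    have hρσ' : ρ ≤ σ' := by
      rw [hσ']
      calc ρ = ρ ^ (1 : ℝ) := (Real.rpow_one _).symm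
        _ ≤ _ := Real.rpow_le_rpow_of_exponent_ge hρ hρ1 hb1
    have hσσ' : σ ≤ σ' := by rw [← hσσ]; nlinarith
    have hρσ : ρ ≤ σ := by
      rw [hσ]
      calc ρ = ρ ^ (1 : ℝ) := (Real.rpow_one _).symm
        _ ≤ _ := Real.rpow_le_rpow_of_exponent_ge hρ hρ1 (pow_le_one₀ (by norm_num) (by norm_num))
    have hinv : σ'⁻¹ ^ 2 = σ⁻¹ := by rw [inv_pow, hσσ]
    -- the refined grouping
    have href := fun i => (hg i).refine hσ0 hσσ' hCg
    choose π0 hπ0 using href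
    rw [← hCg2] at hπ0
    -- robustness of the two grouped families
    have hM1 := hM.group hg hρ hρσ' hC0
    rw [← hC1] at hM1
    have hR2 := fun i => (hM.rob i).group (hπ0 i) hρ hρσ hC0
    rw [← hC2] at hR2
    have hc1 := fun i j hj => ((hM1.rob i).fs j hj).continuous
    have hc2 := fun i j hj => ((hR2 i).fs j hj).continuous
    -- the chain
    have s1 := hA1 σ' ι' _ _ _ hσ'0 hσ'1 hM1
    rw [hinv, ← hEE] at s1
    have s2 := mA_holder (V := V) (E := E0) (R := σ⁻¹) hp0 (by linarith : 0 < t) h0 h1 h _ _ hc1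
    have s3 := hA2 σ (ι' × ι) ι' _ _ _ (fun _ => Prod.fst) hσ0 hR2
    rw [lev_main_aux_regroup] at s3
    have s4 := hA3 σ⁻¹ (ι' × ι) _ _ (inv_pos.2 hσ0) hc2
    have s5 := hX0 ρ e ι (ι' × ι) s v H (fun i θ => (π i θ, π0 i θ)) (fun i J => v i J.2) hρ hρ1
      (fun j hj1 hj2 => hdec j hj1 (by omega)) hM (by rw [← hσ]; exact hπ0)
    rw [← hσ] at s5
    have s6 := hA4 σ⁻¹ ι' _ _ (inv_pos.2 hσ0) hc1
    have s7 := mD_group (hdec (l + 1) (by omega) le_rfl) hp0 hC hρ (by rw [← hσ']; exact hσ'0) hM.rob (by rw [← hσ']; exact hg)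
    -- the powers of `ρ`
    have hr1 : 0 ≤ σ' ^ (-(ε / 2)) := (Real.rpow_pos_of_pos hσ'0 _).le
    have hr2 : 1 ≤ ρ ^ (-(ε / 2)) := Real.one_le_rpow_of_pos_of_le_one_of_nonpos hρ hρ1 (by linarith)
    have hr12 : σ' ^ (-(ε / 2)) * ρ ^ (-(ε / 2)) ≤ ρ ^ (-ε) := by
      have h3 : σ' ^ (-(ε / 2)) ≤ ρ ^ (-(ε / 2)) := Real.rpow_le_rpow_of_nonpos hρ hρσ' (by linarith)
      calc σ' ^ (-(ε / 2)) * ρ ^ (-(ε / 2)) ≤ ρ ^ (-(ε / 2)) * ρ ^ (-(ε / 2)) := mul_le_mul_of_nonneg_right h3 (by linarith)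
        _ = ρ ^ (-ε) := by
          rw [← Real.rpow_add hρ]
          congr 1
          ring
    have m1 : (0 : ℝ) ≤ max A1 0 := le_max_right _ _
    have m2 : (0 : ℝ) ≤ max A2 0 := le_max_right _ _
    have m3 : (0 : ℝ) ≤ max A3 0 := le_max_right _ _
    have m4 : (0 : ℝ) ≤ max A4 0 := le_max_right _ _
    have m5 : (0 : ℝ) ≤ max X0 0 := le_max_right _ _
    have t2 : mA p 2 E0 σ⁻¹ (fun i => (s i).image (π i)) (fun i => gsum (s i) (π i) (H i)) ≤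
        ENNReal.ofReal (max A2 0 * max A3 0 * max X0 0 * ρ ^ (-(ε / 2))) * levB κ e l ^ p * mD p s H := by
      refine le_trans s3 ?_
      refine le_trans (mul_le_mul' (ENNReal.ofReal_le_ofReal (le_max_left A2 0)) (s4.trans
        (mul_le_mul' (ENNReal.ofReal_le_ofReal (le_max_left A3 0)) s5))) ?_
      have h4 : ENNReal.ofReal (X0 * ρ ^ (-(ε / 2))) ≤ ENNReal.ofReal (max X0 0 * ρ ^ (-(ε / 2))) :=
        ENNReal.ofReal_le_ofReal (mul_le_mul_of_nonneg_right (le_max_left _ _) (by linarith))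
      have e5 : ENNReal.ofReal (max A2 0 * max A3 0 * max X0 0 * ρ ^ (-(ε / 2)))
          = ENNReal.ofReal (max A2 0) * (ENNReal.ofReal (max A3 0) * ENNReal.ofReal (max X0 0 * ρ ^ (-(ε / 2)))) := by
        rw [← ENNReal.ofReal_mul m3, ← ENNReal.ofReal_mul m2]
        congr 1
        ring
      rw [e5]
      calc ENNReal.ofReal (max A2 0) * (ENNReal.ofReal (max A3 0) * (ENNReal.ofReal (X0 * ρ ^ (-(ε / 2))) * levB κ e l ^ p * mD p s H))
          ≤ ENNReal.ofReal (max A2 0) * (ENNReal.ofReal (max A3 0) * (ENNReal.ofReal (max X0 0 * ρ ^ (-(ε / 2))) * levB κ e l ^ p * mD p s H)) := by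
            gcongr
        _ = _ := by ring
    have tp : mA p p E0 σ⁻¹ (fun i => (s i).image (π i)) (fun i => gsum (s i) (π i) (H i)) ≤
        ENNReal.ofReal (max A4 0) * (e (l + 1) ^ p * mD p s H) :=
      s6.trans (mul_le_mul' (ENNReal.ofReal_le_ofReal (le_max_left _ _)) s7)
    have hlev : levB κ e (l + 1) = levB κ e l ^ κ * e (l + 1) ^ (1 - κ) := rfl
    calc mA p t E σ'⁻¹ (fun i => (s i).image (π i)) (fun i => gsum (s i) (π i) (H i))
        ≤ ENNReal.ofReal (max A1 0 * σ' ^ (-(ε / 2))) *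
            ((ENNReal.ofReal (max A2 0 * max A3 0 * max X0 0 * ρ ^ (-(ε / 2))) * levB κ e l ^ p * mD p s H) ^ κ *
              (ENNReal.ofReal (max A4 0) * (e (l + 1) ^ p * mD p s H)) ^ (1 - κ)) := by
          refine s1.trans (mul_le_mul' (ENNReal.ofReal_le_ofReal (mul_le_mul_of_nonneg_right (le_max_left _ _) hr1)) (s2.trans ?_))
          exact mul_le_mul' (ENNReal.rpow_le_rpow t2 h0) (ENNReal.rpow_le_rpow tp (by linarith))
      _ = (ENNReal.ofReal (max A1 0 * σ' ^ (-(ε / 2))) * ENNReal.ofReal (max A2 0 * max A3 0 * max X0 0 * ρ ^ (-(ε / 2))) ^ κ *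
            ENNReal.ofReal (max A4 0) ^ (1 - κ)) * (levB κ e l ^ κ * e (l + 1) ^ (1 - κ)) ^ p * mD p s H :=
          lev_main_aux_arith h0 h1 hp0.le _ _ _ _ _ _
      _ ≤ _ := by
          rw [hlev]
          refine mul_le_mul' (mul_le_mul' ?_ le_rfl) le_rfl
          exact lev_main_aux_const h0 h1 m1 (by positivity) m4 hr1 hr2 hr12

/-- Tonelli: averaging over balls. -/
theorem bdlv_ball_avg {f : V × ℝ → ℝ≥0∞} (hf : Measurable f) (r : ℝ) (m : ℝ≥0∞)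
    (hm : ∀ z : V × ℝ, volume (closedBall z r) = m) :
    ∫⁻ z, ∫⁻ z' in closedBall z r, f z' = m * ∫⁻ z', f z' := by
  have hhaar := bdlc_haar (V := V)
  have h1 : ∀ z : V × ℝ, ∫⁻ z' in closedBall z r, f z' = ∫⁻ z', (closedBall z r).indicator f z' := fun z =>
    (lintegral_indicator measurableSet_closedBall f).symm
  simp only [h1]
  rw [lintegral_lintegral_swap]
  · rw [← lintegral_const_mul _ hf]
    refine lintegral_congr fun z' => ?_
    have h2 : ∀ z : V × ℝ, (closedBall z r).indicator f z' = (closedBall z' r).indicator (fun _ => f z') z := by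
      intro z
      by_cases h : z' ∈ closedBall z r
      · have h' : z ∈ closedBall z' r := by rw [mem_closedBall] at h ⊢; rwa [dist_comm]
        rw [indicator_of_mem h, indicator_of_mem h']
      · have h' : z ∉ closedBall z' r := by rw [mem_closedBall] at h ⊢; rwa [dist_comm]
        rw [indicator_of_notMem h, indicator_of_notMem h']
    simp only [h2]
    rw [lintegral_indicator measurableSet_closedBall, setLIntegral_const, hm, mul_comm]
  · refine Measurable.aemeasurable ?_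
    have hs : MeasurableSet {q : (V × ℝ) × (V × ℝ) | dist q.2 q.1 ≤ r} :=
      (isClosed_le (continuous_snd.dist continuous_fst) continuous_const).measurableSet
    have : (Function.uncurry fun z z' => (closedBall z r).indicator f z') =
        {q : (V × ℝ) × (V × ℝ) | dist q.2 q.1 ≤ r}.indicator (fun q => f q.2) := by
      funext q
      rfl
    rw [this]
    exact (hf.comp measurable_snd).indicator hs

/-- change of the radius in the multilinear quantity: `∫ ∏ f_i^(1/d) = c⁻¹ r^(-d) ∫ dz ∫_{|z'-z| ≤ r} ∏ f_i(z')^(1/d) dz'`, `abs_holder_prod` on the ball, `exists_avp_avg`. -/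
theorem start_radius (p E : ℝ) (hE : (dd V : ℝ) < E) :
    ∃ A : ℝ, ∀ (R₀ r : ℝ) (G : Fin (dd V) → V × ℝ → ℂ), 0 < R₀ → R₀ ≤ r → (∀ i, Continuous (G i)) →
      ∫⁻ z, ∏ i, avp p E R₀ (G i) z ^ (1 / (dd V : ℝ)) ≤ ENNReal.ofReal A * ∫⁻ z, ∏ i, avp p E r (G i) z ^ (1 / (dd V : ℝ)) := by
  obtain ⟨A', hA'⟩ := exists_avp_avg (V := V) hE
  obtain ⟨c, hc0, hc⟩ := exists_volume_closedBall (V := V)
  set B := max A' 0 with hB
  have hB0 : 0 ≤ B := le_max_right _ _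
  have hd : 0 < dd V := by unfold dd; omega
  have hdR : (0 : ℝ) < (dd V : ℝ) := by exact_mod_cast hd
  refine ⟨B / c, fun R₀ r G hR₀ hr hG => ?_⟩
  have hr0 : 0 < r := lt_of_lt_of_le hR₀ hr
  have hrd : 0 < r ^ (dd V : ℝ) := by positivity
  set f : V × ℝ → ℝ≥0∞ := fun z => ∏ i, avp p E R₀ (G i) z ^ (1 / (dd V : ℝ)) with hf
  have hfm : Measurable f :=
    Finset.measurable_prod _ fun i _ => (measurable_avp p E R₀ (hG i)).pow_const _
  have h1 := bdlv_ball_avg hfm r (ENNReal.ofReal (c * r ^ (dd V : ℝ))) (fun z => hc z r hr0)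
  have h2 : ∀ z, ∫⁻ z' in closedBall z r, f z' ≤
      ENNReal.ofReal (r ^ (dd V : ℝ) * B) * ∏ i, avp p E r (G i) z ^ (1 / (dd V : ℝ)) := by
    intro z
    refine (abs_holder_prod hd (fun i z' => avp p E R₀ (G i) z')
      (fun i => (measurable_avp p E R₀ (hG i)).aemeasurable)).trans ?_
    have h3 : ∀ i, ∫⁻ z' in closedBall z r, avp p E R₀ (G i) z' ≤
        ENNReal.ofReal (r ^ (dd V : ℝ) * B) * avp p E r (G i) z := by
      intro i
      have h4 := hA' p R₀ r (G i) z hR₀ hr (hG i)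
      have h5 := mul_le_mul_right h4 (ENNReal.ofReal (r ^ (dd V : ℝ)))
      rw [← mul_assoc, ← ENNReal.ofReal_mul hrd.le, ← Real.rpow_add hr0, add_neg_cancel, Real.rpow_zero,
        ENNReal.ofReal_one, one_mul, ← mul_assoc, ← ENNReal.ofReal_mul hrd.le] at h5
      refine h5.trans (mul_le_mul_left (ENNReal.ofReal_le_ofReal ?_) _)
      exact mul_le_mul_of_nonneg_left (le_max_left _ _) hrd.le
    calc ∏ i, (∫⁻ z' in closedBall z r, avp p E R₀ (G i) z') ^ (1 / (dd V : ℝ))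
        ≤ ∏ i, (ENNReal.ofReal (r ^ (dd V : ℝ) * B) * avp p E r (G i) z) ^ (1 / (dd V : ℝ)) :=
          Finset.prod_le_prod' fun i _ => ENNReal.rpow_le_rpow (h3 i) (by positivity)
      _ = _ := by
          simp only [ENNReal.mul_rpow_of_nonneg _ _ (show (0 : ℝ) ≤ 1 / (dd V : ℝ) by positivity)]
          rw [Finset.prod_mul_distrib, Finset.prod_const, Finset.card_univ, Fintype.card_fin,
            ← ENNReal.rpow_natCast, ← ENNReal.rpow_mul, one_div_mul_cancel hdR.ne', ENNReal.rpow_one]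
  have h6 : ENNReal.ofReal (c * r ^ (dd V : ℝ)) * ∫⁻ z', f z' ≤
      ENNReal.ofReal (r ^ (dd V : ℝ) * B) * ∫⁻ z, ∏ i, avp p E r (G i) z ^ (1 / (dd V : ℝ)) := by
    rw [← h1, ← lintegral_const_mul' _ _ ENNReal.ofReal_ne_top]
    exact lintegral_mono h2
  have hcr : 0 < c * r ^ (dd V : ℝ) := by positivity
  have h7 := mul_le_mul_right h6 (ENNReal.ofReal ((c * r ^ (dd V : ℝ))⁻¹))
  rw [← mul_assoc, ← ENNReal.ofReal_mul (by positivity), inv_mul_cancel₀ hcr.ne', ENNReal.ofReal_one, one_mul,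
    ← mul_assoc, ← ENNReal.ofReal_mul (by positivity)] at h7
  refine h7.trans (le_of_eq ?_)
  congr 2
  field_simp

/-- `avp` as the integral of a `p`-th power. -/
theorem bdlv_avp_eq {p : ℝ} (hp : 0 < p) (E R : ℝ) (G : V × ℝ → ℂ) (z : V × ℝ) :
    avp p E R G z = ∫⁻ y, (‖G y‖ₑ * (ENNReal.ofReal (R ^ (-(dd V : ℝ))) * wt E R (y - z)) ^ (1 / p)) ^ p := by
  unfold avp
  rw [← lintegral_const_mul' _ _ ENNReal.ofReal_ne_top]
  refine lintegral_congr fun y => ?_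
  rw [ENNReal.mul_rpow_of_nonneg _ _ hp.le, ← ENNReal.rpow_mul, one_div_mul_cancel hp.ne', ENNReal.rpow_one]
  ring

/-- Minkowski for the local averages. -/
theorem bdlv_avp_sum_le {p : ℝ} (hp : 1 ≤ p) (E R : ℝ) {ι : Type} (s : Finset ι) (F : ι → V × ℝ → ℂ)
    (hF : ∀ j ∈ s, Continuous (F j)) (z : V × ℝ) :
    avp p E R (fun y => ∑ j ∈ s, F j y) z ^ (1 / p) ≤ ∑ j ∈ s, avp p E R (F j) z ^ (1 / p) := by
  have hp0 : 0 < p := by linarith
  simp only [bdlv_avp_eq hp0]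
  refine le_trans (ENNReal.rpow_le_rpow (lintegral_mono fun y => ?_) (by positivity))
    (abs_minkowski hp s (fun j y => ‖F j y‖ₑ * (ENNReal.ofReal (R ^ (-(dd V : ℝ))) * wt E R (y - z)) ^ (1 / p))
      (fun j hj => ?_))
  · refine ENNReal.rpow_le_rpow ?_ hp0.le
    rw [← Finset.sum_mul]
    exact mul_le_mul_left (enorm_sum_le _ _) _
  · refine Measurable.aemeasurable ?_
    refine (hF j hj).enorm.measurable.mul (Measurable.pow_const ?_ _)
    exact ((measurable_wt E R).comp (measurable_id.sub_const z)).const_mul _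

/-- triangle inequality + Cauchy-Schwarz + Bernstein for one robust family at scale `σ`, radius `σ⁻¹` (`abs_minkowski` for the measure `wt`, `abs_cs`, `Rob.card_le`, `cap_subset_ball`, `bernstein`). -/
theorem start_point (p t C E : ℝ) (ht : 1 ≤ t) (htp : t ≤ p) (hC : 0 ≤ C) (hE : 0 ≤ E) :
    ∃ A : ℝ, ∀ (σ : ℝ) (ι : Type) (s : Finset ι) (u : ι → V) (F : ι → V × ℝ → ℂ) (z : V × ℝ), 0 < σ → σ ≤ 1 → Rob C σ s u F →
      avp p E σ⁻¹ (fun y => ∑ j ∈ s, F j y) z ≤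
        ENNReal.ofReal (A * σ ^ (-(Module.finrank ℝ V : ℝ) * p / 2)) * (∑ j ∈ s, avp t (E * t / p) σ⁻¹ (F j) z ^ (2 / t)) ^ (p / 2) := by
  have ht0 : 0 < t := by linarith
  have hp0 : 0 < p := by linarith
  have hp1 : 1 ≤ p := by linarith
  obtain ⟨AB, hAB⟩ := bernstein (V := V) (2 * C + 3 * C ^ 2) E t p ht htp hE
  set B := max AB 0 with hB
  have hB0 : 0 ≤ B := le_max_right _ _
  set k := Module.finrank ℝ V with hk
  refine ⟨B ^ p * ((2 * C + 1) ^ k * C) ^ (p / 2), fun σ ι s u F z hσ hσ1 hR => ?_⟩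
  have hR0 : 0 < σ⁻¹ := inv_pos.2 hσ
  have hcont : ∀ j ∈ s, Continuous (F j) := fun j hj => (hR.fs j hj).continuous
  have ha := bdlv_avp_sum_le hp1 E σ⁻¹ s F hcont z
  have hb : ∀ j ∈ s, avp p E σ⁻¹ (F j) z ^ (1 / p) ≤
      ENNReal.ofReal B * avp t (E * t / p) σ⁻¹ (F j) z ^ (1 / t) := by
    intro j hj
    refine (hAB σ⁻¹ (u j, ‖u j‖ ^ 2) (F j) hR0 ((hR.fs j hj).mono ?_) z).trans
      (mul_le_mul_left (ENNReal.ofReal_le_ofReal (le_max_left _ _)) _)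
    refine (cap_subset_ball (u j) (by positivity) (by positivity)).trans (closedBall_subset_closedBall ?_)
    rw [div_inv_eq_mul]
    have hv := hR.bdd j hj
    have hv0 := norm_nonneg (u j)
    have h1 : σ ^ 2 ≤ σ := by nlinarith
    have h2 : C * σ ^ 2 ≤ C * σ := mul_le_mul_of_nonneg_left h1 hC
    have h3 : C * σ * (2 * ‖u j‖ + C * σ) ≤ C * σ * (2 * C + C) := by
      refine mul_le_mul_of_nonneg_left ?_ (by positivity)
      have : C * σ ≤ C := by nlinarith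
      linarith
    nlinarith
  have hc := abs_cs s (fun j => avp t (E * t / p) σ⁻¹ (F j) z ^ (1 / t))
  have hsq : ∀ j, (avp t (E * t / p) σ⁻¹ (F j) z ^ (1 / t)) ^ (2 : ℝ) = avp t (E * t / p) σ⁻¹ (F j) z ^ (2 / t) := fun j => by
    rw [← ENNReal.rpow_mul]; congr 1; ring
  simp only [hsq] at hc
  set S := ∑ j ∈ s, avp t (E * t / p) σ⁻¹ (F j) z ^ (2 / t) with hS
  have hcard : (s.card : ℝ≥0∞) ≤ ENNReal.ofReal ((2 * C + 1) ^ k * C * σ ^ (-(k : ℝ))) := by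
    rw [← ENNReal.ofReal_natCast]
    refine ENNReal.ofReal_le_ofReal ((hR.card_le hσ hC).trans ?_)
    have e : σ ^ (-(k : ℝ)) = (1 / σ) ^ k := by
      rw [Real.rpow_neg hσ.le, Real.rpow_natCast, one_div, inv_pow]
    rw [e, mul_right_comm, ← mul_pow]
    refine mul_le_mul_of_nonneg_right (pow_le_pow_left₀ (by positivity) ?_ _) hC
    have : 1 ≤ 1 / σ := by rw [le_div_iff₀ hσ]; linarith
    calc 2 * (C / σ) + 1 ≤ 2 * (C / σ) + 1 / σ := by linarith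
      _ = (2 * C + 1) * (1 / σ) := by ring
  have hmain : avp p E σ⁻¹ (fun y => ∑ j ∈ s, F j y) z ^ (1 / p) ≤
      ENNReal.ofReal B * ((s.card : ℝ≥0∞) ^ (1 / 2 : ℝ) * S ^ (1 / 2 : ℝ)) := by
    refine ha.trans ((Finset.sum_le_sum hb).trans ?_)
    rw [← Finset.mul_sum]
    exact mul_le_mul_right hc _
  have hfin := ENNReal.rpow_le_rpow hmain hp0.le
  rw [← ENNReal.rpow_mul, one_div_mul_cancel hp0.ne', ENNReal.rpow_one] at hfin
  refine hfin.trans ?_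
  rw [ENNReal.mul_rpow_of_nonneg _ _ hp0.le, ENNReal.mul_rpow_of_nonneg _ _ hp0.le, ← ENNReal.rpow_mul,
    ← ENNReal.rpow_mul, ← mul_assoc]
  have e2 : (1 / 2 : ℝ) * p = p / 2 := by ring
  rw [e2]
  refine mul_le_mul_left ?_ _
  have hX0 : 0 ≤ (2 * C + 1) ^ k * C := by positivity
  calc ENNReal.ofReal B ^ p * (s.card : ℝ≥0∞) ^ (p / 2)
      ≤ ENNReal.ofReal B ^ p * (ENNReal.ofReal ((2 * C + 1) ^ k * C * σ ^ (-(k : ℝ)))) ^ (p / 2) :=
        mul_le_mul_right (ENNReal.rpow_le_rpow hcard (by positivity)) _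
    _ = ENNReal.ofReal (B ^ p * ((2 * C + 1) ^ k * C) ^ (p / 2) * σ ^ (-(k : ℝ) * p / 2)) := by
        rw [ENNReal.ofReal_rpow_of_nonneg hB0 hp0.le, ENNReal.ofReal_rpow_of_nonneg (by positivity) (by positivity),
          ← ENNReal.ofReal_mul (by positivity), Real.mul_rpow hX0 (by positivity), ← Real.rpow_mul hσ.le,
          mul_assoc]
        have e3 : -(k : ℝ) * (p / 2) = -(k : ℝ) * p / 2 := by ring
        rw [e3]

open scoped Classical in
/-- **(I6) start**: `start_radius`, `sum_gsum`, `Rob.group`, `start_point`. -/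
theorem lev_start (p t C Cg E : ℝ) (ht : 1 ≤ t) (htp : t ≤ p) (hC : 0 ≤ C) (hCg : 0 ≤ Cg) (hE : (dd V : ℝ) < E) :
    ∃ X : ℝ, ∀ (ρ σ R₀ : ℝ) (ι ι' : Type) (s : Fin (dd V) → Finset ι) (v : Fin (dd V) → ι → V) (H : Fin (dd V) → ι → V × ℝ → ℂ)
      (π : Fin (dd V) → ι → ι') (u : Fin (dd V) → ι' → V), 0 < ρ → ρ ≤ σ → σ ≤ 1 → 0 < R₀ → R₀ ≤ σ⁻¹ → (∀ i, Rob C ρ (s i) (v i) (H i)) →
      (∀ i, Grp Cg σ (s i) (v i) (π i) (u i)) →
      ∫⁻ z, ∏ i, avp p (E * p / t) R₀ (fun y => ∑ j ∈ s i, H i j y) z ^ (1 / (dd V : ℝ)) ≤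
        ENNReal.ofReal (X * σ ^ (-(Module.finrank ℝ V : ℝ) * p / 2)) *
          mA p t E σ⁻¹ (fun i => (s i).image (π i)) (fun i => gsum (s i) (π i) (H i)) := by
  have hd : (0 : ℝ) < dd V := by
    unfold dd
    positivity
  have ht0 : 0 < t := by linarith
  have hp0 : 0 < p := by linarith
  have hE0 : 0 < E := hd.trans hE
  have hE' : (dd V : ℝ) < E * p / t := by
    have : E ≤ E * p / t := by
      rw [le_div_iff₀ ht0]
      exact mul_le_mul_of_nonneg_left htp hE0.le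
    linarith
  obtain ⟨A₁, hA₁⟩ := start_radius (V := V) p (E * p / t) hE'
  obtain ⟨A₂, hA₂⟩ := start_point (V := V) p t (max (C + 1) Cg) (E * p / t) ht htp (le_max_of_le_right hCg) (by positivity)
  refine ⟨|A₁| * |A₂|, fun ρ σ R₀ ι ι' s v H π u hρ hρσ hσ1 hR₀ hR₀σ hrob hgrp => ?_⟩
  have hσ : 0 < σ := hρ.trans_le hρσ
  have hcont : ∀ i, Continuous fun y => ∑ j ∈ s i, H i j y := fun i =>
    continuous_finsetSum _ fun j hj => ((hrob i).fs j hj).continuous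
  refine (hA₁ R₀ σ⁻¹ (fun i y => ∑ j ∈ s i, H i j y) hR₀ hR₀σ hcont).trans ?_
  have hEe : E * p / t * t / p = E := by field_simp
  obtain ⟨c, hc⟩ : ∃ c : ℝ≥0∞, c = ENNReal.ofReal (A₂ * σ ^ (-(Module.finrank ℝ V : ℝ) * p / 2)) := ⟨_, rfl⟩
  have hctop : c ≠ ⊤ := by rw [hc]; exact ENNReal.ofReal_ne_top
  have hpt : ∀ z, ∏ i, avp p (E * p / t) σ⁻¹ (fun y => ∑ j ∈ s i, H i j y) z ^ (1 / (dd V : ℝ)) ≤
      c * ∏ i, (∑ J ∈ (s i).image (π i), avp t E σ⁻¹ (gsum (s i) (π i) (H i) J) z ^ (2 / t)) ^ (p / (2 * (dd V : ℝ))) := by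
    intro z
    have h1 : ∀ i, avp p (E * p / t) σ⁻¹ (fun y => ∑ j ∈ s i, H i j y) z ^ (1 / (dd V : ℝ)) ≤
        c ^ (1 / (dd V : ℝ)) * (∑ J ∈ (s i).image (π i), avp t E σ⁻¹ (gsum (s i) (π i) (H i) J) z ^ (2 / t)) ^ (p / (2 * (dd V : ℝ))) := by
      intro i
      have h2 := hA₂ σ ι' ((s i).image (π i)) (u i) (gsum (s i) (π i) (H i)) z hσ hσ1 ((hrob i).group (hgrp i) hρ hρσ hC)
      simp only [sum_gsum] at h2
      rw [hEe, ← hc] at h2
      refine (ENNReal.rpow_le_rpow h2 (by positivity)).trans (le_of_eq ?_)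
      rw [ENNReal.mul_rpow_of_nonneg _ _ (by positivity), ← ENNReal.rpow_mul]
      congr 2
      field_simp
    refine (Finset.prod_le_prod (fun _ _ => zero_le) fun i _ => h1 i).trans (le_of_eq ?_)
    rw [Finset.prod_mul_distrib, Finset.prod_const, Finset.card_univ, Fintype.card_fin, ← ENNReal.rpow_natCast, ← ENNReal.rpow_mul,
      one_div, inv_mul_cancel₀ hd.ne', ENNReal.rpow_one]
  have hint : ∫⁻ z, ∏ i, avp p (E * p / t) σ⁻¹ (fun y => ∑ j ∈ s i, H i j y) z ^ (1 / (dd V : ℝ)) ≤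
      c * mA p t E σ⁻¹ (fun i => (s i).image (π i)) (fun i => gsum (s i) (π i) (H i)) := by
    refine (lintegral_mono hpt).trans (le_of_eq ?_)
    rw [lintegral_const_mul' _ _ hctop]
    rfl
  have hσe : 0 ≤ σ ^ (-(Module.finrank ℝ V : ℝ) * p / 2) := Real.rpow_nonneg hσ.le _
  have hconst : ENNReal.ofReal A₁ * c ≤ ENNReal.ofReal (|A₁| * |A₂| * σ ^ (-(Module.finrank ℝ V : ℝ) * p / 2)) := by
    rw [mul_assoc, ENNReal.ofReal_mul (abs_nonneg _), hc]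
    exact mul_le_mul' (ENNReal.ofReal_le_ofReal (le_abs_self _))
      (ENNReal.ofReal_le_ofReal (mul_le_mul_of_nonneg_right (le_abs_self _) hσe))
  calc ENNReal.ofReal A₁ * ∫⁻ z, ∏ i, avp p (E * p / t) σ⁻¹ (fun y => ∑ j ∈ s i, H i j y) z ^ (1 / (dd V : ℝ))
      ≤ ENNReal.ofReal A₁ * (c * mA p t E σ⁻¹ (fun i => (s i).image (π i)) (fun i => gsum (s i) (π i) (H i))) := mul_le_mul' le_rfl hint
    _ = ENNReal.ofReal A₁ * c * mA p t E σ⁻¹ (fun i => (s i).image (π i)) (fun i => gsum (s i) (π i) (H i)) := (mul_assoc _ _ _).symm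
    _ ≤ _ := mul_le_mul' hconst le_rfl

/-- **U9, exit**: the multilinear constant at scale `ρ` in terms of the linear constants at the scales `ρ^(1 - 2^-j)`, `1 ≤ j ≤ l`  (`exists_grp` at scale `ρ^(2^-l)`, `lev_start`, `lev_main`). -/
theorem mdec_main (hk : 1 ≤ Module.finrank ℝ V) {p t κ : ℝ} (hp : 2 ≤ p) (ht : 2 ≤ t) (htp : t ≤ p) (h0 : 0 ≤ κ) (h1 : κ ≤ 1) (h : 1 / t = κ / 2 + (1 - κ) / p)
    (hpt : p * Module.finrank ℝ V ≤ dd V * t) (l : ℕ) (C ν ε : ℝ) (hC : 1 ≤ C) (hν : 0 < ν) (hε : 0 < ε) :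
    ∃ X : ℝ, ∀ (ρ R₀ : ℝ) (e : ℕ → ℝ≥0∞), 0 < ρ → ρ ≤ 1 → 0 < R₀ → R₀ ≤ (ρ ^ ((1 / 2 : ℝ) ^ l))⁻¹ →
      (∀ j, 1 ≤ j → j ≤ l → DecLe V p C (ρ / ρ ^ ((1 / 2 : ℝ) ^ j)) (e j)) →
      MDecLe V p C ν (levE V l * p / t) R₀ ρ
        (ENNReal.ofReal (X * ρ ^ (-(ε + (1 / 2 : ℝ) ^ l * (Module.finrank ℝ V : ℝ) * p / 2))) * levB κ e l ^ p) := by
  classical
  have hd : (0 : ℝ) < dd V := by
    unfold dd
    positivity
  have hE : (dd V : ℝ) < levE V l := by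
    unfold levE
    have : (0 : ℝ) ≤ l * (2 * dd V + 1) := by positivity
    linarith
  have hCg : (0 : ℝ) ≤ (3 : ℝ) ^ Module.finrank ℝ V := by positivity
  obtain ⟨X₁, hX₁⟩ := lev_start (V := V) p t C ((3 : ℝ) ^ Module.finrank ℝ V) (levE V l) (by linarith) htp (by linarith) hCg hE
  obtain ⟨X₂, hX₂⟩ := lev_main hk hp ht htp h0 h1 h hpt l C ν ((3 : ℝ) ^ Module.finrank ℝ V) (levE V l) ε hC hν hCg le_rfl hε
  refine ⟨|X₁| * |X₂|, fun ρ R₀ e hρ hρ1 hR₀ hR₀σ hdec ι s v H hM => ?_⟩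
  obtain ⟨σ, hσd⟩ : ∃ σ : ℝ, σ = ρ ^ ((1 / 2 : ℝ) ^ l) := ⟨_, rfl⟩
  rw [← hσd] at hR₀σ
  have ha0 : (0 : ℝ) < (1 / 2 : ℝ) ^ l := by positivity
  have ha1 : (1 / 2 : ℝ) ^ l ≤ 1 := pow_le_one₀ (by norm_num) (by norm_num)
  have hσ : 0 < σ := by rw [hσd]; exact Real.rpow_pos_of_pos hρ _
  have hσ1 : σ ≤ 1 := by rw [hσd]; exact Real.rpow_le_one hρ.le hρ1 ha0.le
  have hρσ : ρ ≤ σ := by
    rw [hσd]
    calc ρ = ρ ^ (1 : ℝ) := (Real.rpow_one ρ).symm
      _ ≤ ρ ^ ((1 / 2 : ℝ) ^ l) := Real.rpow_le_rpow_of_exponent_ge hρ hρ1 ha1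
  choose π hπ using fun i => exists_grp (s i) (v i) hσ
  have h1 := hX₁ ρ σ R₀ ι ι s v H π v hρ hρσ hσ1 hR₀ hR₀σ hM.rob hπ
  have h2 := hX₂ ρ e ι ι s v H π v hρ hρ1 hdec hM (by rw [← hσd]; exact hπ)
  rw [← hσd] at h2
  refine h1.trans ((mul_le_mul' le_rfl h2).trans (le_of_eq_of_le ?_ (mul_le_mul' (mul_le_mul' (?_ : ENNReal.ofReal (X₁ * σ ^ (-(Module.finrank ℝ V : ℝ) * p / 2)) * ENNReal.ofReal (X₂ * ρ ^ (-ε)) ≤ _) le_rfl) le_rfl)))
  · simp only [mul_assoc]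
  · have e1 : σ ^ (-(Module.finrank ℝ V : ℝ) * p / 2) * ρ ^ (-ε) = ρ ^ (-(ε + (1 / 2 : ℝ) ^ l * (Module.finrank ℝ V : ℝ) * p / 2)) := by
      rw [hσd, ← Real.rpow_mul hρ.le, ← Real.rpow_add hρ]
      congr 1
      ring
    have p1 : 0 ≤ σ ^ (-(Module.finrank ℝ V : ℝ) * p / 2) := Real.rpow_nonneg hσ.le _
    have p2 : 0 ≤ ρ ^ (-ε) := Real.rpow_nonneg hρ.le _
    have e2 : ENNReal.ofReal (|X₁| * |X₂| * ρ ^ (-(ε + (1 / 2 : ℝ) ^ l * (Module.finrank ℝ V : ℝ) * p / 2)))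
        = ENNReal.ofReal (|X₁| * σ ^ (-(Module.finrank ℝ V : ℝ) * p / 2)) * ENNReal.ofReal (|X₂| * ρ ^ (-ε)) := by
      rw [← ENNReal.ofReal_mul (mul_nonneg (abs_nonneg _) p1), ← e1]
      congr 1
      ring
    rw [e2]
    exact mul_le_mul' (ENNReal.ofReal_le_ofReal (mul_le_mul_of_nonneg_right (le_abs_self _) p1))
      (ENNReal.ofReal_le_ofReal (mul_le_mul_of_nonneg_right (le_abs_self _) p2))

end Claimed.Agent.BD
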