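import Claimed.Agent.Lib.BD.Fs

/-!
# Box BD, units U2 + U4: weights and counting   (architect helper266)

Every statement is a leaf.  `k = finrank V`, `d = dd V = k + 1`.  Norm on `V × ℝ` = sup norm.
-/

set_option autoImplicit false
open MeasureTheory Set Metric
open scoped ENNReal NNReal

namespace Claimed.Agent.BD

variable {V : Type} [NormedAddCommGroup V] [InnerProductSpace ℝ V] [FiniteDimensional ℝ V] [MeasurableSpace V] [BorelSpace V]

/-! ## weights -/

theorem measurable_wt (E R : ℝ) : Measurable (wt E R : V × ℝ → ℝ≥0∞) := by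
  unfold wt
  exact ENNReal.measurable_ofReal.comp (Measurable.pow_const (by fun_prop) _)

theorem wt_base_ge {R : ℝ} (hR : 0 < R) (y : V × ℝ) : 1 ≤ 1 + ‖y‖ / R := by
  have : 0 ≤ ‖y‖ / R := by positivity
  linarith

theorem wt_le_one {E R : ℝ} (hE : 0 ≤ E) (hR : 0 < R) (y : V × ℝ) : wt E R y ≤ 1 := by
  unfold wt
  rw [← ENNReal.ofReal_one]
  exact ENNReal.ofReal_le_ofReal (Real.rpow_le_one_of_one_le_of_nonpos (wt_base_ge hR y) (by linarith))

/-- Peetre: `1 + |y + y'|/R ≤ (1 + |y|/R)(1 + |y'|/R)`. -/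
theorem wt_peetre {E R : ℝ} (hE : 0 ≤ E) (hR : 0 < R) (y y' : V × ℝ) : wt E R y * wt E R y' ≤ wt E R (y + y') := by
  unfold wt
  have h1 := wt_base_ge hR y
  have h2 := wt_base_ge hR y'
  have h3 := wt_base_ge hR (y + y')
  rw [← ENNReal.ofReal_mul (by positivity), ← Real.mul_rpow (by linarith) (by linarith)]
  apply ENNReal.ofReal_le_ofReal
  apply Real.rpow_le_rpow_of_nonpos (by linarith) _ (by linarith)
  have h4 : ‖y + y'‖ / R ≤ ‖y‖ / R + ‖y'‖ / R := by
    rw [← add_div]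
    exact div_le_div_of_nonneg_right (norm_add_le _ _) hR.le
  have h5 : 0 ≤ ‖y‖ / R * (‖y'‖ / R) := by positivity
  nlinarith

theorem wt_mono_E {E E' R : ℝ} (h : E ≤ E') (hR : 0 < R) (y : V × ℝ) : wt E' R y ≤ wt E R y := by
  unfold wt
  exact ENNReal.ofReal_le_ofReal (Real.rpow_le_rpow_of_exponent_le (wt_base_ge hR y) (by linarith))

theorem wt_mono_R {E R R' : ℝ} (hE : 0 ≤ E) (hR : 0 < R) (h : R ≤ R') (y : V × ℝ) : wt E R y ≤ wt E R' y := by
  unfold wt
  apply ENNReal.ofReal_le_ofReal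
  apply Real.rpow_le_rpow_of_nonpos (by linarith [wt_base_ge (hR.trans_le h) y]) _ (by linarith)
  have : ‖y‖ / R' ≤ ‖y‖ / R := div_le_div_of_nonneg_left (norm_nonneg _) hR h
  linarith

theorem wt_mul {E E' R : ℝ} (hR : 0 < R) (y : V × ℝ) : wt E R y * wt E' R y = wt (E + E') R y := by
  unfold wt
  have h1 := wt_base_ge hR y
  rw [← ENNReal.ofReal_mul (by positivity), ← Real.rpow_add (by linarith)]
  congr 2
  ring

/-- lower bound on a ball. -/
theorem wt_ge_of_le {E R A : ℝ} (hE : 0 ≤ E) (hR : 0 < R) {y : V × ℝ} (h : ‖y‖ ≤ A * R) :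
    ENNReal.ofReal ((1 + A) ^ (-E)) ≤ wt E R y := by
  unfold wt
  apply ENNReal.ofReal_le_ofReal
  apply Real.rpow_le_rpow_of_nonpos (by linarith [wt_base_ge hR y]) _ (by linarith)
  have : ‖y‖ / R ≤ A := by rw [div_le_iff₀ hR]; exact h
  linarith

theorem wt_pos (E : ℝ) {R : ℝ} (hR : 0 < R) (y : V × ℝ) : 0 < wt E R y := by
  unfold wt
  exact ENNReal.ofReal_pos.2 (Real.rpow_pos_of_pos (by linarith [wt_base_ge hR y]) _)

theorem wt_haar : (volume : Measure (V × ℝ)).IsAddHaarMeasure := by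
  rw [Measure.volume_eq_prod]; infer_instance

theorem wt_finrank : Module.finrank ℝ (V × ℝ) = dd V := by
  rw [Module.finrank_prod, Module.finrank_self, dd]

/-- (`integrable_one_add_norm` on `V × ℝ`, `finrank (V × ℝ) = d`; scaling `y ↦ R y`.) -/
theorem exists_lintegral_wt {E : ℝ} (hE : (dd V : ℝ) < E) :
    ∃ c : ℝ, 0 < c ∧ ∀ R : ℝ, 0 < R → ∫⁻ y : V × ℝ, wt E R y = ENNReal.ofReal (c * R ^ (dd V : ℝ)) := by
  have := wt_haar (V := V)
  have hint : Integrable (fun y : V × ℝ => (1 + ‖y‖) ^ (-E)) volume :=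
    integrable_one_add_norm (by rw [wt_finrank]; exact hE)
  have hpos : ∀ y : V × ℝ, 0 < (1 + ‖y‖) ^ (-E) := fun y => Real.rpow_pos_of_pos (by positivity) _
  refine ⟨∫ y : V × ℝ, (1 + ‖y‖) ^ (-E), ?_, fun R hR => ?_⟩
  · rw [integral_pos_iff_support_of_nonneg (fun y => (hpos y).le) hint]
    have : Function.support (fun y : V × ℝ => (1 + ‖y‖) ^ (-E)) = univ := by
      ext y
      simp [(hpos y).ne']
    rw [this]
    exact Measure.measure_univ_pos.2 (NeZero.ne _)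
  · have e1 : ∀ y : V × ℝ, (1 + ‖y‖ / R) ^ (-E) = (fun y : V × ℝ => (1 + ‖y‖) ^ (-E)) (R⁻¹ • y) := by
      intro y
      simp only
      rw [norm_smul, norm_inv, Real.norm_of_nonneg hR.le, inv_mul_eq_div]
    have hint' : Integrable (fun y : V × ℝ => (1 + ‖y‖ / R) ^ (-E)) volume := by
      simp_rw [e1]
      exact hint.comp_smul (inv_ne_zero hR.ne')
    unfold wt
    rw [← ofReal_integral_eq_lintegral_ofReal hint' (Filter.Eventually.of_forall fun y => by positivity)]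
    congr 1
    simp_rw [e1]
    rw [Measure.integral_comp_inv_smul_of_nonneg volume (fun y : V × ℝ => (1 + ‖y‖) ^ (-E)) hR.le, wt_finrank, smul_eq_mul,
      ← Real.rpow_natCast, mul_comm]

theorem wt_meas_joint (t E R : ℝ) {F : V × ℝ → ℂ} (hF : Continuous F) :
    Measurable fun q : (V × ℝ) × (V × ℝ) => ‖F q.2‖ₑ ^ t * wt E R (q.2 - q.1) :=
  ((hF.measurable.comp measurable_snd).enorm.pow_const t).mul ((measurable_wt E R).comp (measurable_snd.sub measurable_fst))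

/-- Tonelli: integrating the local averages over the centre gives back the global integral. -/
theorem exists_lintegral_avp {E : ℝ} (hE : (dd V : ℝ) < E) :
    ∃ c : ℝ, 0 < c ∧ ∀ (R t : ℝ) (F : V × ℝ → ℂ), 0 < R → Continuous F → ∫⁻ z, avp t E R F z = ENNReal.ofReal c * ip t F := by
  have := wt_haar (V := V)
  obtain ⟨c, hc, h⟩ := exists_lintegral_wt (V := V) hE
  refine ⟨c, hc, fun R t F hR hF => ?_⟩
  unfold avp ip
  rw [lintegral_const_mul' _ _ ENNReal.ofReal_ne_top, lintegral_lintegral_swap (wt_meas_joint t E R hF).aemeasurable]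
  have e : ∀ y : V × ℝ, ∫⁻ z, ‖F y‖ₑ ^ t * wt E R (y - z) = ENNReal.ofReal (c * R ^ (dd V : ℝ)) * ‖F y‖ₑ ^ t := by
    intro y
    have hm : Measurable fun z : V × ℝ => wt E R (y - z) := (measurable_wt E R).comp (measurable_const.sub measurable_id)
    rw [lintegral_const_mul _ hm, lintegral_sub_left_eq_self (wt E R) y, h R hR, mul_comm]
  simp_rw [e]
  rw [lintegral_const_mul' _ _ ENNReal.ofReal_ne_top, ← mul_assoc, ← ENNReal.ofReal_mul (by positivity)]
  congr 2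
  rw [mul_comm c, ← mul_assoc, ← Real.rpow_add hR, neg_add_cancel, Real.rpow_zero, one_mul]

theorem measurable_avp (t E R : ℝ) {F : V × ℝ → ℂ} (hF : Continuous F) : Measurable (avp t E R F) := by
  unfold avp
  exact (Measurable.lintegral_prod_right' (wt_meas_joint t E R hF)).const_mul _

/-- finiteness of the local averages of a bounded function. -/
theorem avp_ne_top {t E R : ℝ} (ht : 0 ≤ t) (hE : (dd V : ℝ) < E) (hR : 0 < R) {F : V × ℝ → ℂ} {B : ℝ} (hB : ∀ z, ‖F z‖ ≤ B) (z : V × ℝ) :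
    avp t E R F z ≠ ∞ := by
  have := wt_haar (V := V)
  obtain ⟨c, hc, h⟩ := exists_lintegral_wt (V := V) hE
  unfold avp
  apply ENNReal.mul_ne_top ENNReal.ofReal_ne_top
  have h1 : ∫⁻ y, ‖F y‖ₑ ^ t * wt E R (y - z) ≤ ∫⁻ y, ENNReal.ofReal B ^ t * wt E R (y - z) := by
    apply lintegral_mono
    intro y
    apply mul_le_mul_left
    apply ENNReal.rpow_le_rpow _ ht
    rw [← ofReal_norm]
    exact ENNReal.ofReal_le_ofReal (hB y)
  refine ne_top_of_le_ne_top ?_ h1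
  rw [lintegral_const_mul' _ _ (ENNReal.rpow_ne_top_of_nonneg ht ENNReal.ofReal_ne_top), lintegral_sub_right_eq_self (wt E R) z, h R hR]
  exact ENNReal.mul_ne_top (ENNReal.rpow_ne_top_of_nonneg ht ENNReal.ofReal_ne_top) ENNReal.ofReal_ne_top

/-- if a local average of a continuous function vanishes, the function vanishes. -/
theorem eq_zero_of_avp_eq_zero {t E R : ℝ} (ht : 0 < t) (hR : 0 < R) {F : V × ℝ → ℂ} (hF : Continuous F) {z : V × ℝ}
    (h : avp t E R F z = 0) : ∀ y, F y = 0 := by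
  have := wt_haar (V := V)
  unfold avp at h
  rcases mul_eq_zero.1 h with h0 | h0
  · exact absurd h0 (ENNReal.ofReal_pos.2 (Real.rpow_pos_of_pos hR _)).ne'
  have hm : Measurable fun y : V × ℝ => ‖F y‖ₑ ^ t * wt E R (y - z) :=
    (hF.measurable.enorm.pow_const t).mul ((measurable_wt E R).comp (measurable_id.sub measurable_const))
  rw [lintegral_eq_zero_iff hm] at h0
  have h1 : F =ᵐ[volume] fun _ => (0:ℂ) := by
    filter_upwards [h0] with y hy
    rcases mul_eq_zero.1 hy with h2 | h2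
    · rw [ENNReal.rpow_eq_zero_iff] at h2
      rcases h2 with ⟨h3, -⟩ | ⟨-, h3⟩
      · exact enorm_eq_zero.1 h3
      · linarith
    · exact absurd h2 (wt_pos E hR _).ne'
  have h2 := (Continuous.ae_eq_iff_eq volume hF continuous_const).1 h1
  intro y
  rw [h2]

theorem avp_mono_E {t E E' R : ℝ} (h : E ≤ E') (hR : 0 < R) (F : V × ℝ → ℂ) (z : V × ℝ) : avp t E' R F z ≤ avp t E R F z := by
  unfold avp
  gcongr with y
  exact wt_mono_E h hR _

/-- moving the centre by `≤ A R`. -/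
theorem avp_shift {t E R A : ℝ} (hE : 0 ≤ E) (hR : 0 < R) (hA : 0 ≤ A) (F : V × ℝ → ℂ) {z z' : V × ℝ} (h : ‖z - z'‖ ≤ A * R) :
    avp t E R F z' ≤ ENNReal.ofReal ((1 + A) ^ E) * avp t E R F z := by
  have hA1 : 0 < 1 + A := by linarith
  have key : ∀ y : V × ℝ, wt E R (y - z') ≤ ENNReal.ofReal ((1 + A) ^ E) * wt E R (y - z) := by
    intro y
    have h1 := wt_peetre hE hR (y - z') (z' - z)
    rw [sub_add_sub_cancel] at h1
    have h2 : ENNReal.ofReal ((1 + A) ^ (-E)) ≤ wt E R (z' - z) := wt_ge_of_le hE hR (by rw [norm_sub_rev]; exact h)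
    calc wt E R (y - z') = ENNReal.ofReal ((1 + A) ^ E) * (wt E R (y - z') * ENNReal.ofReal ((1 + A) ^ (-E))) := by
          rw [mul_comm (wt E R (y - z')), ← mul_assoc, ← ENNReal.ofReal_mul (by positivity), ← Real.rpow_add hA1, add_neg_cancel,
            Real.rpow_zero, ENNReal.ofReal_one, one_mul]
      _ ≤ ENNReal.ofReal ((1 + A) ^ E) * (wt E R (y - z') * wt E R (z' - z)) := by gcongr
      _ ≤ _ := by gcongr
  unfold avp
  calc ENNReal.ofReal (R ^ (-(dd V : ℝ))) * ∫⁻ y, ‖F y‖ₑ ^ t * wt E R (y - z')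
      ≤ ENNReal.ofReal (R ^ (-(dd V : ℝ))) * ∫⁻ y, ENNReal.ofReal ((1 + A) ^ E) * (‖F y‖ₑ ^ t * wt E R (y - z)) := by
        apply mul_le_mul_right
        apply lintegral_mono
        intro y
        calc ‖F y‖ₑ ^ t * wt E R (y - z') ≤ ‖F y‖ₑ ^ t * (ENNReal.ofReal ((1 + A) ^ E) * wt E R (y - z)) := mul_le_mul_right (key y) _
          _ = ENNReal.ofReal ((1 + A) ^ E) * (‖F y‖ₑ ^ t * wt E R (y - z)) := by ring
    _ = _ := by
        rw [lintegral_const_mul' _ _ ENNReal.ofReal_ne_top]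
        ring

theorem wt_vol_ball : ∃ c : ℝ, 0 < c ∧ ∀ (z : V × ℝ) (R : ℝ), 0 < R → volume (closedBall z R) = ENNReal.ofReal (c * R ^ (dd V : ℝ)) := by
  have := wt_haar (V := V)
  have h0 : 0 < volume (ball (0 : V × ℝ) 1) := measure_ball_pos _ _ one_pos
  have h1 : volume (ball (0 : V × ℝ) 1) ≠ ∞ := measure_ball_lt_top.ne
  refine ⟨(volume (ball (0 : V × ℝ) 1)).toReal, ENNReal.toReal_pos h0.ne' h1, fun z R hR => ?_⟩
  rw [Measure.addHaar_closedBall volume z hR.le, wt_finrank, ENNReal.ofReal_mul ENNReal.toReal_nonneg, ENNReal.ofReal_toReal h1,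
    Real.rpow_natCast, mul_comm]

/-- the kernel estimate behind `exists_avp_avg`: `r^(-d) ∫_{B(z,R)} w_r (y - z') dz' ≤ A w_R (y - z)` -/
theorem wt_avg_kernel {E : ℝ} (hE : (dd V : ℝ) < E) :
    ∃ A : ℝ, 0 ≤ A ∧ ∀ (r R : ℝ) (y z : V × ℝ), 0 < r → r ≤ R →
      ENNReal.ofReal (r ^ (-(dd V : ℝ))) * ∫⁻ z' in closedBall z R, wt E r (y - z') ≤ ENNReal.ofReal A * wt E R (y - z) := by
  have := wt_haar (V := V)
  obtain ⟨c₁, hc₁, h₁⟩ := exists_lintegral_wt (V := V) hE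
  obtain ⟨c₂, hc₂, h₂⟩ := wt_vol_ball (V := V)
  have hd0 : (0:ℝ) ≤ (dd V : ℝ) := Nat.cast_nonneg _
  have hE0 : 0 ≤ E := by linarith
  refine ⟨c₁ * 3 ^ E + c₂ * 4 ^ E, by positivity, fun r R y z hr hrR => ?_⟩
  have hR : 0 < R := hr.trans_le hrR
  by_cases hs : ‖y - z‖ ≤ 2 * R
  · have g1 : ENNReal.ofReal (r ^ (-(dd V : ℝ))) * ∫⁻ z' in closedBall z R, wt E r (y - z') ≤ ENNReal.ofReal c₁ := by
      calc ENNReal.ofReal (r ^ (-(dd V : ℝ))) * ∫⁻ z' in closedBall z R, wt E r (y - z')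
          ≤ ENNReal.ofReal (r ^ (-(dd V : ℝ))) * ∫⁻ z', wt E r (y - z') := by
            gcongr
            exact Measure.restrict_le_self
        _ = ENNReal.ofReal c₁ := by
            rw [lintegral_sub_left_eq_self (wt E r) y, h₁ r hr, ← ENNReal.ofReal_mul (by positivity)]
            congr 1
            rw [mul_comm c₁, ← mul_assoc, ← Real.rpow_add hr, neg_add_cancel, Real.rpow_zero, one_mul]
    have g2 : ENNReal.ofReal ((1 + 2) ^ (-E)) ≤ wt E R (y - z) := wt_ge_of_le hE0 hR hs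
    calc _ ≤ ENNReal.ofReal c₁ := g1
      _ = ENNReal.ofReal (c₁ * 3 ^ E) * ENNReal.ofReal ((1 + 2) ^ (-E)) := by
          rw [← ENNReal.ofReal_mul (by positivity)]
          congr 1
          have : (1 + 2 : ℝ) = 3 := by norm_num
          rw [this, mul_assoc, ← Real.rpow_add (by norm_num), add_neg_cancel, Real.rpow_zero, mul_one]
      _ ≤ ENNReal.ofReal (c₁ * 3 ^ E + c₂ * 4 ^ E) * wt E R (y - z) := by
          gcongr
          have : 0 ≤ c₂ * 4 ^ E := by positivity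
          linarith
  · push Not at hs
    set σ : ℝ := ‖y - z‖ with hσ
    have hb0 : 0 < (R + σ) / (4 * r) := by positivity
    have g1 : ∀ z' ∈ closedBall z R, wt E r (y - z') ≤ ENNReal.ofReal (((R + σ) / (4 * r)) ^ (-E)) := by
      intro z' hz'
      rw [mem_closedBall, dist_eq_norm] at hz'
      unfold wt
      apply ENNReal.ofReal_le_ofReal
      apply Real.rpow_le_rpow_of_nonpos hb0 _ (by linarith)
      have h3 : σ ≤ ‖y - z'‖ + R := by
        have : y - z = (y - z') + (z' - z) := by abel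
        rw [hσ, this]
        exact (norm_add_le _ _).trans (by linarith)
      have h4 : (R + σ) / (4 * r) ≤ ‖y - z'‖ / r := by
        rw [div_le_div_iff₀ (by positivity) hr]
        nlinarith
      linarith
    calc ENNReal.ofReal (r ^ (-(dd V : ℝ))) * ∫⁻ z' in closedBall z R, wt E r (y - z')
        ≤ ENNReal.ofReal (r ^ (-(dd V : ℝ))) * ∫⁻ _z' in closedBall z R, ENNReal.ofReal (((R + σ) / (4 * r)) ^ (-E)) := by
          gcongr 1
          exact setLIntegral_mono' measurableSet_closedBall g1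
      _ = ENNReal.ofReal (r ^ (-(dd V : ℝ)) * (((R + σ) / (4 * r)) ^ (-E) * (c₂ * R ^ (dd V : ℝ)))) := by
          rw [setLIntegral_const, h₂ z R hR, ← ENNReal.ofReal_mul (by positivity), ← ENNReal.ofReal_mul (by positivity)]
      _ ≤ ENNReal.ofReal (c₂ * 4 ^ E * (1 + σ / R) ^ (-E)) := by
          apply ENNReal.ofReal_le_ofReal
          have hρ : 1 ≤ R / r := by rw [le_div_iff₀ hr]; linarith
          have e1 : (R + σ) / (4 * r) = R / r * (1 + σ / R) * 4⁻¹ := by field_simp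
          have hw : 0 < 1 + σ / R := by positivity
          have e2 : ((R + σ) / (4 * r)) ^ (-E) = (R / r) ^ (-E) * (1 + σ / R) ^ (-E) * 4 ^ E := by
            rw [e1, Real.mul_rpow (by positivity) (by positivity), Real.mul_rpow (by positivity) hw.le, Real.inv_rpow (by norm_num),
              Real.rpow_neg (by norm_num : (0:ℝ) ≤ 4), inv_inv]
          have e3 : r ^ (-(dd V : ℝ)) * R ^ (dd V : ℝ) = (R / r) ^ (dd V : ℝ) := by
            rw [Real.div_rpow hR.le hr.le, Real.rpow_neg hr.le, div_eq_mul_inv, mul_comm]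
          have e4 : (R / r) ^ (dd V : ℝ) * (R / r) ^ (-E) ≤ 1 := by
            rw [← Real.rpow_add (by positivity)]
            exact Real.rpow_le_one_of_one_le_of_nonpos hρ (by linarith)
          calc r ^ (-(dd V : ℝ)) * (((R + σ) / (4 * r)) ^ (-E) * (c₂ * R ^ (dd V : ℝ)))
              = (r ^ (-(dd V : ℝ)) * R ^ (dd V : ℝ)) * (R / r) ^ (-E) * (c₂ * 4 ^ E * (1 + σ / R) ^ (-E)) := by rw [e2]; ring
            _ = ((R / r) ^ (dd V : ℝ) * (R / r) ^ (-E)) * (c₂ * 4 ^ E * (1 + σ / R) ^ (-E)) := by rw [e3]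
            _ ≤ 1 * (c₂ * 4 ^ E * (1 + σ / R) ^ (-E)) := by gcongr
            _ = _ := one_mul _
      _ = ENNReal.ofReal (c₂ * 4 ^ E) * wt E R (y - z) := by
          unfold wt
          rw [← ENNReal.ofReal_mul (by positivity)]
      _ ≤ _ := by
          gcongr
          have : 0 ≤ c₁ * 3 ^ E := by positivity
          linarith

/-- the average over a ball of radius `R` of the local averages at radius `r ≤ R` is dominated by the local average at radius `R`  (`w_r * 1_{B_R}/R^d ≤ C w_R`; Tonelli + Peetre; needs `E > d`). -/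
theorem exists_avp_avg {E : ℝ} (hE : (dd V : ℝ) < E) :
    ∃ A : ℝ, ∀ (t r R : ℝ) (F : V × ℝ → ℂ) (z : V × ℝ), 0 < r → r ≤ R → Continuous F →
      ENNReal.ofReal (R ^ (-(dd V : ℝ))) * ∫⁻ z' in closedBall z R, avp t E r F z' ≤ ENNReal.ofReal A * avp t E R F z := by
  obtain ⟨A, hA, hk⟩ := wt_avg_kernel (V := V) hE
  refine ⟨A, fun t r R F z hr hrR hF => ?_⟩
  unfold avp
  rw [lintegral_const_mul' _ _ ENNReal.ofReal_ne_top, lintegral_lintegral_swap (wt_meas_joint t E r hF).aemeasurable]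
  have e : ∀ y : V × ℝ, ∫⁻ z' in closedBall z R, ‖F y‖ₑ ^ t * wt E r (y - z') = ‖F y‖ₑ ^ t * ∫⁻ z' in closedBall z R, wt E r (y - z') := by
    intro y
    have hm : Measurable fun z' : V × ℝ => wt E r (y - z') := (measurable_wt E r).comp (measurable_const.sub measurable_id)
    rw [lintegral_const_mul _ hm]
  simp_rw [e]
  calc ENNReal.ofReal (R ^ (-(dd V : ℝ))) * (ENNReal.ofReal (r ^ (-(dd V : ℝ))) * ∫⁻ y, ‖F y‖ₑ ^ t * ∫⁻ z' in closedBall z R, wt E r (y - z'))
      = ENNReal.ofReal (R ^ (-(dd V : ℝ))) * ∫⁻ y, ‖F y‖ₑ ^ t * (ENNReal.ofReal (r ^ (-(dd V : ℝ))) * ∫⁻ z' in closedBall z R, wt E r (y - z')) := by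
        rw [← lintegral_const_mul' _ _ ENNReal.ofReal_ne_top]
        congr 2
        ext y
        ring
    _ ≤ ENNReal.ofReal (R ^ (-(dd V : ℝ))) * ∫⁻ y, ENNReal.ofReal A * (‖F y‖ₑ ^ t * wt E R (y - z)) := by
        apply mul_le_mul_right
        apply lintegral_mono
        intro y
        calc ‖F y‖ₑ ^ t * (ENNReal.ofReal (r ^ (-(dd V : ℝ))) * ∫⁻ z' in closedBall z R, wt E r (y - z'))
            ≤ ‖F y‖ₑ ^ t * (ENNReal.ofReal A * wt E R (y - z)) := mul_le_mul_right (hk r R y z hr hrR) _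
          _ = _ := by ring
    _ = _ := by
        rw [lintegral_const_mul' _ _ ENNReal.ofReal_ne_top]
        ring

/-- the total mass of the anisotropic kernel weights (`lintegral_Lam`, `integrable_one_add_norm`). -/
theorem exists_lintegral_tw {M : ℝ} (hM : (dd V : ℝ) < M) :
    ∃ c : ℝ, 0 < c ∧ ∀ (v : V) (a b : ℝ), 0 < a → 0 < b → ∫⁻ y : V × ℝ, tw M v a b y = ENNReal.ofReal c := by
  obtain ⟨c, hc, h⟩ := exists_lintegral_wt (V := V) hM
  refine ⟨c, hc, fun v a b ha hb => ?_⟩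
  have h1 := h 1 one_pos
  rw [Real.one_rpow, mul_one] at h1
  have hab : 0 < a ^ Module.finrank ℝ V * b := by positivity
  have e : ∀ y : V × ℝ, tw M v a b y = ENNReal.ofReal (a ^ Module.finrank ℝ V * b) * wt M 1 (Lam v a b y) := by
    intro y
    unfold tw wt
    rw [← ENNReal.ofReal_mul hab.le, div_one]
  simp_rw [e]
  rw [lintegral_const_mul' _ _ ENNReal.ofReal_ne_top, lintegral_Lam v ha hb (wt M 1), h1, ← mul_assoc, ← ENNReal.ofReal_mul hab.le,
    mul_inv_cancel₀ hab.ne', ENNReal.ofReal_one, one_mul]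

theorem measurable_tw (M : ℝ) (v : V) (a b : ℝ) : Measurable (tw M v a b) := by
  unfold tw
  have hL : Continuous (Lam v a b) := by
    unfold Lam
    fun_prop
  have h1 : Measurable fun y : V × ℝ => 1 + ‖Lam v a b y‖ := (continuous_const.add hL.norm).measurable
  exact ENNReal.measurable_ofReal.comp (measurable_const.mul (h1.pow_const _))

/-- the volume of a ball of space-time. -/
theorem exists_volume_closedBall : ∃ c : ℝ, 0 < c ∧ ∀ (z : V × ℝ) (R : ℝ), 0 < R → volume (closedBall z R) = ENNReal.ofReal (c * R ^ (dd V : ℝ)) := by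
  have := wt_haar (V := V)
  have h0 : 0 < volume (ball (0 : V × ℝ) 1) := measure_ball_pos _ _ one_pos
  have h1 : volume (ball (0 : V × ℝ) 1) ≠ ∞ := measure_ball_lt_top.ne
  refine ⟨(volume (ball (0 : V × ℝ) 1)).toReal, ENNReal.toReal_pos h0.ne' h1, fun z R hR => ?_⟩
  rw [Measure.addHaar_closedBall volume z hR.le, wt_finrank, ENNReal.ofReal_mul ENNReal.toReal_nonneg, ENNReal.ofReal_toReal h1,
    Real.rpow_natCast, mul_comm]

/-! ## counting -/

/-- packing (volume argument as in `Besicovitch.card_le_of_separated`: the balls of radius `r/2` are disjoint and lie in the ball of radius `(A + 1/2) r`). -/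
theorem card_le_of_sep {A r : ℝ} (hA : 0 ≤ A) (hr : 0 < r) (t : Finset V) (ξ : V) (h1 : ∀ c ∈ t, ‖c - ξ‖ ≤ A * r)
    (h2 : ∀ c ∈ t, ∀ c' ∈ t, c ≠ c' → r ≤ ‖c - c'‖) : (t.card : ℝ) ≤ (2 * A + 1) ^ Module.finrank ℝ V := by
  let μ : Measure V := volume
  set δ : ℝ := r / 2 with hδ
  set ρ : ℝ := (A + 1 / 2) * r with hρ
  have δpos : 0 < δ := by positivity
  have ρpos : 0 < ρ := by positivity
  set U := ⋃ c ∈ t, ball (c : V) δ with hU
  have D : Set.Pairwise (t : Set V) (Function.onFun Disjoint fun c => ball (c : V) δ) := by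
    rintro c hc d hd hcd
    apply ball_disjoint_ball
    rw [dist_eq_norm]
    have := h2 c hc d hd hcd
    rw [hδ]; linarith
  have U_subset : U ⊆ ball ξ ρ := by
    refine iUnion₂_subset fun x hx => ?_
    apply ball_subset_ball'
    rw [dist_eq_norm]
    have := h1 x hx
    rw [hδ, hρ]; linarith
  have I : (t.card : ℝ≥0∞) * ENNReal.ofReal (δ ^ Module.finrank ℝ V) * μ (ball 0 1) ≤
      ENNReal.ofReal (ρ ^ Module.finrank ℝ V) * μ (ball 0 1) :=
    calc (t.card : ℝ≥0∞) * ENNReal.ofReal (δ ^ Module.finrank ℝ V) * μ (ball 0 1) = μ U := by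
          rw [hU, measure_biUnion_finset D fun c _ => measurableSet_ball]
          simp only [μ.addHaar_ball_of_pos _ δpos]
          simp only [Finset.sum_const, nsmul_eq_mul, mul_assoc]
      _ ≤ μ (ball ξ ρ) := measure_mono U_subset
      _ = ENNReal.ofReal (ρ ^ Module.finrank ℝ V) * μ (ball 0 1) := by
          simp only [μ.addHaar_ball_of_pos _ ρpos]
  have J : (t.card : ℝ≥0∞) * ENNReal.ofReal (δ ^ Module.finrank ℝ V) ≤ ENNReal.ofReal (ρ ^ Module.finrank ℝ V) :=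
    (ENNReal.mul_le_mul_iff_left (measure_ball_pos _ _ zero_lt_one).ne' measure_ball_lt_top.ne).1 I
  have K := ENNReal.toReal_le_of_le_ofReal (pow_nonneg ρpos.le _) J
  rw [ENNReal.toReal_mul, ENNReal.toReal_natCast, ENNReal.toReal_ofReal (by positivity)] at K
  have e : ρ = (2 * A + 1) * δ := by rw [hρ, hδ]; ring
  rw [e, mul_pow] at K
  exact le_of_mul_le_mul_right K (by positivity)

/-- a maximal `σ`-separated subfamily. -/
theorem exists_net_aux {ι : Type} (s : Finset ι) (v : ι → V) {σ : ℝ} (hσ : 0 ≤ σ) :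
    ∃ T : Finset ι, T ⊆ s ∧ (∀ a ∈ T, ∀ b ∈ T, a ≠ b → σ < ‖v a - v b‖) ∧
      ∀ θ ∈ s, ∃ a ∈ T, ‖v θ - v a‖ ≤ σ := by
  classical
  induction s using Finset.induction_on with
  | empty => exact ⟨∅, Finset.Subset.refl _, by simp, by simp⟩
  | insert a s _ ih =>
    obtain ⟨T, h1, h2, h3⟩ := ih
    by_cases hex : ∃ b ∈ T, ‖v a - v b‖ ≤ σ
    · refine ⟨T, h1.trans (Finset.subset_insert _ _), h2, fun θ hθ => ?_⟩
      rcases Finset.mem_insert.1 hθ with rfl | hθ
      · exact hex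
      · exact h3 θ hθ
    · have hex' : ∀ b ∈ T, σ < ‖v a - v b‖ := fun b hb => not_le.1 fun hle => hex ⟨b, hb, hle⟩
      refine ⟨insert a T, Finset.insert_subset_insert _ h1, ?_, fun θ hθ => ?_⟩
      · intro x hx y hy hne
        rcases Finset.mem_insert.1 hx with hx | hx <;> rcases Finset.mem_insert.1 hy with hy | hy
        · exact absurd (hx.trans hy.symm) hne
        · rw [hx]; exact hex' y hy
        · rw [hy, norm_sub_rev]; exact hex' x hx
        · exact h2 x hx y hy hne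
      · rcases Finset.mem_insert.1 hθ with rfl | hθ
        · exact ⟨θ, Finset.mem_insert_self _ _, by rw [sub_self, norm_zero]; exact hσ⟩
        · obtain ⟨b, hb, hb'⟩ := h3 θ hθ
          exact ⟨b, Finset.mem_insert_of_mem hb, hb'⟩

/-- a maximal `σ`-separated subset of a finite family of points, with the assignment of every point to a representative. (Induction on `s`, or a maximal separated subset by `Finset.exists_maximal`.) -/
theorem exists_net {ι : Type} (s : Finset ι) (v : ι → V) {σ : ℝ} (hσ : 0 < σ) :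
    ∃ π : ι → ι, (∀ θ ∈ s, π θ ∈ s ∧ ‖v θ - v (π θ)‖ ≤ σ ∧ π (π θ) = π θ) ∧
      ∀ θ ∈ s, ∀ θ' ∈ s, π θ ≠ π θ' → σ < ‖v (π θ) - v (π θ')‖ := by
  classical
  obtain ⟨T, h1, h2, h3⟩ := exists_net_aux s v hσ.le
  have hch : ∀ θ : ι, ∃ a : ι, θ ∈ s → (a ∈ T ∧ ‖v θ - v a‖ ≤ σ) := by
    intro θ
    by_cases hθ : θ ∈ s
    · obtain ⟨a, ha, ha'⟩ := h3 θ hθ
      exact ⟨a, fun _ => ⟨ha, ha'⟩⟩
    · exact ⟨θ, fun h => absurd h hθ⟩
  choose f hf using hch
  have hπT : ∀ θ ∈ s, (if θ ∈ T then θ else f θ) ∈ T := by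
    intro θ hθ
    by_cases hT : θ ∈ T
    · rw [if_pos hT]; exact hT
    · rw [if_neg hT]; exact (hf θ hθ).1
  refine ⟨fun θ => if θ ∈ T then θ else f θ, fun θ hθ => ⟨h1 (hπT θ hθ), ?_, ?_⟩, fun θ hθ θ' hθ' hne => ?_⟩
  · by_cases hT : θ ∈ T
    · simp only [if_pos hT, sub_self, norm_zero]; exact hσ.le
    · simp only [if_neg hT]; exact (hf θ hθ).2
  · exact if_pos (hπT θ hθ)
  · exact h2 _ (hπT θ hθ) _ (hπT θ' hθ') hne

/-- a finite `r`-separated `r`-net of a ball of `V` (a separated subset of the ball of maximal cardinality, `card_le_of_sep`). -/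
theorem exists_sep_net (ξ : V) {A r : ℝ} (hA : 0 ≤ A) (hr : 0 < r) :
    ∃ t : Finset V, (∀ c ∈ t, ‖c - ξ‖ ≤ A * r) ∧ (∀ c ∈ t, ∀ c' ∈ t, c ≠ c' → r ≤ ‖c - c'‖) ∧
      ∀ x : V, ‖x - ξ‖ ≤ A * r → ∃ c ∈ t, ‖x - c‖ ≤ r := by
  classical
  let P : ℕ → Prop := fun n => ∃ t : Finset V, t.card = n ∧ (∀ c ∈ t, ‖c - ξ‖ ≤ A * r) ∧
    (∀ c ∈ t, ∀ c' ∈ t, c ≠ c' → r ≤ ‖c - c'‖)
  set N : ℕ := ⌊(2 * A + 1) ^ Module.finrank ℝ V⌋₊ with hN
  have hP0 : P 0 := ⟨∅, rfl, by simp, by simp⟩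
  have hPN : ∀ n, P n → n ≤ N := by
    rintro n ⟨t, rfl, ha, hb⟩
    exact Nat.le_floor (card_le_of_sep hA hr t ξ ha hb)
  obtain ⟨t, htc, ha, hb⟩ : P (Nat.findGreatest P N) := Nat.findGreatest_spec (Nat.zero_le N) hP0
  refine ⟨t, ha, hb, fun x hx => ?_⟩
  by_contra hcon
  push Not at hcon
  have hxt : x ∉ t := fun h => by
    have := hcon x h
    rw [sub_self, norm_zero] at this
    linarith
  have hP1 : P (Nat.findGreatest P N + 1) := by
    refine ⟨insert x t, by rw [Finset.card_insert_of_notMem hxt, htc], ?_, ?_⟩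
    · intro c hc
      rcases Finset.mem_insert.1 hc with rfl | hc
      · exact hx
      · exact ha c hc
    · intro c hc c' hc' hne
      rcases Finset.mem_insert.1 hc with h3 | h3 <;> rcases Finset.mem_insert.1 hc' with h4 | h4
      · exact absurd (h3.trans h4.symm) hne
      · rw [h3]; exact (hcon c' h4).le
      · rw [h4, norm_sub_rev]; exact (hcon c h3).le
      · exact hb c h3 c' h4 hne
  exact Nat.findGreatest_is_greatest (Nat.lt_succ_self _) (hPN _ hP1) hP1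

/-- multiplicity at a larger scale (`exists_net` at scale `ρ` inside the big ball + `card_le_of_sep`). -/
theorem mult_scale {ι : Type} {s : Finset ι} {v : ι → V} {C ρ A : ℝ} (hρ : 0 < ρ) (hA : 0 ≤ A)
    (h : ∀ ξ : V, ∀ t ⊆ s, (∀ j ∈ t, ‖v j - ξ‖ ≤ ρ) → (t.card : ℝ) ≤ C)
    (ξ : V) (t : Finset ι) (ht : t ⊆ s) (h' : ∀ j ∈ t, ‖v j - ξ‖ ≤ A * ρ) :
    (t.card : ℝ) ≤ (2 * A + 1) ^ Module.finrank ℝ V * C := by
  classical
  obtain ⟨π, h1, h2⟩ := exists_net t v hρ
  have hC : 0 ≤ C := by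
    have := h ξ ∅ (Finset.empty_subset _) (by simp)
    simpa using this
  have hsep : ∀ J ∈ t.image π, ∀ J' ∈ t.image π, J ≠ J' → ρ < ‖v J - v J'‖ := by
    intro J hJ J' hJ' hne
    obtain ⟨θ, hθ, rfl⟩ := Finset.mem_image.1 hJ
    obtain ⟨θ', hθ', rfl⟩ := Finset.mem_image.1 hJ'
    exact h2 θ hθ θ' hθ' hne
  have hinj : Set.InjOn v (t.image π) := by
    intro J hJ J' hJ' e
    by_contra hne
    have := hsep J hJ J' hJ' hne
    rw [e, sub_self, norm_zero] at this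
    exact absurd this (not_lt.2 hρ.le)
  have h3 := card_le_of_sep (A := A) (r := ρ) hA hρ ((t.image π).image v) ξ (fun c hc => by
      obtain ⟨J, hJ, rfl⟩ := Finset.mem_image.1 hc
      obtain ⟨θ, hθ, rfl⟩ := Finset.mem_image.1 hJ
      exact h' _ (h1 θ hθ).1) (fun c hc c' hc' hne => by
      obtain ⟨J, hJ, rfl⟩ := Finset.mem_image.1 hc
      obtain ⟨J', hJ', rfl⟩ := Finset.mem_image.1 hc'
      exact (hsep J hJ J' hJ' fun e => hne (by rw [e])).le)
  rw [Finset.card_image_of_injOn hinj] at h3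
  have hfib : ∀ J ∈ t.image π, ((t.filter fun θ => π θ = J).card : ℝ) ≤ C := by
    intro J _
    refine h (v J) _ ((Finset.filter_subset _ _).trans ht) fun j hj => ?_
    obtain ⟨hj1, hj2⟩ := Finset.mem_filter.1 hj
    rw [← hj2]
    exact (h1 j hj1).2.1
  have hk : ((t.card : ℕ) : ℝ) = ∑ J ∈ t.image π, ((t.filter fun θ => π θ = J).card : ℝ) := by
    rw [Finset.card_eq_sum_card_image π t]
    push_cast
    rfl
  rw [hk]
  calc ∑ J ∈ t.image π, ((t.filter fun θ => π θ = J).card : ℝ)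
      ≤ ∑ _J ∈ t.image π, C := Finset.sum_le_sum hfib
    _ = ((t.image π).card : ℝ) * C := by rw [Finset.sum_const, nsmul_eq_mul]
    _ ≤ _ := mul_le_mul_of_nonneg_right h3 hC

/-- the normalised case `σ = 1`, `u = 0` of `exists_sum_sep_le`. -/
theorem sum_sep_le_aux {E : ℝ} (hE : (Module.finrank ℝ V : ℝ) < E) (t : Finset V)
    (h : ∀ c ∈ t, ∀ c' ∈ t, c ≠ c' → 1 ≤ ‖c - c'‖) :
    ∑ c ∈ t, (1 + ‖c‖) ^ (-E)
      ≤ (3 / 2) ^ E * (∫ x : V, (1 + ‖x‖) ^ (-E)) / (volume : Measure V).real (ball (0 : V) (1 / 2)) := by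
  have hE0 : 0 ≤ E := (Nat.cast_nonneg _).trans hE.le
  have hint : Integrable (fun x : V => (1 + ‖x‖) ^ (-E)) volume := integrable_one_add_norm hE
  have hpos : ∀ x : V, 0 < (1 + ‖x‖) ^ (-E) := fun x => Real.rpow_pos_of_pos (by positivity) _
  set m : ℝ := (volume : Measure V).real (ball (0 : V) (1 / 2)) with hm
  have hm0 : 0 < m := by
    rw [hm, Measure.real]
    exact ENNReal.toReal_pos (measure_ball_pos _ _ (by norm_num)).ne' measure_ball_lt_top.ne
  have hmc : ∀ c : V, (volume : Measure V).real (ball c (1 / 2)) = m := by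
    intro c
    rw [hm, Measure.real, Measure.real, Measure.addHaar_ball_center]
  have D : Set.Pairwise (t : Set V) (Function.onFun Disjoint fun c => ball (c : V) (1 / 2)) := by
    rintro c hc d hd hcd
    apply ball_disjoint_ball
    rw [dist_eq_norm]
    have := h c hc d hd hcd
    linarith
  have key : ∀ c ∈ t, m * ((3 / 2) ^ (-E) * (1 + ‖c‖) ^ (-E)) ≤ ∫ x in ball c (1 / 2), (1 + ‖x‖) ^ (-E) := by
    intro c _
    have h1 : ∫ _x in ball c (1 / 2), ((3 / 2 : ℝ) ^ (-E) * (1 + ‖c‖) ^ (-E)) = m * ((3 / 2) ^ (-E) * (1 + ‖c‖) ^ (-E)) := by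
      rw [setIntegral_const, hmc, smul_eq_mul]
    rw [← h1]
    refine setIntegral_mono_on (integrableOn_const measure_ball_lt_top.ne) hint.integrableOn measurableSet_ball fun x hx => ?_
    rw [← Real.mul_rpow (by norm_num) (by positivity)]
    apply Real.rpow_le_rpow_of_nonpos (by positivity) _ (by linarith)
    rw [mem_ball, dist_eq_norm] at hx
    have h2 : ‖x‖ ≤ ‖x - c‖ + ‖c‖ := by
      have := norm_add_le (x - c) c
      rwa [sub_add_cancel] at this
    nlinarith [norm_nonneg c]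
  have h2 : ∑ c ∈ t, m * ((3 / 2) ^ (-E) * (1 + ‖c‖) ^ (-E)) ≤ ∫ x : V, (1 + ‖x‖) ^ (-E) := by
    calc ∑ c ∈ t, m * ((3 / 2) ^ (-E) * (1 + ‖c‖) ^ (-E))
        ≤ ∑ c ∈ t, ∫ x in ball c (1 / 2), (1 + ‖x‖) ^ (-E) := Finset.sum_le_sum key
      _ = ∫ x in ⋃ c ∈ t, ball c (1 / 2), (1 + ‖x‖) ^ (-E) :=
          (integral_biUnion_finset t (fun c _ => measurableSet_ball) D fun c _ => hint.integrableOn).symm
      _ ≤ _ := setIntegral_le_integral hint (Filter.Eventually.of_forall fun x => (hpos x).le)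
  rw [le_div_iff₀ hm0]
  have h3 : (0 : ℝ) < (3 / 2) ^ E := Real.rpow_pos_of_pos (by norm_num) _
  have h4 : (3 / 2 : ℝ) ^ E * (3 / 2) ^ (-E) = 1 := by
    rw [← Real.rpow_add (by norm_num), add_neg_cancel, Real.rpow_zero]
  calc (∑ c ∈ t, (1 + ‖c‖) ^ (-E)) * m
      = (3 / 2) ^ E * ∑ c ∈ t, m * ((3 / 2) ^ (-E) * (1 + ‖c‖) ^ (-E)) := by
        rw [Finset.sum_mul, Finset.mul_sum]
        refine Finset.sum_congr rfl fun c _ => ?_
        calc (1 + ‖c‖) ^ (-E) * m = ((3 / 2 : ℝ) ^ E * (3 / 2) ^ (-E)) * ((1 + ‖c‖) ^ (-E) * m) := by rw [h4, one_mul]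
          _ = _ := by ring
    _ ≤ _ := mul_le_mul_of_nonneg_left h2 h3.le

/-- sums of a decaying weight over a separated set (compare with the integral over the disjoint balls of radius `σ/2`, or count dyadic shells with `card_le_of_sep`). -/
theorem exists_sum_sep_le {E : ℝ} (hE : (Module.finrank ℝ V : ℝ) < E) :
    ∃ C : ℝ, ∀ (σ : ℝ) (t : Finset V) (u : V), 0 < σ → (∀ c ∈ t, ∀ c' ∈ t, c ≠ c' → σ ≤ ‖c - c'‖) →
      ∑ c ∈ t, (1 + ‖c - u‖ / σ) ^ (-E) ≤ C := by
  classical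
  refine ⟨(3 / 2) ^ E * (∫ x : V, (1 + ‖x‖) ^ (-E)) / (volume : Measure V).real (ball (0 : V) (1 / 2)),
    fun σ t u hσ h => ?_⟩
  have hinj : Set.InjOn (fun c : V => σ⁻¹ • (c - u)) t := by
    intro c _ c' _ e
    have e' : σ⁻¹ • (c - u) = σ⁻¹ • (c' - u) := e
    have := smul_right_injective V (inv_ne_zero hσ.ne') e'
    exact sub_left_injective this
  have h1 := sum_sep_le_aux hE (t.image fun c : V => σ⁻¹ • (c - u)) (by
    intro x hx y hy hne
    obtain ⟨c, hc, rfl⟩ := Finset.mem_image.1 hx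
    obtain ⟨c', hc', rfl⟩ := Finset.mem_image.1 hy
    have hcc : c ≠ c' := fun e => hne (by rw [e])
    have h2 := h c hc c' hc' hcc
    rw [← smul_sub, sub_sub_sub_cancel_right, norm_smul, norm_inv, Real.norm_of_nonneg hσ.le, inv_mul_eq_div,
      le_div_iff₀ hσ, one_mul]
    exact h2)
  rw [Finset.sum_image hinj] at h1
  refine le_trans (le_of_eq ?_) h1
  refine Finset.sum_congr rfl fun c _ => ?_
  rw [norm_smul, norm_inv, Real.norm_of_nonneg hσ.le, inv_mul_eq_div]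

/-- the number of caps of a robust family. -/
theorem Rob.card_le {C ρ : ℝ} {ι : Type} {s : Finset ι} {v : ι → V} {H : ι → V × ℝ → ℂ} (h : Rob C ρ s v H) (hρ : 0 < ρ) (hC : 0 ≤ C) :
    (s.card : ℝ) ≤ (2 * (C / ρ) + 1) ^ Module.finrank ℝ V * C := by
  refine mult_scale hρ (div_nonneg hC hρ.le) h.mult 0 s (Finset.Subset.refl _) fun j hj => ?_
  rw [sub_zero, div_mul_cancel₀ _ hρ.ne']
  exact h.bdd j hj

theorem Rob.mono {C C' ρ : ℝ} {ι : Type} {s : Finset ι} {v : ι → V} {H : ι → V × ℝ → ℂ} (h : Rob C ρ s v H) (hC : C ≤ C') (hρ : 0 ≤ ρ) :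
    Rob C' ρ s v H := by
  refine ⟨fun j hj => (h.bdd j hj).trans hC, fun ξ t ht hξ => (h.mult ξ t ht hξ).trans hC, fun j hj => (h.fs j hj).mono (cap_mono ?_ ?_)⟩
  · exact mul_le_mul_of_nonneg_right hC hρ
  · exact mul_le_mul_of_nonneg_right hC (by positivity)

theorem Rob.subset {C ρ : ℝ} {ι : Type} {s s' : Finset ι} {v : ι → V} {H : ι → V × ℝ → ℂ} (h : Rob C ρ s v H) (hs : s' ⊆ s) :
    Rob C ρ s' v H := by
  exact ⟨fun j hj => h.bdd j (hs hj), fun ξ t ht hξ => h.mult ξ t (ht.trans hs) hξ, fun j hj => h.fs j (hs hj)⟩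

/-- a robust family at scale `ρ` is robust at every comparable smaller scale. -/
theorem Rob.scale {C ρ ρ' A : ℝ} {ι : Type} {s : Finset ι} {v : ι → V} {H : ι → V × ℝ → ℂ} (h : Rob C ρ s v H) (hC : 0 ≤ C) (hA : 1 ≤ A) (h0 : 0 < ρ')
    (h1 : ρ' ≤ ρ) (h2 : ρ ≤ A * ρ') : Rob (C * A ^ 2) ρ' s v H := by
  have hA2 : 1 ≤ A ^ 2 := one_le_pow₀ hA
  have hCA : C ≤ C * A ^ 2 := le_mul_of_one_le_right hC hA2
  refine ⟨fun j hj => (h.bdd j hj).trans hCA, fun ξ t ht hξ => (h.mult ξ t ht fun j hj => (hξ j hj).trans h1).trans hCA,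
    fun j hj => (h.fs j hj).mono (cap_mono ?_ ?_)⟩
  · have h3 : A * ρ' ≤ A ^ 2 * ρ' := mul_le_mul_of_nonneg_right (by nlinarith) h0.le
    calc C * ρ ≤ C * (A ^ 2 * ρ') := mul_le_mul_of_nonneg_left (h2.trans h3) hC
      _ = C * A ^ 2 * ρ' := by ring
  · have h3 : ρ ^ 2 ≤ (A * ρ') ^ 2 := pow_le_pow_left₀ (h0.le.trans h1) h2 2
    calc C * ρ ^ 2 ≤ C * (A * ρ') ^ 2 := mul_le_mul_of_nonneg_left h3 hC
      _ = C * A ^ 2 * ρ' ^ 2 := by ring

open scoped Classical in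
/-- the net of `exists_net` is a grouping. -/
theorem exists_grp {ι : Type} (s : Finset ι) (v : ι → V) {σ : ℝ} (hσ : 0 < σ) :
    ∃ π : ι → ι, Grp ((3 : ℝ) ^ Module.finrank ℝ V) σ s v π v := by
  obtain ⟨π, h1, h2⟩ := exists_net s v hσ
  refine ⟨π, fun θ hθ => (h1 θ hθ).2.1, fun θ hθ => ⟨π θ, (h1 θ hθ).1, rfl⟩, fun ξ t ht hξ => ?_⟩
  have hsep : ∀ J ∈ t, ∀ J' ∈ t, J ≠ J' → σ < ‖v J - v J'‖ := by
    intro J hJ J' hJ' hne
    obtain ⟨θ, hθ, rfl⟩ := Finset.mem_image.1 (ht hJ)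
    obtain ⟨θ', hθ', rfl⟩ := Finset.mem_image.1 (ht hJ')
    exact h2 θ hθ θ' hθ' hne
  have hinj : Set.InjOn v t := by
    intro J hJ J' hJ' e
    by_contra hne
    have := hsep J hJ J' hJ' hne
    rw [e, sub_self, norm_zero] at this
    exact absurd this (not_lt.2 hσ.le)
  have h3 := card_le_of_sep (A := 1) (r := σ) zero_le_one hσ (t.image v) ξ (fun c hc => by
      obtain ⟨J, hJ, rfl⟩ := Finset.mem_image.1 hc
      rw [one_mul]
      exact hξ J hJ) (fun c hc c' hc' hne => by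
      obtain ⟨J, hJ, rfl⟩ := Finset.mem_image.1 hc
      obtain ⟨J', hJ', rfl⟩ := Finset.mem_image.1 hc'
      exact (hsep J hJ J' hJ' fun e => hne (by rw [e])).le)
  rw [Finset.card_image_of_injOn hinj] at h3
  norm_num at h3
  exact h3

open scoped Classical in
/-- refinement of a grouping at scale `σ'` by a net at scale `σ ≤ σ'`: the pairs `(π' θ, π θ)`. -/
theorem Grp.refine {ι ι' : Type} {s : Finset ι} {v : ι → V} {π' : ι → ι'} {u' : ι' → V} {Cg σ σ' : ℝ} (h : Grp Cg σ' s v π' u') (hσ : 0 < σ) (hσ' : σ ≤ σ') (hCg : 0 ≤ Cg) :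
    ∃ π : ι → ι, Grp ((21 : ℝ) ^ Module.finrank ℝ V * Cg) σ s v (fun θ => (π' θ, π θ)) (fun J => v J.2) := by
  have hnet := fun J : ι' => exists_net (s.filter fun θ => π' θ = J) v hσ
  choose P hP1 hP2 using hnet
  have hσ'0 : 0 < σ' := hσ.trans_le hσ'
  have hmem : ∀ θ ∈ s, θ ∈ s.filter fun θ' => π' θ' = π' θ := fun θ hθ => Finset.mem_filter.2 ⟨hθ, rfl⟩
  refine ⟨fun θ => P (π' θ) θ, ⟨fun θ hθ => (hP1 _ θ (hmem θ hθ)).2.1, fun θ hθ => ?_, fun ξ t ht hξ => ?_⟩⟩
  · obtain ⟨a1, -, a3⟩ := hP1 _ θ (hmem θ hθ)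
    obtain ⟨b1, b2⟩ := Finset.mem_filter.1 a1
    exact ⟨P (π' θ) θ, b1, rfl⟩
  · -- description of the elements of `t`
    have hel : ∀ J ∈ t, ∃ θ ∈ s, π' θ = J.1 ∧ P J.1 θ = J.2 := by
      intro J hJ
      have hJ' : J ∈ s.image (fun θ => (π' θ, P (π' θ) θ)) := by convert ht hJ
      obtain ⟨θ, hθ, rfl⟩ := Finset.mem_image.1 hJ'
      exact ⟨θ, hθ, rfl, rfl⟩
    -- the fibres
    have hfib : ∀ J' ∈ t.image Prod.fst, ((t.filter fun J => J.1 = J').card : ℝ) ≤ (3 : ℝ) ^ Module.finrank ℝ V := by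
      intro J' _
      set T := t.filter fun J => J.1 = J' with hT
      have hsep : ∀ J₁ ∈ T, ∀ J₂ ∈ T, J₁ ≠ J₂ → σ < ‖v J₁.2 - v J₂.2‖ := by
        intro J₁ h₁ J₂ h₂ hne
        obtain ⟨m₁, e₁⟩ := Finset.mem_filter.1 h₁
        obtain ⟨m₂, e₂⟩ := Finset.mem_filter.1 h₂
        obtain ⟨θ₁, q₁, r₁, w₁⟩ := hel J₁ m₁
        obtain ⟨θ₂, q₂, r₂, w₂⟩ := hel J₂ m₂
        rw [e₁] at r₁ w₁
        rw [e₂] at r₂ w₂
        have hne2 : J₁.2 ≠ J₂.2 := fun e => hne (Prod.ext (e₁.trans e₂.symm) e)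
        rw [← w₁, ← w₂] at hne2 ⊢
        exact hP2 J' θ₁ (Finset.mem_filter.2 ⟨q₁, r₁⟩) θ₂ (Finset.mem_filter.2 ⟨q₂, r₂⟩) hne2
      have hinj : Set.InjOn (fun J : ι' × ι => v J.2) T := by
        intro J₁ h₁ J₂ h₂ e
        by_contra hne
        have := hsep J₁ h₁ J₂ h₂ hne
        simp only at e
        rw [e, sub_self, norm_zero] at this
        linarith
      rw [← Finset.card_image_of_injOn hinj]
      have h3 := card_le_of_sep (A := 1) (r := σ) zero_le_one hσ (T.image fun J : ι' × ι => v J.2) ξ ?_ ?_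
      · norm_num at h3
        exact h3
      · intro c hc
        obtain ⟨J, hJ, rfl⟩ := Finset.mem_image.1 hc
        rw [one_mul]
        exact hξ J (Finset.mem_filter.1 hJ).1
      · intro c hc c' hc' hne
        obtain ⟨J, hJ, rfl⟩ := Finset.mem_image.1 hc
        obtain ⟨J₂, hJ₂, rfl⟩ := Finset.mem_image.1 hc'
        exact (hsep J hJ J₂ hJ₂ fun e => hne (by rw [e])).le
    -- the number of coarse caps
    have hcoarse : ((t.image Prod.fst).card : ℝ) ≤ (2 * 2 + 1) ^ Module.finrank ℝ V * Cg := by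
      apply mult_scale (s := s.image π') (v := u') (ρ := σ') hσ'0 (by norm_num) h.mult ξ
      · intro J' hJ'
        obtain ⟨J, hJ, rfl⟩ := Finset.mem_image.1 hJ'
        obtain ⟨θ, hθ, e, -⟩ := hel J hJ
        exact Finset.mem_image.2 ⟨θ, hθ, e⟩
      · intro J' hJ'
        obtain ⟨J, hJ, rfl⟩ := Finset.mem_image.1 hJ'
        obtain ⟨θ, hθ, e, w⟩ := hel J hJ
        have a1 := (hP1 J.1 θ (Finset.mem_filter.2 ⟨hθ, e⟩)).1
        rw [w] at a1
        obtain ⟨b1, b2⟩ := Finset.mem_filter.1 a1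
        have n1 := h.near J.2 b1
        rw [b2] at n1
        have n2 := hξ J hJ
        have e3 : u' J.1 - ξ = (v J.2 - ξ) - (v J.2 - u' J.1) := by abel
        rw [e3]
        refine (norm_sub_le _ _).trans ?_
        linarith
    have hk : ((t.card : ℕ) : ℝ) = ∑ J' ∈ t.image Prod.fst, ((t.filter fun J => J.1 = J').card : ℝ) := by
      rw [Finset.card_eq_sum_card_image Prod.fst t]
      push_cast
      rfl
    rw [hk]
    calc ∑ J' ∈ t.image Prod.fst, ((t.filter fun J => J.1 = J').card : ℝ)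
        ≤ ∑ _J' ∈ t.image Prod.fst, (3 : ℝ) ^ Module.finrank ℝ V := Finset.sum_le_sum hfib
      _ = ((t.image Prod.fst).card : ℝ) * (3 : ℝ) ^ Module.finrank ℝ V := by rw [Finset.sum_const, nsmul_eq_mul]
      _ ≤ ((2 * 2 + 1) ^ Module.finrank ℝ V * Cg) * (3 : ℝ) ^ Module.finrank ℝ V := by gcongr
      _ = (15 : ℝ) ^ Module.finrank ℝ V * Cg := by
          have : (15 : ℝ) = (2 * 2 + 1) * 3 := by norm_num
          rw [this, mul_pow]
          ring
      _ ≤ _ := by gcongr; norm_num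

open scoped Classical in
/-- the grouped family is robust at the coarse scale. -/
theorem Rob.group {C Cg ρ σ : ℝ} {ι ι' : Type} {s : Finset ι} {v : ι → V} {H : ι → V × ℝ → ℂ} (h : Rob C ρ s v H) {π : ι → ι'} {u : ι' → V}
    (hg : Grp Cg σ s v π u) (hρ : 0 < ρ) (hσ : ρ ≤ σ) (hC : 0 ≤ C) :
    Rob (max (C + 1) Cg) σ (s.image π) u (gsum s π H) := by
  have hC1 : C + 1 ≤ max (C + 1) Cg := le_max_left _ _
  have hσ0 : 0 < σ := hρ.trans_le hσ
  refine ⟨fun J hJ => ?_, fun ξ t ht hξ => (hg.mult ξ t ht hξ).trans (le_max_right _ _), fun J hJ => ?_⟩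
  · obtain ⟨θ, hθ, rfl⟩ := Finset.mem_image.1 hJ
    obtain ⟨θ', hθ', e⟩ := hg.rep θ hθ
    rw [e]
    exact (h.bdd θ' hθ').trans (by linarith)
  · refine FS.sum _ fun θ hθ => ?_
    rw [Finset.mem_filter] at hθ
    refine (h.fs θ hθ.1).mono ?_
    refine (cap_subset_cap (σ := σ) (u := u J) ?_).trans (cap_mono ?_ ?_)
    · rw [← hθ.2]; exact hg.near θ hθ.1
    · calc C * ρ + σ ≤ C * σ + σ := by nlinarith
        _ = (C + 1) * σ := by ring
        _ ≤ max (C + 1) Cg * σ := mul_le_mul_of_nonneg_right hC1 hσ0.le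
    · calc C * ρ ^ 2 ≤ C * σ ^ 2 := mul_le_mul_of_nonneg_left (pow_le_pow_left₀ hρ.le hσ 2) hC
        _ ≤ max (C + 1) Cg * σ ^ 2 := mul_le_mul_of_nonneg_right (by linarith) (by positivity)

open scoped Classical in
theorem sum_gsum {ι ι' : Type} (s : Finset ι) (π : ι → ι') (H : ι → V × ℝ → ℂ) (z : V × ℝ) :
    ∑ J ∈ s.image π, gsum s π H J z = ∑ θ ∈ s, H θ z := by
  exact Finset.sum_fiberwise_of_maps_to (fun θ hθ => Finset.mem_image_of_mem π hθ) _

end Claimed.Agent.BD
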