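import Claimed.Agent.Lib.BD.Ker
import Claimed.Agent.Lib.BD.Wt
import Claimed.Agent.Lib.BD.Abs

/-!
# Box BD, unit U3: local lemmas (locally constant property, Bernstein, `L²` orthogonality, localisation)   (architect helper266)
-/

set_option autoImplicit false
open MeasureTheory Set Metric
open scoped ENNReal NNReal Pointwise

namespace Claimed.Agent.BD

variable {V : Type} [NormedAddCommGroup V] [InnerProductSpace ℝ V] [FiniteDimensional ℝ V] [MeasurableSpace V] [BorelSpace V]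

omit [FiniteDimensional ℝ V] [MeasurableSpace V] [BorelSpace V] in
theorem bdlc_Lam_sub (v : V) (a b : ℝ) (y z : V × ℝ) :
    Lam v a b (y - z) = Lam v a b y - Lam v a b z := by
  unfold Lam
  ext
  · simp only [Prod.fst_sub, Prod.snd_sub]; module
  · simp only [Prod.snd_sub]; ring

omit [FiniteDimensional ℝ V] [MeasurableSpace V] [BorelSpace V] in
theorem bdlc_Lam_one (y : V × ℝ) : Lam (0 : V) 1 1 y = y := by
  unfold Lam
  ext <;> simp

omit [FiniteDimensional ℝ V] [MeasurableSpace V] [BorelSpace V] in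
theorem bdlc_LamT_inj (v : V) {a b : ℝ} (ha : 0 < a) (hb : 0 < b) : Function.Injective (LamT v a b) := by
  intro w w' h
  unfold LamT at h
  have h1 := congrArg Prod.fst h
  have h2 := congrArg Prod.snd h
  simp only at h1 h2
  have h3 : w.1 = w'.1 := smul_right_injective V ha.ne' h1
  rw [h3] at h2
  have h4 : w.2 = w'.2 := by
    have : b * w.2 = b * w'.2 := by linarith
    exact mul_left_cancel₀ hb.ne' this
  exact Prod.ext h3 h4

theorem bdlc_haar : (volume : Measure (V × ℝ)).IsAddHaarMeasure := by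
  rw [Measure.volume_eq_prod]; infer_instance

omit [FiniteDimensional ℝ V] [MeasurableSpace V] [BorelSpace V] in
theorem bdlc_tw_eq (M : ℝ) (v : V) {a b : ℝ} (ha : 0 < a) (hb : 0 < b) (y : V × ℝ) :
    tw M v a b y = ENNReal.ofReal (a ^ Module.finrank ℝ V * b) * tw M 0 1 1 (Lam v a b y) := by
  unfold tw
  rw [bdlc_Lam_one, one_pow, one_mul, one_mul, ← ENNReal.ofReal_mul (by positivity)]

/-- **locally constant property**, all affine images of a ball at once.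
PLAN: `FS.unlin`: `F z = ch (pr z w₀) G (Lam v a b z)`, `G ∈ FS (closedBall 0 C)`; `exists_ker`: `|G(x)| ≤ ∫ |K(x')| |G(x - x')|`, `|K| ≤ C' (1+|·|)^(-M)`; `abs_jensen_ker`; back by `lintegral_Lam` (`Lam` is linear). -/
theorem loc_const (C M t : ℝ) (ht : 1 ≤ t) (hM : (dd V : ℝ) < M) :
    ∃ A : ℝ, ∀ (v : V) (a b : ℝ) (w₀ : V × ℝ) (F : V × ℝ → ℂ), 0 < a → 0 < b →
      FS ((fun w => w₀ + LamT v a b w) '' closedBall 0 C) F →
      ∀ y, ‖F y‖ₑ ^ t ≤ ENNReal.ofReal A * ∫⁻ y', ‖F y'‖ₑ ^ t * tw M v a b (y - y') := by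
  have hhaar := bdlc_haar (V := V)
  obtain ⟨K, hKc, hKd, hKr⟩ := exists_ker V C
  obtain ⟨C', hC'⟩ := hKd M
  obtain ⟨c, hc0, hc⟩ := exists_lintegral_tw (V := V) hM
  have hC'0 : 0 ≤ C' := by
    have := hC' 0
    simp only [norm_zero, add_zero, Real.one_rpow, mul_one] at this
    exact le_trans (norm_nonneg _) this
  have ht0 : 0 ≤ t := by linarith
  refine ⟨(C' * c) ^ (t - 1) * C', fun v a b w₀ F ha hb hF y => ?_⟩
  obtain ⟨G, hG, hFG⟩ := hF.unlin v ha hb w₀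
  have hinj : Function.Injective (fun w => w₀ + LamT v a b w) :=
    (add_right_injective w₀).comp (bdlc_LamT_inj v ha hb)
  rw [hinj.preimage_image] at hG
  have hGc := hG.continuous
  have hFn : ∀ z, ‖F z‖ₑ = ‖G (Lam v a b z)‖ₑ := fun z => by
    rw [hFG, enorm_mul, ← ofReal_norm (ch _), norm_ch, ENNReal.ofReal_one, one_mul]
  set κ : V × ℝ → ℝ≥0∞ := fun x => ENNReal.ofReal C' * tw M 0 1 1 x with hκdef
  have hκm : Measurable κ := (measurable_tw M 0 1 1).const_mul _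
  have hκ : ∀ x, ‖K x‖ₑ ≤ κ x := fun x => by
    rw [hκdef]
    simp only [tw, bdlc_Lam_one, one_pow, one_mul]
    rw [← ENNReal.ofReal_mul hC'0, ← ofReal_norm]
    exact ENNReal.ofReal_le_ofReal (hC' x)
  have hκi : ∫⁻ x, κ x = ENNReal.ofReal (C' * c) := by
    rw [hκdef, lintegral_const_mul _ (measurable_tw M 0 1 1), hc 0 1 1 one_pos one_pos,
      ENNReal.ofReal_mul hC'0]
  have h1 : ∀ x, ‖G x‖ₑ ≤ ∫⁻ x', ‖G (x - x')‖ₑ * κ x' := fun x => by
    rw [hKr G hG x]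
    refine (enorm_integral_le_lintegral_enorm _).trans (lintegral_mono fun x' => ?_)
    rw [enorm_mul, mul_comm]
    exact mul_le_mul_right (hκ x') _
  have h2 : ∀ x, ‖G x‖ₑ ^ t ≤ ENNReal.ofReal ((C' * c) ^ (t - 1)) * ∫⁻ x', ‖G (x - x')‖ₑ ^ t * κ x' := fun x => by
    refine (ENNReal.rpow_le_rpow (h1 x) ht0).trans ?_
    have hm : AEMeasurable (fun x' => ‖G (x - x')‖ₑ) (volume : Measure (V × ℝ)) :=
      (hGc.comp (continuous_const.sub continuous_id)).enorm.measurable.aemeasurable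
    refine (abs_jensen_ker ht _ κ hm hκm.aemeasurable).trans ?_
    rw [hκi, ENNReal.ofReal_rpow_of_nonneg (by positivity) (by linarith)]
  rw [hFn]
  refine (h2 _).trans ?_
  have hab : 0 < a ^ Module.finrank ℝ V * b := by positivity
  have h3 : ∫⁻ x', ‖G (Lam v a b y - x')‖ₑ ^ t * κ x' =
      ENNReal.ofReal (a ^ Module.finrank ℝ V * b) * ∫⁻ z, ‖G (Lam v a b y - Lam v a b z)‖ₑ ^ t * κ (Lam v a b z) := by
    rw [lintegral_Lam v ha hb (fun x' => ‖G (Lam v a b y - x')‖ₑ ^ t * κ x'), ← mul_assoc,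
      ← ENNReal.ofReal_mul hab.le, mul_inv_cancel₀ hab.ne', ENNReal.ofReal_one, one_mul]
  have h4 : ∫⁻ z, ‖G (Lam v a b y - Lam v a b z)‖ₑ ^ t * κ (Lam v a b z) =
      ∫⁻ y', ‖G (Lam v a b y')‖ₑ ^ t * κ (Lam v a b (y - y')) := by
    rw [← lintegral_sub_left_eq_self (fun z => ‖G (Lam v a b y - Lam v a b z)‖ₑ ^ t * κ (Lam v a b z)) y]
    refine lintegral_congr fun y' => ?_
    rw [← bdlc_Lam_sub, sub_sub_cancel]
  rw [h3, h4, ENNReal.ofReal_mul (q := C') (by positivity), mul_assoc]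
  refine mul_le_mul_right (le_of_eq ?_) _
  have hmeas : Measurable (fun y' => ‖G (Lam v a b y')‖ₑ ^ t * κ (Lam v a b (y - y'))) := by
    have hL : Continuous (Lam v a b) := by
      unfold Lam
      fun_prop
    exact ((hGc.comp hL).enorm.measurable.pow_const t).mul
      (hκm.comp (hL.comp (continuous_const.sub continuous_id)).measurable)
  rw [← lintegral_const_mul _ hmeas]
  have hmeas2 : Measurable (fun y' => ‖F y'‖ₑ ^ t * tw M v a b (y - y')) := by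
    exact (hF.continuous.enorm.measurable.pow_const t).mul
      ((measurable_tw M v a b).comp (continuous_const.sub continuous_id).measurable)
  rw [← lintegral_const_mul _ hmeas2]
  refine lintegral_congr fun y' => ?_
  rw [hFn, bdlc_tw_eq M v ha hb, hκdef]
  ring

omit [FiniteDimensional ℝ V] [MeasurableSpace V] [BorelSpace V] in
theorem bdlc_Par_surj (v : V) {σ : ℝ} (hσ : 0 < σ) : Function.Surjective (Par v σ) := by
  intro w
  refine ⟨(σ⁻¹ • (w.1 - v), (w.2 - ‖v‖ ^ 2 - 2 * σ * inner ℝ v (σ⁻¹ • (w.1 - v))) / σ ^ 2), ?_⟩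
  unfold Par
  ext
  · simp only [smul_smul, mul_inv_cancel₀ hσ.ne', one_smul, add_sub_cancel]
  · simp only
    field_simp
    ring

/-- the case of a cap (`Par_eq`, `Par_preimage_cap`, `cap_zero_subset_ball`): the kernel lives on the dual tube `σ⁻¹ × ⋯ × σ⁻¹ × σ⁻²` in the direction `(-2v, 1)`. -/
theorem loc_const_cap (C M t : ℝ) (hC : 0 ≤ C) (ht : 1 ≤ t) (hM : (dd V : ℝ) < M) :
    ∃ A : ℝ, ∀ (v : V) (σ : ℝ) (F : V × ℝ → ℂ), 0 < σ → FS (cap v (C * σ) (C * σ ^ 2)) F →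
      ∀ y, ‖F y‖ₑ ^ t ≤ ENNReal.ofReal A * ∫⁻ y', ‖F y'‖ₑ ^ t * tw M v σ (σ ^ 2) (y - y') := by
  obtain ⟨A, hA⟩ := loc_const (V := V) (C + C ^ 2) M t ht hM
  refine ⟨A, fun v σ F hσ hF y => hA v σ (σ ^ 2) (v, ‖v‖ ^ 2) F hσ (by positivity) (hF.mono ?_) y⟩
  intro w hw
  obtain ⟨w', rfl⟩ := bdlc_Par_surj v hσ w
  refine ⟨w', cap_zero_subset_ball hC ?_, (Par_eq v σ w').symm⟩
  have h1 : w' ∈ Par v σ ⁻¹' cap v (C * σ) (C * σ ^ 2) := hw
  rw [Par_preimage_cap v v hσ, sub_self, smul_zero, mul_div_assoc, div_self hσ.ne', mul_one,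
    mul_div_assoc, div_self (by positivity), mul_one] at h1
  exact h1

omit [MeasurableSpace V] [BorelSpace V] [FiniteDimensional ℝ V] in
theorem bdlc_tw_iso (M : ℝ) {r : ℝ} (hr : 0 < r) (y : V × ℝ) :
    tw M (0 : V) r⁻¹ r⁻¹ y = ENNReal.ofReal (r ^ (-(dd V : ℝ))) * wt M r (-y) := by
  have h1 : Lam (0 : V) r⁻¹ r⁻¹ y = r⁻¹ • y := by
    unfold Lam
    ext <;> simp
  unfold tw wt
  rw [h1, norm_smul, norm_neg, norm_inv, Real.norm_eq_abs, abs_of_pos hr,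
    ← ENNReal.ofReal_mul (by positivity)]
  congr 2
  · rw [Real.rpow_neg hr.le, Real.rpow_natCast]
    unfold dd
    rw [pow_succ, mul_inv, inv_pow]
  · rw [div_eq_inv_mul]

/-- the isotropic case: Fourier support in a ball of radius `C / r`. (`tw M 0 r⁻¹ r⁻¹ y = r^(-d) (1 + |y|/r)^(-M)`.) -/
theorem loc_const_ball (C M t : ℝ) (ht : 1 ≤ t) (hM : (dd V : ℝ) < M) :
    ∃ A : ℝ, ∀ (r : ℝ) (w₀ : V × ℝ) (F : V × ℝ → ℂ), 0 < r → FS (closedBall w₀ (C / r)) F →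
      ∀ y, ‖F y‖ₑ ^ t ≤ ENNReal.ofReal A * avp t M r F y := by
  obtain ⟨A, hA⟩ := loc_const (V := V) C M t ht hM
  refine ⟨A, fun r w₀ F hr hF y => ?_⟩
  have h1 := hA 0 r⁻¹ r⁻¹ w₀ F (inv_pos.2 hr) (inv_pos.2 hr) (hF.mono ?_) y
  · refine h1.trans (le_of_eq ?_)
    congr 1
    unfold avp
    rw [← lintegral_const_mul' _ _ ENNReal.ofReal_ne_top]
    refine lintegral_congr fun y' => ?_
    rw [bdlc_tw_iso M hr, neg_sub]
    ring
  · intro w hw
    refine ⟨r • (w - w₀), ?_, ?_⟩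
    · rw [mem_closedBall, dist_eq_norm] at hw
      rw [mem_closedBall, dist_zero_right, norm_smul, Real.norm_eq_abs, abs_of_pos hr]
      rwa [le_div_iff₀ hr, mul_comm] at hw
    · unfold LamT
      ext
      · simp [smul_smul, inv_mul_cancel₀ hr.ne']
      · simp [inv_mul_cancel_left₀ hr.ne']

omit [InnerProductSpace ℝ V] [MeasurableSpace V] [BorelSpace V] [FiniteDimensional ℝ V] in
theorem bdlc_wt_rpow (E : ℝ) {r q : ℝ} (hr : 0 < r) (hq : 0 ≤ q) (y : V × ℝ) :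
    wt E r y ^ q = wt (E * q) r y := by
  unfold wt
  have h0 : 0 < 1 + ‖y‖ / r := by positivity
  rw [ENNReal.ofReal_rpow_of_nonneg (by positivity) hq, ← Real.rpow_mul h0.le]
  congr 2
  ring

/-- **Bernstein / reverse Hölder** with weights.
PLAN: `X^t := avp t (E t/p) r F z`.  By `loc_const_ball` (with `M = E t/p + d + 1`) and Peetre: `sup_y (1+|y-z|/r)^(-E t/p) |F y|^t ≤ A X^t`; then `|F|^p w_E = (|F|^t w_{E t/p})^((p-t)/t) |F|^t w_{E t/p}`. -/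
theorem bernstein (C E t p : ℝ) (ht : 1 ≤ t) (htp : t ≤ p) (hE : 0 ≤ E) :
    ∃ A : ℝ, ∀ (r : ℝ) (w₀ : V × ℝ) (F : V × ℝ → ℂ), 0 < r → FS (closedBall w₀ (C / r)) F →
      ∀ z, avp p E r F z ^ (1 / p) ≤ ENNReal.ofReal A * avp t (E * t / p) r F z ^ (1 / t) := by
  have ht0 : 0 < t := by linarith
  have hp0 : 0 < p := by linarith
  have hE' : 0 ≤ E * t / p := by positivity
  obtain ⟨A₁, hA₁⟩ := loc_const_ball (V := V) C (E * t / p + (dd V : ℝ) + 1) t ht (by linarith)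
  set B := max A₁ 0 with hB
  have hB0 : 0 ≤ B := le_max_right _ _
  have he0 : 0 ≤ (p - t) / t := div_nonneg (by linarith) ht0.le
  refine ⟨B ^ ((p - t) / t * (1 / p)), fun r w₀ F hr hF z => ?_⟩
  set E' := E * t / p with hE'def
  set X := avp t E' r F z with hX
  set u : V × ℝ → ℝ≥0∞ := fun y => ‖F y‖ₑ ^ t * wt E' r (y - z) with hu
  -- the sup bound
  have hsup : ∀ y, u y ≤ ENNReal.ofReal B * X := by
    intro y
    have h1 := hA₁ r w₀ F hr hF y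
    calc u y ≤ (ENNReal.ofReal A₁ * avp t (E' + (dd V : ℝ) + 1) r F y) * wt E' r (y - z) :=
          mul_le_mul_left h1 _
      _ ≤ (ENNReal.ofReal B * avp t E' r F y) * wt E' r (y - z) := by
          refine mul_le_mul_left (mul_le_mul' (ENNReal.ofReal_le_ofReal (le_max_left _ _)) ?_) _
          exact avp_mono_E (by have : (0 : ℝ) ≤ (dd V : ℝ) := Nat.cast_nonneg _; linarith) hr F y
      _ = ENNReal.ofReal B * (avp t E' r F y * wt E' r (y - z)) := by ring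
      _ ≤ ENNReal.ofReal B * X := by
          refine mul_le_mul_right ?_ _
          rw [hX]
          unfold avp
          rw [mul_assoc]
          refine mul_le_mul_right ?_ _
          rw [← lintegral_mul_const' _ _ (by unfold wt; exact ENNReal.ofReal_ne_top)]
          refine lintegral_mono fun y' => ?_
          rw [mul_assoc]
          refine mul_le_mul_right ?_ _
          have := wt_peetre hE' hr (y' - y) (y - z)
          rwa [sub_add_sub_cancel] at this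
  have hpow : ∀ y, ‖F y‖ₑ ^ p * wt E r (y - z) = u y ^ ((p - t) / t) * u y := by
    intro y
    have e1 : u y ^ ((p - t) / t) * u y = u y ^ (p / t) := by
      have e2 : p / t = (p - t) / t + 1 := by field_simp; ring
      rw [e2, ENNReal.rpow_add_of_nonneg _ _ he0 zero_le_one, ENNReal.rpow_one]
    rw [e1, hu]
    simp only
    rw [ENNReal.mul_rpow_of_nonneg _ _ (by positivity), ← ENNReal.rpow_mul,
      bdlc_wt_rpow E' hr (by positivity)]
    congr 2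
    · field_simp
    · rw [hE'def]; field_simp
  have hmain : avp p E r F z ≤ (ENNReal.ofReal B * X) ^ ((p - t) / t) * X := by
    rw [hX]
    unfold avp
    rw [mul_left_comm]
    refine mul_le_mul_right ?_ _
    by_cases htop : (ENNReal.ofReal B * avp t E' r F z) ^ ((p - t) / t) = ∞
    · have hcases : (∫⁻ y, ‖F y‖ₑ ^ t * wt E' r (y - z)) = 0 ∨ (∫⁻ y, ‖F y‖ₑ ^ t * wt E' r (y - z)) ≠ 0 :=
        eq_or_ne _ _
      rcases hcases with h0 | h0
      · -- then `X = 0`, contradiction with `htop` unless exponent zero; handle directly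
        exfalso
        have hX0 : avp t E' r F z = 0 := by unfold avp; rw [h0, mul_zero]
        rw [hX0, mul_zero] at htop
        rcases he0.eq_or_lt with h | h
        · rw [← h, ENNReal.rpow_zero] at htop; exact ENNReal.one_ne_top htop
        · rw [ENNReal.zero_rpow_of_pos h] at htop; exact ENNReal.zero_ne_top htop
      · unfold avp at htop
        rw [htop, ENNReal.top_mul h0]; exact le_top
    · rw [← lintegral_const_mul' _ _ (by unfold avp at htop; exact htop)]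
      refine lintegral_mono fun y => ?_
      rw [hpow]
      refine mul_le_mul_left (ENNReal.rpow_le_rpow ?_ he0) _
      have := hsup y
      rw [hX] at this
      unfold avp at this
      exact this
  have hp1 : 0 ≤ 1 / p := by positivity
  calc avp p E r F z ^ (1 / p) ≤ ((ENNReal.ofReal B * X) ^ ((p - t) / t) * X) ^ (1 / p) :=
        ENNReal.rpow_le_rpow hmain hp1
    _ = ENNReal.ofReal (B ^ ((p - t) / t * (1 / p))) * X ^ (1 / t) := by
        rw [ENNReal.mul_rpow_of_nonneg _ _ hp1, ← ENNReal.rpow_mul,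
          ENNReal.mul_rpow_of_nonneg _ _ (mul_nonneg he0 hp1),
          ENNReal.ofReal_rpow_of_nonneg hB0 (mul_nonneg he0 hp1), mul_assoc,
          ← ENNReal.rpow_add_of_nonneg _ _ (mul_nonneg he0 hp1) hp1]
        congr 2
        field_simp
        ring

/-- the volume of space-time is a Haar measure. -/
theorem orthx_haar : (volume : Measure (V × ℝ)).IsAddHaarMeasure := by
  rw [Measure.volume_eq_prod]
  infer_instance

omit [FiniteDimensional ℝ V] [MeasurableSpace V] [BorelSpace V] in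
theorem orthx_pr_neg_right (z w : V × ℝ) : pr z (-w) = -pr z w := by
  simp only [pr, Prod.fst_neg, Prod.snd_neg, inner_neg_right]
  ring

omit [FiniteDimensional ℝ V] [MeasurableSpace V] [BorelSpace V] in
theorem orthx_pr_smul (c : ℝ) (hc : c ≠ 0) (z w : V × ℝ) : pr (c⁻¹ • z) (c • w) = pr z w := by
  simp only [pr, Prod.smul_fst, Prod.smul_snd, inner_smul_left, inner_smul_right, smul_eq_mul, RCLike.conj_to_real]
  field_simp

theorem orthx_conj_ch (θ : ℝ) : (starRingEnd ℂ) (ch θ) = ch (-θ) := by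
  unfold ch
  rw [← Complex.exp_conj]
  congr 1
  simp

omit [FiniteDimensional ℝ V] [MeasurableSpace V] [BorelSpace V] in
theorem orthx_continuous_pr : Continuous fun p : (V × ℝ) × (V × ℝ) => pr p.1 p.2 := by
  unfold pr
  fun_prop

theorem orthx_continuous_ch : Continuous ch := by
  unfold ch
  fun_prop

/-- complex conjugation reflects the Fourier support. -/
theorem orthx_FS_conj {S : Set (V × ℝ)} {G : V × ℝ → ℂ} (h : FS S G) :
    FS ((fun w => -w) '' S) (fun z => (starRingEnd ℂ) (G z)) := by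
  have := orthx_haar (V := V)
  obtain ⟨g, hg, hg0, hG⟩ := h
  refine ⟨fun w => (starRingEnd ℂ) (g (-w)), ?_, ?_, ?_⟩
  · have h1 : Integrable (fun w => g (-w)) := hg.comp_neg
    exact (RCLike.conjLIE (K := ℂ)).toLinearIsometry.toContinuousLinearMap.integrable_comp h1
  · intro w hw
    have h1 : -w ∉ S := fun h => hw ⟨-w, h, neg_neg w⟩
    simp [hg0 _ h1]
  · intro z
    show (starRingEnd ℂ) (G z) = _
    rw [hG z, ← integral_conj, ← integral_neg_eq_self]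
    refine integral_congr_ae (Filter.Eventually.of_forall fun w => ?_)
    simp only [map_mul, orthx_conj_ch, orthx_pr_neg_right, neg_neg]

/-- `|η|²` is integrable. -/
theorem orthx_sq_integrable {η : V × ℝ → ℂ} (hη : ∀ M : ℝ, ∃ C : ℝ, ∀ y, ‖η y‖ ≤ C * (1 + ‖y‖) ^ (-M))
    (hc : Continuous η) : Integrable (fun y => ‖η y‖ ^ 2) := by
  have := orthx_haar (V := V)
  obtain ⟨C, hC⟩ := hη (((Module.finrank ℝ (V × ℝ) : ℝ) + 1) / 2)
  have h1 : Integrable (fun y : V × ℝ => C ^ 2 * (1 + ‖y‖) ^ (-((Module.finrank ℝ (V × ℝ) : ℝ) + 1))) :=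
    (integrable_one_add_norm (by linarith)).const_mul _
  refine h1.mono' (by fun_prop) (Filter.Eventually.of_forall fun y => ?_)
  have h2 : (0 : ℝ) < 1 + ‖y‖ := by positivity
  rw [Real.norm_of_nonneg (by positivity)]
  calc ‖η y‖ ^ 2 ≤ (C * (1 + ‖y‖) ^ (-(((Module.finrank ℝ (V × ℝ) : ℝ) + 1) / 2))) ^ 2 :=
        pow_le_pow_left₀ (norm_nonneg _) (hC y) 2
    _ = C ^ 2 * (1 + ‖y‖) ^ (-((Module.finrank ℝ (V × ℝ) : ℝ) + 1)) := by
        rw [mul_pow, ← Real.rpow_mul_natCast h2.le]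
        congr 2
        push_cast
        ring

/-- the dilated and translated weight is integrable. -/
theorem orthx_W_integrable {η : V × ℝ → ℂ} (hη : ∀ M : ℝ, ∃ C : ℝ, ∀ y, ‖η y‖ ≤ C * (1 + ‖y‖) ^ (-M))
    (hc : Continuous η) {R : ℝ} (hR : 0 < R) (z : V × ℝ) : Integrable (fun y => ‖η (R⁻¹ • (y - z))‖ ^ 2) := by
  have := orthx_haar (V := V)
  exact ((orthx_sq_integrable hη hc).comp_smul (inv_ne_zero hR.ne')).comp_sub_right z

/-- the Fourier transform of the dilated weight vanishes outside the ball of radius `2 / R`. -/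
theorem orthx_W_hat {η : V × ℝ → ℂ}
    (h0 : ∀ w : V × ℝ, 2 < ‖w‖ → ∫ y, ((‖η y‖ ^ 2 : ℝ) : ℂ) * ch (pr y w) = 0) {R : ℝ} (hR : 0 < R) (z u : V × ℝ)
    (hu : 2 / R < ‖u‖) : ∫ y, ch (pr y u) * ((‖η (R⁻¹ • (y - z))‖ ^ 2 : ℝ) : ℂ) = 0 := by
  have := orthx_haar (V := V)
  have hRu : 2 < ‖R • u‖ := by
    rw [norm_smul, Real.norm_of_nonneg hR.le]
    rwa [div_lt_iff₀' hR] at hu
  have e : ∀ y, ch (pr y u) * ((‖η (R⁻¹ • (y - z))‖ ^ 2 : ℝ) : ℂ)
      = ch (pr z u) * (fun y' => ((‖η y'‖ ^ 2 : ℝ) : ℂ) * ch (pr y' (R • u))) (R⁻¹ • (y - z)) := by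
    intro y
    have e1 : pr y u = pr z u + pr (R⁻¹ • (y - z)) (R • u) := by
      rw [orthx_pr_smul R hR.ne', ← pr_add_left]
      congr 1
      abel
    simp only [e1, ch_add]
    ring
  simp only [e]
  rw [integral_const_mul, integral_sub_right_eq_self (fun y => (fun y' => ((‖η y'‖ ^ 2 : ℝ) : ℂ) * ch (pr y' (R • u))) (R⁻¹ • y)) z,
    Measure.integral_comp_smul volume (fun y' => ((‖η y'‖ ^ 2 : ℝ) : ℂ) * ch (pr y' (R • u))) R⁻¹, h0 _ hRu, smul_zero,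
    mul_zero]

/-- a function with Fourier support outside the ball of radius `2 / R` is orthogonal to the weight. -/
theorem orthx_FS_W {η : V × ℝ → ℂ} (hη : ∀ M : ℝ, ∃ C : ℝ, ∀ y, ‖η y‖ ≤ C * (1 + ‖y‖) ^ (-M)) (hc : Continuous η)
    (h0 : ∀ w : V × ℝ, 2 < ‖w‖ → ∫ y, ((‖η y‖ ^ 2 : ℝ) : ℂ) * ch (pr y w) = 0)
    {T : Set (V × ℝ)} {H : V × ℝ → ℂ} (hH : FS T H) {R : ℝ} (hR : 0 < R) (hT : ∀ u ∈ T, 2 / R < ‖u‖) (z : V × ℝ) :
    ∫ y, H y * ((‖η (R⁻¹ • (y - z))‖ ^ 2 : ℝ) : ℂ) = 0 := by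
  obtain ⟨h, hh, hh0, hHe⟩ := hH
  have hW : Integrable (fun y => ((‖η (R⁻¹ • (y - z))‖ ^ 2 : ℝ) : ℂ)) := (orthx_W_integrable hη hc hR z).ofReal
  have hint : Integrable (Function.uncurry fun (y u : V × ℝ) =>
      ch (pr y u) * h u * ((‖η (R⁻¹ • (y - z))‖ ^ 2 : ℝ) : ℂ)) (volume.prod volume) := by
    have h1 : Integrable (fun p : (V × ℝ) × (V × ℝ) => ((‖η (R⁻¹ • (p.1 - z))‖ ^ 2 : ℝ) : ℂ) * h p.2)
        (volume.prod volume) := hW.mul_prod hh
    have h2 := h1.bdd_mul (c := 1) (f := fun p : (V × ℝ) × (V × ℝ) => ch (pr p.1 p.2))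
      (orthx_continuous_ch.comp orthx_continuous_pr).aestronglyMeasurable
      (Filter.Eventually.of_forall fun p => (norm_ch _).le)
    refine h2.congr (Filter.Eventually.of_forall fun p => ?_)
    simp only [Function.uncurry]
    ring
  calc ∫ y, H y * ((‖η (R⁻¹ • (y - z))‖ ^ 2 : ℝ) : ℂ)
      = ∫ y, ∫ u, ch (pr y u) * h u * ((‖η (R⁻¹ • (y - z))‖ ^ 2 : ℝ) : ℂ) := by
        refine integral_congr_ae (Filter.Eventually.of_forall fun y => ?_)
        simp only [hHe y]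
        rw [integral_mul_const]
    _ = ∫ u, ∫ y, ch (pr y u) * h u * ((‖η (R⁻¹ • (y - z))‖ ^ 2 : ℝ) : ℂ) := integral_integral_swap hint
    _ = ∫ _u : V × ℝ, (0 : ℂ) := by
        refine integral_congr_ae (Filter.Eventually.of_forall fun u => ?_)
        by_cases hu : u ∈ T
        · have e : ∀ y, ch (pr y u) * h u * ((‖η (R⁻¹ • (y - z))‖ ^ 2 : ℝ) : ℂ)
              = h u * (ch (pr y u) * ((‖η (R⁻¹ • (y - z))‖ ^ 2 : ℝ) : ℂ)) := fun y => by ring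
          simp only [e]
          rw [integral_const_mul, orthx_W_hat h0 hR z u (hT u hu), mul_zero]
        · simp [hh0 u hu]
    _ = 0 := integral_zero _ _

/-- vanishing of the cross terms: Fubini + the last clause of `exists_eta`, dilated. -/
theorem orth_cross {η : V × ℝ → ℂ} (hη : ∀ M : ℝ, ∃ C : ℝ, ∀ y, ‖η y‖ ≤ C * (1 + ‖y‖) ^ (-M)) (hc : Continuous η)
    (h0 : ∀ w : V × ℝ, 2 < ‖w‖ → ∫ y, ((‖η y‖ ^ 2 : ℝ) : ℂ) * ch (pr y w) = 0)
    {S S' : Set (V × ℝ)} {F G : V × ℝ → ℂ} (hF : FS S F) (hG : FS S' G) {R : ℝ} (hR : 0 < R)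
    (hS : ∀ w ∈ S, ∀ w' ∈ S', 2 / R < ‖w - w'‖) (z : V × ℝ) :
    ∫ y, F y * (starRingEnd ℂ) (G y) * ((‖η (R⁻¹ • (y - z))‖ ^ 2 : ℝ) : ℂ) = 0 := by
  refine orthx_FS_W hη hc h0 (hF.mul (orthx_FS_conj hG)) hR ?_ z
  rintro u ⟨w, hw, _, ⟨w', hw', rfl⟩, rfl⟩
  have := hS w hw w' hw'
  rwa [sub_eq_add_neg] at this

/-- integrability of a product of two bounded continuous functions against the weight. -/
theorem orthx_pair_integrable {η : V × ℝ → ℂ} (hη : ∀ M : ℝ, ∃ C : ℝ, ∀ y, ‖η y‖ ≤ C * (1 + ‖y‖) ^ (-M))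
    (hc : Continuous η) {R : ℝ} (hR : 0 < R) (z : V × ℝ) {P Q : V × ℝ → ℂ} (hP : Continuous P) (hQ : Continuous Q)
    {B B' : ℝ} (hBP : ∀ y, ‖P y‖ ≤ B) (hBQ : ∀ y, ‖Q y‖ ≤ B') :
    Integrable (fun y => P y * (starRingEnd ℂ) (Q y) * ((‖η (R⁻¹ • (y - z))‖ ^ 2 : ℝ) : ℂ)) := by
  refine (orthx_W_integrable hη hc hR z).ofReal.bdd_mul (c := B * B') (by fun_prop)
    (Filter.Eventually.of_forall fun y => ?_)
  rw [norm_mul, RCLike.norm_conj]
  exact mul_le_mul (hBP y) (hBQ y) (norm_nonneg _) ((norm_nonneg _).trans (hBP y))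

/-- integrability of `|P|² W`. -/
theorem orthx_sq_W_integrable {η : V × ℝ → ℂ} (hη : ∀ M : ℝ, ∃ C : ℝ, ∀ y, ‖η y‖ ≤ C * (1 + ‖y‖) ^ (-M))
    (hc : Continuous η) {R : ℝ} (hR : 0 < R) (z : V × ℝ) {P : V × ℝ → ℂ} (hP : Continuous P)
    {B : ℝ} (hBP : ∀ y, ‖P y‖ ≤ B) : Integrable (fun y => ‖P y‖ ^ 2 * ‖η (R⁻¹ • (y - z))‖ ^ 2) := by
  refine (orthx_W_integrable hη hc hR z).bdd_mul (c := B ^ 2) (by fun_prop)
    (Filter.Eventually.of_forall fun y => ?_)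
  rw [Real.norm_of_nonneg (by positivity)]
  exact pow_le_pow_left₀ (norm_nonneg _) (hBP y) 2

/-- from the lower integral to the Bochner integral. -/
theorem orthx_lint_eq {η : V × ℝ → ℂ} (hη : ∀ M : ℝ, ∃ C : ℝ, ∀ y, ‖η y‖ ≤ C * (1 + ‖y‖) ^ (-M))
    (hc : Continuous η) {R : ℝ} (hR : 0 < R) (z : V × ℝ) {P : V × ℝ → ℂ} (hP : Continuous P)
    {B : ℝ} (hBP : ∀ y, ‖P y‖ ≤ B) :
    ∫⁻ y, ‖P y‖ₑ ^ (2 : ℝ) * ‖η (R⁻¹ • (y - z))‖ₑ ^ (2 : ℝ)
      = ENNReal.ofReal (∫ y, ‖P y‖ ^ 2 * ‖η (R⁻¹ • (y - z))‖ ^ 2) := by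
  rw [ofReal_integral_eq_lintegral_ofReal (orthx_sq_W_integrable hη hc hR z hP hBP)
    (Filter.Eventually.of_forall fun y => by positivity)]
  refine lintegral_congr fun y => ?_
  rw [ENNReal.ofReal_mul (by positivity), ENNReal.ofReal_pow (norm_nonneg _), ENNReal.ofReal_pow (norm_nonneg _),
    ofReal_norm, ofReal_norm, ENNReal.rpow_two, ENNReal.rpow_two]

/-- `2 |ab| ≤ a² + b²` under the integral. -/
theorem orthx_pair_norm_le {η : V × ℝ → ℂ} (hη : ∀ M : ℝ, ∃ C : ℝ, ∀ y, ‖η y‖ ≤ C * (1 + ‖y‖) ^ (-M))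
    (hc : Continuous η) {R : ℝ} (hR : 0 < R) (z : V × ℝ) {P Q : V × ℝ → ℂ} (hP : Continuous P) (hQ : Continuous Q)
    {B B' : ℝ} (hBP : ∀ y, ‖P y‖ ≤ B) (hBQ : ∀ y, ‖Q y‖ ≤ B') :
    ‖∫ y, P y * (starRingEnd ℂ) (Q y) * ((‖η (R⁻¹ • (y - z))‖ ^ 2 : ℝ) : ℂ)‖
      ≤ ((∫ y, ‖P y‖ ^ 2 * ‖η (R⁻¹ • (y - z))‖ ^ 2) + ∫ y, ‖Q y‖ ^ 2 * ‖η (R⁻¹ • (y - z))‖ ^ 2) / 2 := by
  have h1 := orthx_sq_W_integrable hη hc hR z hP hBP
  have h2 := orthx_sq_W_integrable hη hc hR z hQ hBQ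
  rw [← integral_add h1 h2, ← integral_div]
  refine (norm_integral_le_integral_norm _).trans (integral_mono (orthx_pair_integrable hη hc hR z hP hQ hBP hBQ).norm
    ((h1.add h2).div_const 2) fun y => ?_)
  simp only [norm_mul, RCLike.norm_conj, Complex.norm_real]
  rw [Real.norm_of_nonneg (by positivity)]
  nlinarith [sq_nonneg (‖P y‖ - ‖Q y‖), sq_nonneg ‖η (R⁻¹ • (y - z))‖]

/-- almost orthogonality with the weight `|η((y - z)/R)|²`: expand the square, `orth_cross`, `2|ab| ≤ a² + b²`, `mult_scale` (the number of `j'` with `|v j - v j'| ≤ (2C+2)/R` is `≤ (4C+5)^k C`). -/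
theorem orth_eta (C : ℝ) (hC : 0 ≤ C) {η : V × ℝ → ℂ} (hη : ∀ M : ℝ, ∃ C : ℝ, ∀ y, ‖η y‖ ≤ C * (1 + ‖y‖) ^ (-M)) (hc : Continuous η)
    (h0 : ∀ w : V × ℝ, 2 < ‖w‖ → ∫ y, ((‖η y‖ ^ 2 : ℝ) : ℂ) * ch (pr y w) = 0)
    {R : ℝ} (hR : 0 < R) {ι : Type} (s : Finset ι) (v : ι → V) (F : ι → V × ℝ → ℂ)
    (hF : ∀ j ∈ s, FS {w | ‖w.1 - v j‖ ≤ C / R} (F j))
    (hm : ∀ ξ : V, ∀ t ⊆ s, (∀ j ∈ t, ‖v j - ξ‖ ≤ 1 / R) → (t.card : ℝ) ≤ C) (z : V × ℝ) :
    ∫⁻ y, ‖∑ j ∈ s, F j y‖ₑ ^ (2 : ℝ) * ‖η (R⁻¹ • (y - z))‖ₑ ^ (2 : ℝ) ≤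
      ENNReal.ofReal ((4 * C + 5) ^ Module.finrank ℝ V * C) * ∑ j ∈ s, ∫⁻ y, ‖F j y‖ₑ ^ (2 : ℝ) * ‖η (R⁻¹ • (y - z))‖ₑ ^ (2 : ℝ) := by
  classical
  have hcF : ∀ j ∈ s, Continuous (F j) := fun j hj => (hF j hj).continuous
  have hbF : ∀ j ∈ s, ∃ B : ℝ, ∀ y, ‖F j y‖ ≤ B := fun j hj => (hF j hj).bdd
  choose! B hB using hbF
  have hcS : Continuous fun y => ∑ j ∈ s, F j y := continuous_finsetSum _ hcF
  have hbS : ∀ y, ‖∑ j ∈ s, F j y‖ ≤ ∑ j ∈ s, B j := fun y => norm_sum_le_of_le _ fun j hj => hB j hj y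
  have hN0 : 0 ≤ (4 * C + 5) ^ Module.finrank ℝ V * C := by positivity
  set a : ι → ℝ := fun j => ∫ y, ‖F j y‖ ^ 2 * ‖η (R⁻¹ • (y - z))‖ ^ 2 with ha
  have ha0 : ∀ j, 0 ≤ a j := fun j => integral_nonneg fun y => by positivity
  set I : ι → ι → ℂ := fun j j' => ∫ y, F j y * (starRingEnd ℂ) (F j' y) * ((‖η (R⁻¹ • (y - z))‖ ^ 2 : ℝ) : ℂ) with hI
  have hint : ∀ j ∈ s, ∀ j' ∈ s,
      Integrable (fun y => F j y * (starRingEnd ℂ) (F j' y) * ((‖η (R⁻¹ • (y - z))‖ ^ 2 : ℝ) : ℂ)) :=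
    fun j hj j' hj' => orthx_pair_integrable hη hc hR z (hcF j hj) (hcF j' hj') (hB j hj) (hB j' hj')
  -- expansion of the square
  have hexp : ((∫ y, ‖∑ j ∈ s, F j y‖ ^ 2 * ‖η (R⁻¹ • (y - z))‖ ^ 2 : ℝ) : ℂ) = ∑ j ∈ s, ∑ j' ∈ s, I j j' := by
    rw [← integral_complex_ofReal]
    calc ∫ y, ((‖∑ j ∈ s, F j y‖ ^ 2 * ‖η (R⁻¹ • (y - z))‖ ^ 2 : ℝ) : ℂ)
        = ∫ y, ∑ j ∈ s, ∑ j' ∈ s, F j y * (starRingEnd ℂ) (F j' y) * ((‖η (R⁻¹ • (y - z))‖ ^ 2 : ℝ) : ℂ) := by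
          refine integral_congr_ae (Filter.Eventually.of_forall fun y => ?_)
          simp only []
          rw [Complex.ofReal_mul, Complex.ofReal_pow, ← Complex.mul_conj', map_sum, Finset.sum_mul_sum, Finset.sum_mul]
          exact Finset.sum_congr rfl fun j _ => Finset.sum_mul _ _ _
      _ = ∑ j ∈ s, ∫ y, ∑ j' ∈ s, F j y * (starRingEnd ℂ) (F j' y) * ((‖η (R⁻¹ • (y - z))‖ ^ 2 : ℝ) : ℂ) :=
          integral_finsetSum _ fun j hj => integrable_finsetSum _ fun j' hj' => hint j hj j' hj'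
      _ = ∑ j ∈ s, ∑ j' ∈ s, I j j' :=
          Finset.sum_congr rfl fun j hj => integral_finsetSum _ fun j' hj' => hint j hj j' hj'
  have hle : ∫ y, ‖∑ j ∈ s, F j y‖ ^ 2 * ‖η (R⁻¹ • (y - z))‖ ^ 2 ≤ ∑ j ∈ s, ∑ j' ∈ s, ‖I j j'‖ := by
    have e : ∫ y, ‖∑ j ∈ s, F j y‖ ^ 2 * ‖η (R⁻¹ • (y - z))‖ ^ 2 = (∑ j ∈ s, ∑ j' ∈ s, I j j').re := by
      rw [← hexp, Complex.ofReal_re]
    rw [e]
    refine (Complex.re_le_norm _).trans ((norm_sum_le _ _).trans (Finset.sum_le_sum fun j _ => norm_sum_le _ _))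
  -- the single terms
  have hterm : ∀ j ∈ s, ∀ j' ∈ s,
      ‖I j j'‖ ≤ if ‖v j - v j'‖ ≤ (2 * C + 2) / R then (a j + a j') / 2 else 0 := by
    intro j hj j' hj'
    split_ifs with hcl
    · exact orthx_pair_norm_le hη hc hR z (hcF j hj) (hcF j' hj') (hB j hj) (hB j' hj')
    · have hz : I j j' = 0 := by
        refine orth_cross hη hc h0 (hF j hj) (hF j' hj') hR ?_ z
        intro w hw w' hw'
        have h1 : ‖w.1 - v j‖ ≤ C / R := hw
        have h2 : ‖w'.1 - v j'‖ ≤ C / R := hw'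
        have h3 : ‖w.1 - w'.1‖ ≤ ‖w - w'‖ := norm_fst_le (w - w')
        have h4 : ‖v j - v j'‖ ≤ ‖w.1 - v j‖ + ‖w.1 - w'.1‖ + ‖w'.1 - v j'‖ := by
          have e : v j - v j' = -(w.1 - v j) + (w.1 - w'.1) + (w'.1 - v j') := by abel
          rw [e]
          refine (norm_add_le _ _).trans (add_le_add_left ((norm_add_le _ _).trans ?_) _)
          rw [norm_neg]
        push Not at hcl
        have e2 : (2 * C + 2) / R = C / R + 2 / R + C / R := by ring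
        linarith
      rw [hz, norm_zero]
  -- counting
  have hcount : ∀ j ∈ s, ∑ j' ∈ s, (if ‖v j - v j'‖ ≤ (2 * C + 2) / R then a j / 2 else 0)
      ≤ (4 * C + 5) ^ Module.finrank ℝ V * C * (a j / 2) := by
    intro j _
    rw [← Finset.sum_filter, Finset.sum_const, nsmul_eq_mul]
    refine mul_le_mul_of_nonneg_right ?_ (by have := ha0 j; positivity)
    have h1 := mult_scale (A := 2 * C + 2) (one_div_pos.2 hR) (by positivity) hm (v j)
      (s.filter fun j' => ‖v j - v j'‖ ≤ (2 * C + 2) / R) (Finset.filter_subset _ _) (by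
        intro j' hj'
        rw [norm_sub_rev, mul_one_div]
        exact (Finset.mem_filter.1 hj').2)
    have e : 2 * (2 * C + 2) + 1 = 4 * C + 5 := by ring
    rwa [e] at h1
  have hdouble : ∑ j ∈ s, ∑ j' ∈ s, (if ‖v j - v j'‖ ≤ (2 * C + 2) / R then (a j + a j') / 2 else 0)
      ≤ (4 * C + 5) ^ Module.finrank ℝ V * C * ∑ j ∈ s, a j := by
    have e1 : ∑ j ∈ s, ∑ j' ∈ s, (if ‖v j - v j'‖ ≤ (2 * C + 2) / R then (a j + a j') / 2 else 0)
        = ∑ j ∈ s, ∑ j' ∈ s, (if ‖v j - v j'‖ ≤ (2 * C + 2) / R then a j / 2 else 0)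
          + ∑ j ∈ s, ∑ j' ∈ s, (if ‖v j - v j'‖ ≤ (2 * C + 2) / R then a j' / 2 else 0) := by
      rw [← Finset.sum_add_distrib]
      refine Finset.sum_congr rfl fun j _ => ?_
      rw [← Finset.sum_add_distrib]
      refine Finset.sum_congr rfl fun j' _ => ?_
      split_ifs
      · ring
      · ring
    have e2 : ∑ j ∈ s, ∑ j' ∈ s, (if ‖v j - v j'‖ ≤ (2 * C + 2) / R then a j' / 2 else 0)
        = ∑ j ∈ s, ∑ j' ∈ s, (if ‖v j - v j'‖ ≤ (2 * C + 2) / R then a j / 2 else 0) := by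
      rw [Finset.sum_comm]
      refine Finset.sum_congr rfl fun j _ => Finset.sum_congr rfl fun j' _ => ?_
      rw [norm_sub_rev]
    rw [e1, e2, Finset.mul_sum]
    have h3 := Finset.sum_le_sum hcount
    calc _ ≤ ∑ j ∈ s, (4 * C + 5) ^ Module.finrank ℝ V * C * (a j / 2)
          + ∑ j ∈ s, (4 * C + 5) ^ Module.finrank ℝ V * C * (a j / 2) := add_le_add h3 h3
      _ = ∑ j ∈ s, (4 * C + 5) ^ Module.finrank ℝ V * C * a j := by
          rw [← Finset.sum_add_distrib]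
          exact Finset.sum_congr rfl fun j _ => by ring
  have hfinal : ∫ y, ‖∑ j ∈ s, F j y‖ ^ 2 * ‖η (R⁻¹ • (y - z))‖ ^ 2
      ≤ (4 * C + 5) ^ Module.finrank ℝ V * C * ∑ j ∈ s, a j :=
    hle.trans ((Finset.sum_le_sum fun j hj => Finset.sum_le_sum fun j' hj' => hterm j hj j' hj').trans hdouble)
  rw [orthx_lint_eq hη hc hR z hcS hbS]
  refine (ENNReal.ofReal_le_ofReal hfinal).trans (le_of_eq ?_)
  rw [ENNReal.ofReal_mul hN0, ENNReal.ofReal_sum_of_nonneg fun j _ => ha0 j]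
  congr 1
  exact Finset.sum_congr rfl fun j hj => (orthx_lint_eq hη hc hR z (hcF j hj) (hB j hj)).symm

/-- Tonelli for the averaging over the centres. -/
theorem orthx_swap (P w e : V × ℝ → ℝ≥0∞) (hP : Measurable P) (hw : Measurable w) (he : Measurable e) (z : V × ℝ) :
    ∫⁻ y, P y * ∫⁻ y', e (y - (z + y')) * w y' = ∫⁻ y', w y' * ∫⁻ y, P y * e (y - (z + y')) := by
  calc ∫⁻ y, P y * ∫⁻ y', e (y - (z + y')) * w y'
      = ∫⁻ y, ∫⁻ y', P y * (e (y - (z + y')) * w y') := by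
        refine lintegral_congr fun y => ?_
        rw [lintegral_const_mul]
        exact (he.comp (measurable_const.sub (measurable_const.add measurable_id))).mul hw
    _ = ∫⁻ y', ∫⁻ y, P y * (e (y - (z + y')) * w y') := by
        refine lintegral_lintegral_swap (Measurable.aemeasurable ?_)
        exact (hP.comp measurable_fst).mul
          ((he.comp (measurable_fst.sub (measurable_const.add measurable_snd))).mul (hw.comp measurable_snd))
    _ = ∫⁻ y', w y' * ∫⁻ y, P y * e (y - (z + y')) := by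
        refine lintegral_congr fun y' => ?_
        rw [← lintegral_const_mul]
        · refine lintegral_congr fun y => ?_
          ring
        · exact hP.mul (he.comp (measurable_id.sub measurable_const))

/-- the weight is dominated by the average of the translated bumps. -/
theorem orthx_wt_le {η : V × ℝ → ℂ} (hge : ∀ y, ‖y‖ ≤ 1 → 1 ≤ ‖η y‖) {E : ℝ} (hE : 0 ≤ E) {c₁ : ℝ} (hc₁ : 0 < c₁)
    (hvol : ∀ (z : V × ℝ) (R : ℝ), 0 < R → volume (closedBall z R) = ENNReal.ofReal (c₁ * R ^ (dd V : ℝ)))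
    {R : ℝ} (hR : 0 < R) (x : V × ℝ) :
    wt E R x ≤ ENNReal.ofReal (2 ^ E * c₁⁻¹ * R ^ (-(dd V : ℝ))) *
      ∫⁻ y', ‖η (R⁻¹ • (x - y'))‖ₑ ^ (2 : ℝ) * wt E R y' := by
  have h1 : ENNReal.ofReal ((1 + 1) ^ (-E)) * wt E R x * ENNReal.ofReal (c₁ * R ^ (dd V : ℝ))
      ≤ ∫⁻ y', ‖η (R⁻¹ • (x - y'))‖ₑ ^ (2 : ℝ) * wt E R y' := by
    calc ENNReal.ofReal ((1 + 1) ^ (-E)) * wt E R x * ENNReal.ofReal (c₁ * R ^ (dd V : ℝ))
        = ∫⁻ _ in closedBall x R, ENNReal.ofReal ((1 + 1) ^ (-E)) * wt E R x := by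
          rw [setLIntegral_const, hvol x R hR]
      _ ≤ ∫⁻ y' in closedBall x R, ‖η (R⁻¹ • (x - y'))‖ₑ ^ (2 : ℝ) * wt E R y' := by
          refine setLIntegral_mono' measurableSet_closedBall fun y' hy' => ?_
          rw [mem_closedBall, dist_eq_norm] at hy'
          have h2 : ‖R⁻¹ • (x - y')‖ ≤ 1 := by
            rw [norm_smul, norm_inv, Real.norm_of_nonneg hR.le, norm_sub_rev, inv_mul_le_iff₀ hR, mul_one]
            exact hy'
          have h3 : (1 : ℝ≥0∞) ≤ ‖η (R⁻¹ • (x - y'))‖ₑ ^ (2 : ℝ) := by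
            refine ENNReal.one_le_rpow ?_ (by norm_num)
            rw [← ofReal_norm]
            exact ENNReal.one_le_ofReal.2 (hge _ h2)
          have h4 : ENNReal.ofReal ((1 + 1) ^ (-E)) ≤ wt E R (y' - x) :=
            wt_ge_of_le hE hR (by rw [one_mul]; exact hy')
          have h5 := wt_peetre hE hR x (y' - x)
          rw [add_sub_cancel] at h5
          calc ENNReal.ofReal ((1 + 1) ^ (-E)) * wt E R x ≤ wt E R (y' - x) * wt E R x := mul_le_mul' h4 le_rfl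
            _ = wt E R x * wt E R (y' - x) := mul_comm _ _
            _ ≤ wt E R y' := h5
            _ = 1 * wt E R y' := (one_mul _).symm
            _ ≤ _ := mul_le_mul' h3 le_rfl
      _ ≤ _ := setLIntegral_le_lintegral _ _
  have hRd : 0 < R ^ (dd V : ℝ) := Real.rpow_pos_of_pos hR _
  have h2E : (0 : ℝ) < 2 ^ E := Real.rpow_pos_of_pos (by norm_num) _
  have hone : 2 ^ E * c₁⁻¹ * R ^ (-(dd V : ℝ)) * ((1 + 1) ^ (-E) * (c₁ * R ^ (dd V : ℝ))) = 1 := by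
    rw [Real.rpow_neg hR.le, show (1 + 1 : ℝ) = 2 by norm_num, Real.rpow_neg (by norm_num)]
    field_simp
  calc wt E R x = ENNReal.ofReal (2 ^ E * c₁⁻¹ * R ^ (-(dd V : ℝ))) *
        (ENNReal.ofReal ((1 + 1) ^ (-E)) * wt E R x * ENNReal.ofReal (c₁ * R ^ (dd V : ℝ))) := by
        have e : ENNReal.ofReal (2 ^ E * c₁⁻¹ * R ^ (-(dd V : ℝ))) *
            (ENNReal.ofReal ((1 + 1) ^ (-E)) * wt E R x * ENNReal.ofReal (c₁ * R ^ (dd V : ℝ)))
            = (ENNReal.ofReal (2 ^ E * c₁⁻¹ * R ^ (-(dd V : ℝ))) *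
              (ENNReal.ofReal ((1 + 1) ^ (-E)) * ENNReal.ofReal (c₁ * R ^ (dd V : ℝ)))) * wt E R x := by ring
        rw [e, ← ENNReal.ofReal_mul (by positivity), ← ENNReal.ofReal_mul (by positivity), hone, ENNReal.ofReal_one,
          one_mul]
    _ ≤ _ := mul_le_mul' le_rfl h1

/-- the convolution of the weight with the bump is dominated by the weight. -/
theorem orthx_conv_le {η : V × ℝ → ℂ} {E C₀ : ℝ} (hE : 0 ≤ E)
    (hdec : ∀ y, ‖η y‖ ≤ C₀ * (1 + ‖y‖) ^ (-((E + ((dd V : ℝ) + 1)) / 2))) {c₂ : ℝ}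
    (hwt : ∀ R : ℝ, 0 < R → ∫⁻ y : V × ℝ, wt ((dd V : ℝ) + 1) R y = ENNReal.ofReal (c₂ * R ^ (dd V : ℝ)))
    {R : ℝ} (hR : 0 < R) (x : V × ℝ) :
    ∫⁻ y', ‖η (R⁻¹ • (x - y'))‖ₑ ^ (2 : ℝ) * wt E R y'
      ≤ ENNReal.ofReal (C₀ ^ 2) * ENNReal.ofReal (c₂ * R ^ (dd V : ℝ)) * wt E R x := by
  have := orthx_haar (V := V)
  have hpt : ∀ u : V × ℝ, ‖η (R⁻¹ • u)‖ₑ ^ (2 : ℝ) ≤ ENNReal.ofReal (C₀ ^ 2) * wt (E + ((dd V : ℝ) + 1)) R u := by
    intro u
    have hn : ‖R⁻¹ • u‖ = ‖u‖ / R := by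
      rw [norm_smul, norm_inv, Real.norm_of_nonneg hR.le, div_eq_inv_mul]
    have h2 : (0 : ℝ) < 1 + ‖u‖ / R := by positivity
    have h1 := hdec (R⁻¹ • u)
    rw [hn] at h1
    rw [ENNReal.rpow_two, ← ofReal_norm, ← ENNReal.ofReal_pow (norm_nonneg _)]
    unfold wt
    rw [← ENNReal.ofReal_mul (by positivity)]
    refine ENNReal.ofReal_le_ofReal ((pow_le_pow_left₀ (norm_nonneg _) h1 2).trans (le_of_eq ?_))
    rw [mul_pow, ← Real.rpow_mul_natCast h2.le]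
    congr 2
    push_cast
    ring
  calc ∫⁻ y', ‖η (R⁻¹ • (x - y'))‖ₑ ^ (2 : ℝ) * wt E R y'
      ≤ ∫⁻ y', ENNReal.ofReal (C₀ ^ 2) * wt E R x * wt ((dd V : ℝ) + 1) R (x - y') := by
        refine lintegral_mono fun y' => ?_
        have h5 := wt_peetre hE hR (x - y') y'
        rw [sub_add_cancel] at h5
        calc ‖η (R⁻¹ • (x - y'))‖ₑ ^ (2 : ℝ) * wt E R y'
            ≤ ENNReal.ofReal (C₀ ^ 2) * wt (E + ((dd V : ℝ) + 1)) R (x - y') * wt E R y' := mul_le_mul' (hpt _) le_rfl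
          _ = ENNReal.ofReal (C₀ ^ 2) * (wt E R (x - y') * wt E R y') * wt ((dd V : ℝ) + 1) R (x - y') := by
              rw [← wt_mul hR]
              ring
          _ ≤ _ := mul_le_mul' (mul_le_mul' le_rfl h5) le_rfl
    _ = ENNReal.ofReal (C₀ ^ 2) * wt E R x * ∫⁻ y', wt ((dd V : ℝ) + 1) R (x - y') := by
        rw [lintegral_const_mul]
        exact (measurable_wt _ _).comp (measurable_const.sub measurable_id)
    _ = ENNReal.ofReal (C₀ ^ 2) * ENNReal.ofReal (c₂ * R ^ (dd V : ℝ)) * wt E R x := by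
        rw [lintegral_sub_left_eq_self (fun y => wt ((dd V : ℝ) + 1) R y) x, hwt R hR]
        ring

/-- **`L²` orthogonality** for the local averages, same weight exponent on both sides.
PLAN: `w_E(y - z) ≤ 2^E c⁻¹ R^(-d) ∫ |η((y - z - y')/R)|² w_E(y') dy'` (`|η| ≥ 1` on the unit ball, Peetre); `orth_eta` at the centre `z + y'`; `|η|² ≤ C_M (1+|·|)^(-M)`, `M = E + d + 1`, Peetre, Tonelli. -/
theorem orth (C E : ℝ) (hC : 0 ≤ C) (hE : 0 ≤ E) :
    ∃ A : ℝ, ∀ (R : ℝ) (ι : Type) (s : Finset ι) (v : ι → V) (F : ι → V × ℝ → ℂ), 0 < R →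
      (∀ j ∈ s, FS {w | ‖w.1 - v j‖ ≤ C / R} (F j)) →
      (∀ ξ : V, ∀ t ⊆ s, (∀ j ∈ t, ‖v j - ξ‖ ≤ 1 / R) → (t.card : ℝ) ≤ C) →
      ∀ z, avp 2 E R (fun y => ∑ j ∈ s, F j y) z ≤ ENNReal.ofReal A * ∑ j ∈ s, avp 2 E R (F j) z := by
  obtain ⟨η, hFS, hge, hdecay, h0⟩ := exists_eta V
  have hc : Continuous η := hFS.continuous
  obtain ⟨c₁, hc₁, hvol⟩ := exists_volume_closedBall (V := V)
  obtain ⟨c₂, hc₂, hwt⟩ := exists_lintegral_wt (V := V) (E := (dd V : ℝ) + 1) (by linarith)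
  obtain ⟨C₀, hC₀⟩ := hdecay ((E + ((dd V : ℝ) + 1)) / 2)
  refine ⟨2 ^ E * c₁⁻¹ * ((4 * C + 5) ^ Module.finrank ℝ V * C) * C₀ ^ 2 * c₂, fun R ι s v F hR hF hm z => ?_⟩
  have hcF : ∀ j ∈ s, Continuous (F j) := fun j hj => (hF j hj).continuous
  have hcS : Continuous fun y => ∑ j ∈ s, F j y := continuous_finsetSum _ hcF
  have hem : Measurable fun x : V × ℝ => ‖η (R⁻¹ • x)‖ₑ ^ (2 : ℝ) :=
    (hc.comp (continuous_const_smul R⁻¹)).enorm.measurable.pow_const _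
  have hPm : Measurable fun y : V × ℝ => ‖∑ j ∈ s, F j y‖ₑ ^ (2 : ℝ) := by fun_prop
  have hPj : ∀ j ∈ s, Measurable fun y : V × ℝ => ‖F j y‖ₑ ^ (2 : ℝ) := fun j hj => by
    have := hcF j hj
    fun_prop
  have hQm : Measurable fun y : V × ℝ => ∑ j ∈ s, ‖F j y‖ₑ ^ (2 : ℝ) := Finset.measurable_fun_sum _ hPj
  have hwm : Measurable (wt E R : V × ℝ → ℝ≥0∞) := measurable_wt E R
  have hN0 : 0 ≤ (4 * C + 5) ^ Module.finrank ℝ V * C := by positivity
  have main : ∫⁻ y, ‖∑ j ∈ s, F j y‖ₑ ^ (2 : ℝ) * wt E R (y - z)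
      ≤ ENNReal.ofReal (2 ^ E * c₁⁻¹ * R ^ (-(dd V : ℝ))) * (ENNReal.ofReal ((4 * C + 5) ^ Module.finrank ℝ V * C) *
        ((ENNReal.ofReal (C₀ ^ 2) * ENNReal.ofReal (c₂ * R ^ (dd V : ℝ))) *
          ∑ j ∈ s, ∫⁻ y, ‖F j y‖ₑ ^ (2 : ℝ) * wt E R (y - z))) := by
    calc ∫⁻ y, ‖∑ j ∈ s, F j y‖ₑ ^ (2 : ℝ) * wt E R (y - z)
        ≤ ∫⁻ y, ENNReal.ofReal (2 ^ E * c₁⁻¹ * R ^ (-(dd V : ℝ))) * (‖∑ j ∈ s, F j y‖ₑ ^ (2 : ℝ) *
            ∫⁻ y', (fun x : V × ℝ => ‖η (R⁻¹ • x)‖ₑ ^ (2 : ℝ)) (y - (z + y')) * wt E R y') := by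
          refine lintegral_mono fun y => ?_
          have h1 := orthx_wt_le hge hE hc₁ hvol hR (y - z)
          simp only [sub_sub] at h1
          calc ‖∑ j ∈ s, F j y‖ₑ ^ (2 : ℝ) * wt E R (y - z) ≤ _ := mul_le_mul' le_rfl h1
            _ = _ := by ring
      _ = ENNReal.ofReal (2 ^ E * c₁⁻¹ * R ^ (-(dd V : ℝ))) * ∫⁻ y, ‖∑ j ∈ s, F j y‖ₑ ^ (2 : ℝ) *
            ∫⁻ y', (fun x : V × ℝ => ‖η (R⁻¹ • x)‖ₑ ^ (2 : ℝ)) (y - (z + y')) * wt E R y' :=
          lintegral_const_mul' _ _ ENNReal.ofReal_ne_top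
      _ = ENNReal.ofReal (2 ^ E * c₁⁻¹ * R ^ (-(dd V : ℝ))) * ∫⁻ y', wt E R y' * ∫⁻ y, ‖∑ j ∈ s, F j y‖ₑ ^ (2 : ℝ) *
            (fun x : V × ℝ => ‖η (R⁻¹ • x)‖ₑ ^ (2 : ℝ)) (y - (z + y')) := by
          rw [orthx_swap _ _ _ hPm hwm hem z]
      _ ≤ ENNReal.ofReal (2 ^ E * c₁⁻¹ * R ^ (-(dd V : ℝ))) * ∫⁻ y', ENNReal.ofReal ((4 * C + 5) ^ Module.finrank ℝ V * C) *
            (wt E R y' * ∫⁻ y, (∑ j ∈ s, ‖F j y‖ₑ ^ (2 : ℝ)) *
              (fun x : V × ℝ => ‖η (R⁻¹ • x)‖ₑ ^ (2 : ℝ)) (y - (z + y'))) := by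
          refine mul_le_mul' le_rfl (lintegral_mono fun y' => ?_)
          have h1 := orth_eta C hC hdecay hc h0 hR s v F hF hm (z + y')
          have e1 : ∫⁻ y, (∑ j ∈ s, ‖F j y‖ₑ ^ (2 : ℝ)) * (fun x : V × ℝ => ‖η (R⁻¹ • x)‖ₑ ^ (2 : ℝ)) (y - (z + y'))
              = ∑ j ∈ s, ∫⁻ y, ‖F j y‖ₑ ^ (2 : ℝ) * ‖η (R⁻¹ • (y - (z + y')))‖ₑ ^ (2 : ℝ) := by
            simp only [Finset.sum_mul]
            exact lintegral_finsetSum _ fun j hj => (hPj j hj).mul (hem.comp (measurable_id.sub measurable_const))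
          rw [e1]
          calc _ ≤ wt E R y' * _ := mul_le_mul' le_rfl h1
            _ = _ := by ring
      _ = ENNReal.ofReal (2 ^ E * c₁⁻¹ * R ^ (-(dd V : ℝ))) * (ENNReal.ofReal ((4 * C + 5) ^ Module.finrank ℝ V * C) *
            ∫⁻ y', wt E R y' * ∫⁻ y, (∑ j ∈ s, ‖F j y‖ₑ ^ (2 : ℝ)) *
              (fun x : V × ℝ => ‖η (R⁻¹ • x)‖ₑ ^ (2 : ℝ)) (y - (z + y')) ) := by
          rw [lintegral_const_mul' _ _ ENNReal.ofReal_ne_top]
      _ = ENNReal.ofReal (2 ^ E * c₁⁻¹ * R ^ (-(dd V : ℝ))) * (ENNReal.ofReal ((4 * C + 5) ^ Module.finrank ℝ V * C) *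
            ∫⁻ y, (∑ j ∈ s, ‖F j y‖ₑ ^ (2 : ℝ)) *
              ∫⁻ y', (fun x : V × ℝ => ‖η (R⁻¹ • x)‖ₑ ^ (2 : ℝ)) (y - (z + y')) * wt E R y') := by
          rw [orthx_swap _ _ _ hQm hwm hem z]
      _ ≤ ENNReal.ofReal (2 ^ E * c₁⁻¹ * R ^ (-(dd V : ℝ))) * (ENNReal.ofReal ((4 * C + 5) ^ Module.finrank ℝ V * C) *
            ∫⁻ y, (ENNReal.ofReal (C₀ ^ 2) * ENNReal.ofReal (c₂ * R ^ (dd V : ℝ))) *
              ((∑ j ∈ s, ‖F j y‖ₑ ^ (2 : ℝ)) * wt E R (y - z))) := by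
          refine mul_le_mul' le_rfl (mul_le_mul' le_rfl (lintegral_mono fun y => ?_))
          have h1 := orthx_conv_le hE hC₀ hwt hR (y - z)
          simp only [sub_sub] at h1
          calc _ ≤ (∑ j ∈ s, ‖F j y‖ₑ ^ (2 : ℝ)) * _ := mul_le_mul' le_rfl h1
            _ = _ := by ring
      _ = _ := by
          rw [lintegral_const_mul' _ _ (ENNReal.mul_ne_top ENNReal.ofReal_ne_top ENNReal.ofReal_ne_top)]
          congr 3
          simp only [Finset.sum_mul]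
          exact lintegral_finsetSum _ fun j hj => (hPj j hj).mul (hwm.comp (measurable_id.sub measurable_const))
  have hRd : 0 < R ^ (dd V : ℝ) := Real.rpow_pos_of_pos hR _
  have hconst : ENNReal.ofReal (2 ^ E * c₁⁻¹ * R ^ (-(dd V : ℝ))) * (ENNReal.ofReal ((4 * C + 5) ^ Module.finrank ℝ V * C) *
      (ENNReal.ofReal (C₀ ^ 2) * ENNReal.ofReal (c₂ * R ^ (dd V : ℝ))))
      = ENNReal.ofReal (2 ^ E * c₁⁻¹ * ((4 * C + 5) ^ Module.finrank ℝ V * C) * C₀ ^ 2 * c₂) := by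
    have h2E : (0 : ℝ) < 2 ^ E := Real.rpow_pos_of_pos (by norm_num) _
    rw [← ENNReal.ofReal_mul (by positivity), ← ENNReal.ofReal_mul hN0, ← ENNReal.ofReal_mul (by positivity)]
    congr 1
    rw [Real.rpow_neg hR.le]
    field_simp
  unfold avp
  rw [← Finset.mul_sum, ← hconst]
  calc ENNReal.ofReal (R ^ (-(dd V : ℝ))) * ∫⁻ y, ‖∑ j ∈ s, F j y‖ₑ ^ (2 : ℝ) * wt E R (y - z)
      ≤ ENNReal.ofReal (R ^ (-(dd V : ℝ))) * _ := mul_le_mul' le_rfl main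
    _ = _ := by ring

/-- **global ⟹ local**: a robust family multiplied by `η((y - z)/R)`, `R ≥ ρ⁻²`, is robust (`FS.mul`, `FS.dilate`, `cap_add_ball`). -/
theorem Rob.localize {C ρ R : ℝ} {ι : Type} {s : Finset ι} {v : ι → V} {H : ι → V × ℝ → ℂ} (h : Rob C ρ s v H) (hC : 1 ≤ C) (hρ : 0 < ρ) (hρ1 : ρ ≤ 1)
    (hR : ρ⁻¹ ^ 2 ≤ R) {η : V × ℝ → ℂ} (hη : FS (closedBall 0 1) η) (z : V × ℝ) :
    Rob (7 * C) ρ s v (fun j y => H j y * η (R⁻¹ • (y - z))) := by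
  have hR0 : 0 < R := lt_of_lt_of_le (by positivity) hR
  have hr : 1 / R ≤ ρ ^ 2 := by
    rw [div_le_iff₀ hR0]
    calc (1 : ℝ) = ρ ^ 2 * ρ⁻¹ ^ 2 := by field_simp
      _ ≤ ρ ^ 2 * R := mul_le_mul_of_nonneg_left hR (by positivity)
  have hr0 : 0 ≤ 1 / R := by positivity
  refine ⟨fun j hj => (h.bdd j hj).trans (by linarith), fun ξ t ht h' => (h.mult ξ t ht h').trans (by linarith),
    fun j hj => ?_⟩
  refine ((h.fs j hj).mul (hη.dilate hR0 z)).mono ((cap_add_ball (v j) (by positivity) hr0).trans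
    (cap_mono ?_ ?_))
  · have : ρ ^ 2 ≤ ρ := by nlinarith
    nlinarith
  · have hv := h.bdd j hj
    have h1 : ρ ^ 2 ≤ 1 := by nlinarith
    have h2 : 0 ≤ ρ ^ 2 := by positivity
    have h3 : (1 / R) ^ 2 ≤ ρ ^ 2 := by
      calc (1 / R) ^ 2 = (1 / R) * (1 / R) := by ring
        _ ≤ ρ ^ 2 * 1 := mul_le_mul hr (hr.trans h1) hr0 h2
        _ = ρ ^ 2 := by ring
    have h4 : 2 * (‖v j‖ + C * ρ) * (1 / R) ≤ 2 * (C + C) * ρ ^ 2 := by
      refine mul_le_mul ?_ hr hr0 (by positivity)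
      have : C * ρ ≤ C := by nlinarith
      linarith
    nlinarith

/-- the localised norm is dominated by a local average. -/
theorem ip_localize_le {η : V × ℝ → ℂ} (hη : ∀ M : ℝ, ∃ C : ℝ, ∀ y, ‖η y‖ ≤ C * (1 + ‖y‖) ^ (-M)) (p E : ℝ) (hp : 0 < p) :
    ∃ A : ℝ, ∀ (R : ℝ) (F : V × ℝ → ℂ) (z : V × ℝ), 0 < R →
      ip p (fun y => F y * η (R⁻¹ • (y - z))) ≤ ENNReal.ofReal (A * R ^ (dd V : ℝ)) * avp p E R F z := by
  obtain ⟨C, hC⟩ := hη (E / p)
  have hC0 : 0 ≤ C := by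
    have := hC 0
    simp only [norm_zero, add_zero, Real.one_rpow, mul_one] at this
    exact le_trans (norm_nonneg _) this
  refine ⟨C ^ p, fun R F z hR => ?_⟩
  unfold ip avp
  rw [← mul_assoc, ← ENNReal.ofReal_mul (by positivity), mul_assoc (C ^ p), ← Real.rpow_add hR,
    add_neg_cancel, Real.rpow_zero, mul_one, ← lintegral_const_mul' _ _ ENNReal.ofReal_ne_top]
  refine lintegral_mono fun y => ?_
  rw [enorm_mul, ENNReal.mul_rpow_of_nonneg _ _ hp.le, mul_left_comm]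
  refine mul_le_mul_right ?_ _
  unfold wt
  rw [← ENNReal.ofReal_mul (by positivity), ← ofReal_norm, ENNReal.ofReal_rpow_of_nonneg (norm_nonneg _) hp.le]
  refine ENNReal.ofReal_le_ofReal ?_
  have h1 := hC (R⁻¹ • (y - z))
  rw [norm_smul, norm_inv, Real.norm_eq_abs, abs_of_pos hR, ← div_eq_inv_mul] at h1
  have h0 : 0 < 1 + ‖y - z‖ / R := by positivity
  calc ‖η (R⁻¹ • (y - z))‖ ^ p ≤ (C * (1 + ‖y - z‖ / R) ^ (-(E / p))) ^ p :=
        Real.rpow_le_rpow (norm_nonneg _) h1 hp.le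
    _ = C ^ p * (1 + ‖y - z‖ / R) ^ (-E) := by
        rw [Real.mul_rpow hC0 (by positivity), ← Real.rpow_mul h0.le]
        congr 2
        field_simp

/-- integrating the localised norms over the centre. -/
theorem lintegral_ip_localize {η : V × ℝ → ℂ} (hc : Continuous η) (p : ℝ) {R : ℝ} (hR : 0 < R) {F : V × ℝ → ℂ} (hF : Continuous F) :
    ∫⁻ z, ip p (fun y => F y * η (R⁻¹ • (y - z))) = ENNReal.ofReal (R ^ (dd V : ℝ)) * ip p η * ip p F := by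
  have hhaar := bdlc_haar (V := V)
  unfold ip
  have h1 : ∀ z y : V × ℝ, ‖F y * η (R⁻¹ • (y - z))‖ₑ ^ p = ‖F y‖ₑ ^ p * ‖η (R⁻¹ • (y - z))‖ₑ ^ p := fun z y => by
    rw [enorm_mul, ENNReal.mul_rpow_of_ne_top enorm_ne_top enorm_ne_top]
  simp only [h1]
  rw [lintegral_lintegral_swap]
  · have h2 : ∀ y : V × ℝ, ∫⁻ z, ‖η (R⁻¹ • (y - z))‖ₑ ^ p = ENNReal.ofReal (R ^ (dd V : ℝ)) * ∫⁻ z, ‖η z‖ₑ ^ p := by
      intro y
      rw [lintegral_sub_left_eq_self (fun z => ‖η (R⁻¹ • z)‖ₑ ^ p) y]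
      have h3 := lintegral_Lam (0 : V) (inv_pos.2 hR) (inv_pos.2 hR) (fun z => ‖η z‖ₑ ^ p)
      have h4 : ∀ z : V × ℝ, Lam (0 : V) R⁻¹ R⁻¹ z = R⁻¹ • z := fun z => by
        unfold Lam
        ext <;> simp
      simp only [h4] at h3
      rw [h3]
      congr 2
      rw [Real.rpow_natCast]
      unfold dd
      rw [pow_succ, mul_inv, inv_pow, inv_inv, inv_inv]
    have h5 : ∀ y : V × ℝ, ∫⁻ z, ‖F y‖ₑ ^ p * ‖η (R⁻¹ • (y - z))‖ₑ ^ p =
        ‖F y‖ₑ ^ p * (ENNReal.ofReal (R ^ (dd V : ℝ)) * ∫⁻ z, ‖η z‖ₑ ^ p) := by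
      intro y
      have hcont : Continuous (fun z : V × ℝ => η (R⁻¹ • (y - z))) := by fun_prop
      have hm : Measurable (fun z : V × ℝ => ‖η (R⁻¹ • (y - z))‖ₑ ^ p) :=
        hcont.enorm.measurable.pow_const p
      rw [lintegral_const_mul _ hm, h2]
    simp only [h5]
    rw [lintegral_mul_const _ (hF.enorm.measurable.pow_const p), mul_comm]
  · refine Measurable.aemeasurable ?_
    refine Measurable.mul ?_ ?_
    · exact ((hF.comp continuous_snd).enorm.measurable.pow_const p)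
    · have hcont : Continuous (fun q : (V × ℝ) × (V × ℝ) => η (R⁻¹ • (q.2 - q.1))) := by fun_prop
      exact hcont.enorm.measurable.pow_const p

end Claimed.Agent.BD
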