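import Mathlib
import Claimed.Agent.Lib.BD.NumBoot

/-!
# Box BD (l2 decoupling for the paraboloid; plan = report 850 of helper203), NUMERIC HALF, file 2: abstract U9      (architect helper164)

Mathlib only; values in `ℝ≥0∞` (all norms of the analytic part are `eLpNorm`s).   No sorry.
* `bdiAvg`           : average over a finite type.
* `bdi_holder_sum`   : `∑ x^κ y^(1-κ) ≤ (∑ x)^κ (∑ y)^(1-κ)`.
* `bdi_holder_l`     : `(∑ (x^κ y^(1-κ))^r)^(1/r) ≤ (∑ x^r)^(κ/r) (∑ y^r)^((1-κ)/r)`            (I2, sum over the caps `J`, `r = 2`).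
* `bdi_holder_avg`   : the same for averages                                                         (I4, average over the balls, `r = p`).
* `bdi_avg_fiber`    : an average over a partition with fibres of equal size is the average of the averages.
* `bdi_step`         : (I4) from (I1), (I2), (I3), (I4').
* `bdi_iter`, `bdi_main` : the iteration `a_l ≤ c_l a_(l-1)^κ d_l^(1-κ)` and the product formula.
-/

set_option autoImplicit false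

namespace Claimed.Agent.BD

open scoped BigOperators ENNReal

noncomputable section

/-- average over a finite type -/
def bdiAvg {ι : Type*} [Fintype ι] (f : ι → ℝ≥0∞) : ℝ≥0∞ := (Fintype.card ι : ℝ≥0∞)⁻¹ * ∑ i, f i

theorem bdi_holder_sum {ι : Type*} (S : Finset ι) (x y : ι → ℝ≥0∞) (κ : ℝ) (h0 : 0 ≤ κ) (h1 : κ ≤ 1) :
    ∑ i ∈ S, x i ^ κ * y i ^ (1 - κ) ≤ (∑ i ∈ S, x i) ^ κ * (∑ i ∈ S, y i) ^ (1 - κ) := by
  rcases h0.eq_or_lt with rfl | h0'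
  · simp
  rcases h1.eq_or_lt with rfl | h1'
  · simp
  have hpq : (1 / κ).HolderConjugate (1 / (1 - κ)) := by
    rw [Real.holderConjugate_iff]
    refine ⟨by rw [lt_div_iff₀ h0']; linarith, ?_⟩
    simp
  have h := ENNReal.inner_le_Lp_mul_Lq S (fun i => x i ^ κ) (fun i => y i ^ (1 - κ)) hpq
  have e1 : ∀ i, (x i ^ κ) ^ (1 / κ) = x i := fun i => by
    rw [← ENNReal.rpow_mul, mul_one_div_cancel h0'.ne', ENNReal.rpow_one]
  have e2 : ∀ i, (y i ^ (1 - κ)) ^ (1 / (1 - κ)) = y i := fun i => by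
    rw [← ENNReal.rpow_mul, mul_one_div_cancel (by linarith : (1 - κ) ≠ 0), ENNReal.rpow_one]
  simp only [e1, e2, one_div_one_div] at h
  exact h

theorem bdi_holder_l {ι : Type*} (S : Finset ι) (x y : ι → ℝ≥0∞) (κ r : ℝ) (h0 : 0 ≤ κ) (h1 : κ ≤ 1) (hr : 0 < r) :
    (∑ i ∈ S, (x i ^ κ * y i ^ (1 - κ)) ^ r) ^ (1 / r) ≤ (∑ i ∈ S, x i ^ r) ^ (κ / r) * (∑ i ∈ S, y i ^ r) ^ ((1 - κ) / r) := by
  have h := bdi_holder_sum S (fun i => x i ^ r) (fun i => y i ^ r) κ h0 h1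
  have e : ∀ i, (x i ^ κ * y i ^ (1 - κ)) ^ r = (x i ^ r) ^ κ * (y i ^ r) ^ (1 - κ) := fun i => by
    rw [ENNReal.mul_rpow_of_nonneg _ _ hr.le, ← ENNReal.rpow_mul, ← ENNReal.rpow_mul, ← ENNReal.rpow_mul, ← ENNReal.rpow_mul, mul_comm κ r, mul_comm (1 - κ) r]
  simp only [e]
  refine (ENNReal.rpow_le_rpow h (by positivity : 0 ≤ 1 / r)).trans (le_of_eq ?_)
  rw [ENNReal.mul_rpow_of_nonneg _ _ (by positivity : 0 ≤ 1 / r), ← ENNReal.rpow_mul, ← ENNReal.rpow_mul, mul_one_div, mul_one_div]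

theorem bdi_holder_avg {ι : Type*} [Fintype ι] (x y : ι → ℝ≥0∞) (κ r : ℝ) (h0 : 0 ≤ κ) (h1 : κ ≤ 1) (hr : 0 < r) :
    (bdiAvg fun i => (x i ^ κ * y i ^ (1 - κ)) ^ r) ^ (1 / r) ≤ (bdiAvg fun i => x i ^ r) ^ (κ / r) * (bdiAvg fun i => y i ^ r) ^ ((1 - κ) / r) := by
  unfold bdiAvg
  have h := bdi_holder_l Finset.univ x y κ r h0 h1 hr
  have hk : 0 ≤ κ / r := by positivity
  have hk' : 0 ≤ (1 - κ) / r := div_nonneg (by linarith) hr.le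
  rw [ENNReal.mul_rpow_of_nonneg _ _ (by positivity : 0 ≤ 1 / r), ENNReal.mul_rpow_of_nonneg _ _ hk, ENNReal.mul_rpow_of_nonneg _ _ hk']
  have e : ((Fintype.card ι : ℝ≥0∞)⁻¹) ^ (1 / r) = ((Fintype.card ι : ℝ≥0∞)⁻¹) ^ (κ / r) * ((Fintype.card ι : ℝ≥0∞)⁻¹) ^ ((1 - κ) / r) := by
    rw [← ENNReal.rpow_add_of_nonneg _ _ hk hk']
    congr 1
    field_simp
    ring
  rw [e]
  calc _ ≤ ((Fintype.card ι : ℝ≥0∞)⁻¹) ^ (κ / r) * ((Fintype.card ι : ℝ≥0∞)⁻¹) ^ ((1 - κ) / r)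
        * ((∑ i, x i ^ r) ^ (κ / r) * (∑ i, y i ^ r) ^ ((1 - κ) / r)) := by gcongr
    _ = _ := by ring

theorem bdi_avg_mono {ι : Type*} [Fintype ι] {f g : ι → ℝ≥0∞} (h : ∀ i, f i ≤ g i) : bdiAvg f ≤ bdiAvg g := by
  unfold bdiAvg
  gcongr
  exact h _

theorem bdi_avg_const_mul {ι : Type*} [Fintype ι] (c : ℝ≥0∞) (f : ι → ℝ≥0∞) : bdiAvg (fun i => c * f i) = c * bdiAvg f := by
  unfold bdiAvg
  rw [← Finset.mul_sum]
  ring

/-- an average over a partition with fibres of equal size `N ≥ 1` is the average of the averages over the fibres -/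
theorem bdi_avg_fiber {ι ι' : Type*} [Fintype ι] [Fintype ι'] [DecidableEq ι] (par : ι' → ι) (N : ℕ) (hN : 1 ≤ N)
    (hfib : ∀ i, (Finset.univ.filter fun j => par j = i).card = N) (u : ι' → ℝ≥0∞) :
    bdiAvg u = bdiAvg fun i => (N : ℝ≥0∞)⁻¹ * ∑ j ∈ Finset.univ.filter (fun j => par j = i), u j := by
  unfold bdiAvg
  have hcard : Fintype.card ι' = Fintype.card ι * N := by
    have h := Finset.card_eq_sum_card_fiberwise (f := par) (s := Finset.univ) (t := Finset.univ) (fun _ _ => Finset.mem_coe.2 (Finset.mem_univ _))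
    rw [Finset.card_univ] at h
    rw [h, Finset.sum_congr rfl (fun i _ => hfib i), Finset.sum_const, Finset.card_univ, smul_eq_mul]
  have hsum : ∑ j, u j = ∑ i, ∑ j ∈ Finset.univ.filter (fun j => par j = i), u j :=
    (Finset.sum_fiberwise Finset.univ par u).symm
  rw [← Finset.mul_sum, ← hsum, hcard, Nat.cast_mul, ← mul_assoc]
  congr 1
  have hN0 : (N : ℝ≥0∞) ≠ 0 := by exact_mod_cast (by omega : N ≠ 0)
  rw [ENNReal.mul_inv (Or.inr (ENNReal.natCast_ne_top N)) (Or.inr hN0)]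

/-- **(I4)** from (I1), (I2), (I3), (I4').   `ι'` = small balls, `ι` = their parents;  `u = D_t(q, small)`, `v = D_t(q, parent)`, `x = D_2(q, parent)`, `y = D_p(q, parent)`, `w = D_t(2q, parent)`, `Y = D_p(q, B)`. -/
theorem bdi_step {ι ι' : Type*} [Fintype ι] [Fintype ι'] [DecidableEq ι] (par : ι' → ι) (N : ℕ) (hN : 1 ≤ N)
    (hfib : ∀ i, (Finset.univ.filter fun j => par j = i).card = N) (u : ι' → ℝ≥0∞) (v x y w : ι → ℝ≥0∞) (c₃ c₁ c₄ Y : ℝ≥0∞) (κ p : ℝ)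
    (h0 : 0 ≤ κ) (h1 : κ ≤ 1) (hp : 0 < p)
    (h3 : ∀ i, ((N : ℝ≥0∞)⁻¹ * ∑ j ∈ Finset.univ.filter (fun j => par j = i), u j ^ p) ^ (1 / p) ≤ c₃ * v i)
    (h2 : ∀ i, v i ≤ x i ^ κ * y i ^ (1 - κ)) (hx : ∀ i, x i ≤ c₁ * w i) (h4 : (bdiAvg fun i => y i ^ p) ^ (1 / p) ≤ c₄ * Y) :
    (bdiAvg fun j => u j ^ p) ^ (1 / p) ≤ c₃ * c₁ ^ κ * c₄ ^ (1 - κ) * ((bdiAvg fun i => w i ^ p) ^ (1 / p)) ^ κ * Y ^ (1 - κ) := by
  have hk' : 0 ≤ 1 - κ := by linarith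
  have hp' : 0 ≤ 1 / p := by positivity
  rw [bdi_avg_fiber par N hN hfib]
  have a1 : ∀ i, (N : ℝ≥0∞)⁻¹ * ∑ j ∈ Finset.univ.filter (fun j => par j = i), u j ^ p ≤ c₃ ^ p * ((c₁ * w i) ^ κ * y i ^ (1 - κ)) ^ p := by
    intro i
    have h := ENNReal.rpow_le_rpow (h3 i) hp.le
    rw [← ENNReal.rpow_mul, one_div_mul_cancel hp.ne', ENNReal.rpow_one] at h
    refine h.trans ?_
    rw [← ENNReal.mul_rpow_of_nonneg _ _ hp.le]
    refine ENNReal.rpow_le_rpow ?_ hp.le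
    gcongr
    exact (h2 i).trans (by gcongr; exact hx i)
  refine (ENNReal.rpow_le_rpow (bdi_avg_mono a1) hp').trans ?_
  rw [bdi_avg_const_mul, ENNReal.mul_rpow_of_nonneg _ _ hp', ← ENNReal.rpow_mul, mul_one_div_cancel hp.ne', ENNReal.rpow_one]
  have a2 := bdi_holder_avg (fun i => c₁ * w i) y κ p h0 h1 hp
  have a3 : (bdiAvg fun i => (c₁ * w i) ^ p) ^ (κ / p) = c₁ ^ κ * ((bdiAvg fun i => w i ^ p) ^ (1 / p)) ^ κ := by
    have : (fun i => (c₁ * w i) ^ p) = fun i => c₁ ^ p * w i ^ p := by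
      funext i
      rw [ENNReal.mul_rpow_of_nonneg _ _ hp.le]
    rw [this, bdi_avg_const_mul, ENNReal.mul_rpow_of_nonneg _ _ (by positivity : 0 ≤ κ / p), ← ENNReal.rpow_mul, ← ENNReal.rpow_mul]
    congr 2
    · field_simp
    · field_simp
  have a4 : (bdiAvg fun i => y i ^ p) ^ ((1 - κ) / p) ≤ c₄ ^ (1 - κ) * Y ^ (1 - κ) := by
    have h := ENNReal.rpow_le_rpow h4 hk'
    rw [← ENNReal.rpow_mul, ENNReal.mul_rpow_of_nonneg _ _ hk', one_div_mul_eq_div] at h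
    exact h
  calc c₃ * (bdiAvg fun i => ((c₁ * w i) ^ κ * y i ^ (1 - κ)) ^ p) ^ (1 / p)
      ≤ c₃ * ((c₁ ^ κ * ((bdiAvg fun i => w i ^ p) ^ (1 / p)) ^ κ) * (c₄ ^ (1 - κ) * Y ^ (1 - κ))) := by
        gcongr
        exact a2.trans (by rw [a3]; gcongr)
    _ = _ := by ring

/-- **the iteration** -/
theorem bdi_iter (κ : ℝ) (h0 : 0 ≤ κ) (h1 : κ ≤ 1) (a d c : ℕ → ℝ≥0∞) (hc : ∀ l, 1 ≤ c l) :
    ∀ s : ℕ, 1 ≤ s → (∀ l, 2 ≤ l → l ≤ s → a l ≤ c l * a (l - 1) ^ κ * d l ^ (1 - κ)) →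
      a s ≤ (∏ l ∈ Finset.Icc 2 s, c l) * a 1 ^ (κ ^ (s - 1)) * ∏ l ∈ Finset.Icc 2 s, d l ^ bdnW κ s l := by
  intro s hs
  induction s, hs using Nat.le_induction with
  | base => intro _; simp
  | succ s hs ih =>
    intro hstep
    have ih' := ih fun l h2 hl => hstep l h2 (by omega)
    have h := hstep (s + 1) (by omega) le_rfl
    rw [Nat.add_sub_cancel] at h
    have hI : Finset.Icc 2 (s + 1) = insert (s + 1) (Finset.Icc 2 s) := by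
      ext l
      simp only [Finset.mem_Icc, Finset.mem_insert]
      omega
    have hn : s + 1 ∉ Finset.Icc 2 s := by simp
    rw [hI, Finset.prod_insert hn, Finset.prod_insert hn, Nat.add_sub_cancel]
    have hC1 : 1 ≤ ∏ l ∈ Finset.Icc 2 s, c l := by
      refine Finset.prod_induction c (fun z => 1 ≤ z) (fun x y hx hy => ?_) le_rfl (fun l _ => hc l)
      calc (1 : ℝ≥0∞) = 1 * 1 := by ring
        _ ≤ x * y := by gcongr
    have hCk : (∏ l ∈ Finset.Icc 2 s, c l) ^ κ ≤ ∏ l ∈ Finset.Icc 2 s, c l := by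
      calc (∏ l ∈ Finset.Icc 2 s, c l) ^ κ ≤ (∏ l ∈ Finset.Icc 2 s, c l) ^ (1 : ℝ) := ENNReal.rpow_le_rpow_of_exponent_le hC1 h1
        _ = _ := ENNReal.rpow_one _
    have e1 : (a 1 ^ (κ ^ (s - 1))) ^ κ = a 1 ^ (κ ^ s) := by
      rw [← ENNReal.rpow_mul, ← pow_succ]
      congr 2
      omega
    have e2 : (∏ l ∈ Finset.Icc 2 s, d l ^ bdnW κ s l) ^ κ = ∏ l ∈ Finset.Icc 2 s, d l ^ bdnW κ (s + 1) l := by
      rw [← ENNReal.prod_rpow_of_nonneg h0]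
      refine Finset.prod_congr rfl fun l hl => ?_
      rw [← ENNReal.rpow_mul]
      congr 1
      have hl' := (Finset.mem_Icc.1 hl).2
      unfold bdnW
      rw [Nat.succ_sub hl', pow_succ]
      ring
    have e3 : d (s + 1) ^ (1 - κ) = d (s + 1) ^ bdnW κ (s + 1) (s + 1) := by
      unfold bdnW
      simp
    calc a (s + 1) ≤ c (s + 1) * a s ^ κ * d (s + 1) ^ (1 - κ) := h
      _ ≤ c (s + 1) * ((∏ l ∈ Finset.Icc 2 s, c l) * a 1 ^ (κ ^ (s - 1)) * ∏ l ∈ Finset.Icc 2 s, d l ^ bdnW κ s l) ^ κ * d (s + 1) ^ (1 - κ) := by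
        gcongr
      _ = c (s + 1) * ((∏ l ∈ Finset.Icc 2 s, c l) ^ κ * a 1 ^ (κ ^ s) * ∏ l ∈ Finset.Icc 2 s, d l ^ bdnW κ (s + 1) l) * d (s + 1) ^ bdnW κ (s + 1) (s + 1) := by
        rw [ENNReal.mul_rpow_of_nonneg _ _ h0, ENNReal.mul_rpow_of_nonneg _ _ h0, e1, e2, e3]
      _ ≤ c (s + 1) * ((∏ l ∈ Finset.Icc 2 s, c l) * a 1 ^ (κ ^ s) * ∏ l ∈ Finset.Icc 2 s, d l ^ bdnW κ (s + 1) l) * d (s + 1) ^ bdnW κ (s + 1) (s + 1) := by
        gcongr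
      _ = _ := by ring

theorem bdi_w_nonneg {κ : ℝ} (h0 : 0 ≤ κ) (h1 : κ ≤ 1) (s l : ℕ) : 0 ≤ bdnW κ s l := by
  unfold bdnW
  exact mul_nonneg (by linarith) (pow_nonneg h0 _)

theorem bdi_prod_rpow_const {ι : Type*} (S : Finset ι) (P : ℝ≥0∞) (w : ι → ℝ) (hw : ∀ i ∈ S, 0 ≤ w i) : ∏ i ∈ S, P ^ w i = P ^ ∑ i ∈ S, w i := by
  classical
  induction S using Finset.induction_on with
  | empty => simp
  | insert i S hi ih =>
    rw [Finset.prod_insert hi, Finset.sum_insert hi, ih fun j hj => hw j (Finset.mem_insert_of_mem hj),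
      ENNReal.rpow_add_of_nonneg _ _ (hw i (Finset.mem_insert_self i S)) (Finset.sum_nonneg fun j hj => hw j (Finset.mem_insert_of_mem hj))]

/-- **the product formula of U9**: start (I6), steps (I4), end (I7), rescaling (I5) -/
theorem bdi_main (κ : ℝ) (h0 : 0 ≤ κ) (h1 : κ ≤ 1) (a d c e : ℕ → ℝ≥0∞) (hc : ∀ l, 1 ≤ c l) (s : ℕ) (hs : 1 ≤ s)
    (hstep : ∀ l, 2 ≤ l → l ≤ s → a l ≤ c l * a (l - 1) ^ κ * d l ^ (1 - κ)) (c₀ c₁ P L : ℝ≥0∞) (hc₁ : 1 ≤ c₁)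
    (hstart : L ≤ c₀ * a s) (hend : a 1 ≤ c₁ * P) (hd : ∀ l, 2 ≤ l → l ≤ s → d l ≤ e l * P) :
    L ≤ c₀ * (∏ l ∈ Finset.Icc 2 s, c l) * c₁ * (∏ l ∈ Finset.Icc 2 s, e l ^ bdnW κ s l) * P := by
  have hk : 0 ≤ κ ^ (s - 1) := pow_nonneg h0 _
  have hk1 : κ ^ (s - 1) ≤ 1 := pow_le_one₀ h0 h1
  have h := bdi_iter κ h0 h1 a d c hc s hs hstep
  have b1 : a 1 ^ (κ ^ (s - 1)) ≤ c₁ * P ^ (κ ^ (s - 1)) := by
    calc a 1 ^ (κ ^ (s - 1)) ≤ (c₁ * P) ^ (κ ^ (s - 1)) := ENNReal.rpow_le_rpow hend hk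
      _ = c₁ ^ (κ ^ (s - 1)) * P ^ (κ ^ (s - 1)) := ENNReal.mul_rpow_of_nonneg _ _ hk
      _ ≤ c₁ ^ (1 : ℝ) * P ^ (κ ^ (s - 1)) := by
        gcongr
      _ = _ := by rw [ENNReal.rpow_one]
  have b2 : ∏ l ∈ Finset.Icc 2 s, d l ^ bdnW κ s l ≤ (∏ l ∈ Finset.Icc 2 s, e l ^ bdnW κ s l) * P ^ (1 - κ ^ (s - 1)) := by
    rw [← bdn_sum_w κ s hs, ← bdi_prod_rpow_const _ P _ fun l _ => bdi_w_nonneg h0 h1 s l, ← Finset.prod_mul_distrib]
    refine Finset.prod_le_prod' fun l hl => ?_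
    rw [← ENNReal.mul_rpow_of_nonneg _ _ (bdi_w_nonneg h0 h1 s l)]
    exact ENNReal.rpow_le_rpow (hd l (Finset.mem_Icc.1 hl).1 (Finset.mem_Icc.1 hl).2) (bdi_w_nonneg h0 h1 s l)
  have b3 : P ^ (κ ^ (s - 1)) * P ^ (1 - κ ^ (s - 1)) = P := by
    rw [← ENNReal.rpow_add_of_nonneg _ _ hk (by linarith)]
    simp
  calc L ≤ c₀ * a s := hstart
    _ ≤ c₀ * ((∏ l ∈ Finset.Icc 2 s, c l) * (c₁ * P ^ (κ ^ (s - 1))) * ((∏ l ∈ Finset.Icc 2 s, e l ^ bdnW κ s l) * P ^ (1 - κ ^ (s - 1)))) := by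
      gcongr
      exact h.trans (by gcongr)
    _ = c₀ * (∏ l ∈ Finset.Icc 2 s, c l) * c₁ * (∏ l ∈ Finset.Icc 2 s, e l ^ bdnW κ s l) * (P ^ (κ ^ (s - 1)) * P ^ (1 - κ ^ (s - 1))) := by ring
    _ = _ := by rw [b3]

/-- Stores the on-demand equation lemmas of the definitions above in THIS module (rule 6 hygiene). -/
theorem bdi_forced : True := by
  have := @bdiAvg.eq_1.{0}
  trivial

end

end Claimed.Agent.BD
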