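import Claimed.Agent.Lib.BD.Loc

/-!
# Box BD, unit U5: monotonicity, trivial bound, parabolic rescaling, transfer between isometric spaces, base case `k = 0`   (architect helper266; proofs helper161; no open leaf in this file)
-/

set_option autoImplicit false
open MeasureTheory Set Metric
open scoped ENNReal NNReal

namespace Claimed.Agent.BD

variable {V : Type} [NormedAddCommGroup V] [InnerProductSpace ℝ V] [FiniteDimensional ℝ V] [MeasurableSpace V] [BorelSpace V]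

theorem DecLe.mono_D {p C ρ : ℝ} {D D' : ℝ≥0∞} (h : DecLe V p C ρ D) (hD : D ≤ D') : DecLe V p C ρ D' := by
  intro ι s v H hr
  exact (h ι s v H hr).trans (mul_le_mul_left hD _)

theorem DecLe.mono_C {p C C' ρ : ℝ} {D : ℝ≥0∞} (h : DecLe V p C' ρ D) (hC : C ≤ C') (hρ : 0 ≤ ρ) : DecLe V p C ρ D := by
  intro ι s v H hr
  exact h ι s v H (hr.mono hC hρ)

theorem DecPow.mono {p η η' : ℝ} (h : DecPow V p η) (hη : η ≤ η') : DecPow V p η' := by
  intro C
  obtain ⟨D, hD⟩ := h C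
  refine ⟨max D 0, fun ρ h0 h1 => (hD ρ h0 h1).mono_D (ENNReal.ofReal_le_ofReal ?_)⟩
  have h2 : ρ ^ (-η) ≤ ρ ^ (-η') := Real.rpow_le_rpow_of_exponent_ge h0 h1 (by linarith)
  have h3 : 0 ≤ ρ ^ (-η) := Real.rpow_nonneg h0.le _
  calc D * ρ ^ (-η) ≤ max D 0 * ρ ^ (-η) := mul_le_mul_of_nonneg_right (le_max_left _ _) h3
    _ ≤ max D 0 * ρ ^ (-η') := mul_le_mul_of_nonneg_left h2 (le_max_right _ _)

/-- triangle inequality in `L^p`, `p ≥ 1`, for continuous functions. -/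
theorem nm_sum_le {p : ℝ} (hp : 1 ≤ p) {ι : Type} (s : Finset ι) (H : ι → V × ℝ → ℂ) (hH : ∀ j ∈ s, Continuous (H j)) :
    nm p (fun z => ∑ j ∈ s, H j z) ≤ ∑ j ∈ s, nm p (H j) := by
  have h := abs_minkowski (μ := (volume : Measure (V × ℝ))) hp s (fun j z => ‖H j z‖ₑ) (fun j hj => (hH j hj).enorm.measurable.aemeasurable)
  refine le_trans ?_ h
  unfold nm ip
  refine ENNReal.rpow_le_rpow (lintegral_mono fun z => ENNReal.rpow_le_rpow ?_ (by linarith)) (by positivity)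
  exact enorm_sum_le _ _

/-- **trivial bound** (triangle inequality, `abs_cs`, `Rob.card_le`). -/
theorem decLe_trivial {p C ρ : ℝ} (hp : 1 ≤ p) (hC : 0 ≤ C) (hρ : 0 < ρ) :
    DecLe V p C ρ (ENNReal.ofReal (((2 * (C / ρ) + 1) ^ Module.finrank ℝ V * C) ^ (1 / 2 : ℝ))) := by
  intro ι s v H hr
  refine (nm_sum_le hp s H fun j hj => (hr.fs j hj).continuous).trans ((abs_cs s _).trans (mul_le_mul_left ?_ _))
  have h1 := hr.card_le hρ hC
  rw [← ENNReal.ofReal_natCast, ENNReal.ofReal_rpow_of_nonneg (Nat.cast_nonneg _) (by norm_num)]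
  exact ENNReal.ofReal_le_ofReal (Real.rpow_le_rpow (Nat.cast_nonneg _) h1 (by norm_num))

theorem decPow_trivial {p : ℝ} (hp : 1 ≤ p) : DecPow V p ((Module.finrank ℝ V : ℝ) / 2) := by
  intro C
  by_cases hC : 0 ≤ C
  · refine ⟨((2 * C + 1) ^ Module.finrank ℝ V * C) ^ (1 / 2 : ℝ), fun ρ h0 h1 => (decLe_trivial hp hC h0).mono_D (ENNReal.ofReal_le_ofReal ?_)⟩
    have e : ρ ^ (-((Module.finrank ℝ V : ℝ) / 2)) = ((ρ⁻¹) ^ Module.finrank ℝ V) ^ (1 / 2 : ℝ) := by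
      rw [← Real.rpow_natCast, ← Real.rpow_mul (inv_nonneg.2 h0.le), Real.inv_rpow h0.le, Real.rpow_neg h0.le]
      congr 2
      ring
    rw [e, ← Real.mul_rpow (by positivity) (by positivity)]
    refine Real.rpow_le_rpow (by positivity) ?_ (by norm_num)
    have h2 : 2 * (C / ρ) + 1 ≤ (2 * C + 1) * ρ⁻¹ := by
      have : 1 ≤ ρ⁻¹ := (one_le_inv₀ h0).2 h1
      rw [div_eq_mul_inv]
      nlinarith
    calc (2 * (C / ρ) + 1) ^ Module.finrank ℝ V * C ≤ ((2 * C + 1) * ρ⁻¹) ^ Module.finrank ℝ V * C :=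
          mul_le_mul_of_nonneg_right (pow_le_pow_left₀ (by positivity) h2 _) hC
      _ = (2 * C + 1) ^ Module.finrank ℝ V * C * ρ⁻¹ ^ Module.finrank ℝ V := by rw [mul_pow]; ring
  · refine ⟨0, fun ρ _ _ ι s v H hr => ?_⟩
    have hs : s = ∅ := by
      rw [Finset.eq_empty_iff_forall_notMem]
      intro j hj
      exact hC ((norm_nonneg _).trans (hr.bdd j hj))
    subst hs
    have : nm p (fun z : V × ℝ => ∑ j ∈ (∅ : Finset ι), H j z) = 0 := by
      simp only [Finset.sum_empty, nm, ip, enorm_zero]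
      rw [ENNReal.zero_rpow_of_pos (by linarith), lintegral_zero, ENNReal.zero_rpow_of_pos (by positivity)]
    rw [this]
    exact zero_le

/-- **base case** of the induction on the dimension. -/
theorem decPow_zero {p : ℝ} (hp : 1 ≤ p) (hV : Module.finrank ℝ V = 0) {ε : ℝ} (hε : 0 ≤ ε) : DecPow V p ε := by
  have h := decPow_trivial (V := V) hp
  rw [hV] at h
  exact h.mono (by simpa using hε)

theorem rs_nm_Lam (v : V) {a b : ℝ} (ha : 0 < a) (hb : 0 < b) {p : ℝ} (hp : 0 < p) (θ : V × ℝ → ℝ) (G : V × ℝ → ℂ) :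
    nm p (fun z => ch (θ z) * G (Lam v a b z)) = ENNReal.ofReal ((a ^ Module.finrank ℝ V * b)⁻¹) ^ (1 / p) * nm p G := by
  unfold nm
  rw [ip_Lam v ha hb, ENNReal.mul_rpow_of_nonneg _ _ (by positivity)]

/-- **parabolic rescaling, exact**: a robust family whose centres lie within `σ` of `u` is decoupled with the constant of the scale `ρ/σ` and the SAME parameter `C`. -/
theorem DecLe.resc {p C ρ σ : ℝ} {D : ℝ≥0∞} (hD : DecLe V p C (ρ / σ) D) (hp : 0 < p) (hC : 1 ≤ C) (hρ : 0 < ρ) (hσ : 0 < σ)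
    {ι : Type} {s : Finset ι} {v : ι → V} {H : ι → V × ℝ → ℂ} (h : Rob C ρ s v H) (u : V) (hu : ∀ j ∈ s, ‖v j - u‖ ≤ σ) :
    nm p (fun z => ∑ j ∈ s, H j z) ≤ D * (∑ j ∈ s, nm p (H j) ^ (2 : ℝ)) ^ (1 / 2 : ℝ) := by
  have hex : ∀ j, ∃ G : V × ℝ → ℂ, j ∈ s → (FS (cap (σ⁻¹ • (v j - u)) (C * (ρ / σ)) (C * (ρ / σ) ^ 2)) G ∧
      ∀ z, H j z = ch (pr z (u, ‖u‖ ^ 2)) * G (Lam u σ (σ ^ 2) z)) := by
    intro j
    by_cases hj : j ∈ s
    · obtain ⟨G, hG, hz⟩ := (h.fs j hj).unpar u hσ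
      refine ⟨G, fun _ => ⟨?_, hz⟩⟩
      rw [Par_preimage_cap u (v j) hσ] at hG
      have e1 : C * ρ / σ = C * (ρ / σ) := by ring
      have e2 : C * ρ ^ 2 / σ ^ 2 = C * (ρ / σ) ^ 2 := by rw [div_pow]; ring
      rwa [e1, e2] at hG
    · exact ⟨0, fun h => absurd h hj⟩
  choose G hG using hex
  have hrob : Rob C (ρ / σ) s (fun j => σ⁻¹ • (v j - u)) G := by
    refine ⟨fun j hj => ?_, fun ξ t ht hξ => ?_, fun j hj => (hG j hj).1⟩
    · rw [norm_smul, Real.norm_of_nonneg (inv_nonneg.2 hσ.le)]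
      refine le_trans ?_ hC
      rw [inv_mul_le_iff₀ hσ, mul_one]
      exact hu j hj
    · refine h.mult (u + σ • ξ) t ht fun j hj => ?_
      have e : v j - (u + σ • ξ) = σ • (σ⁻¹ • (v j - u) - ξ) := by
        rw [smul_sub, smul_smul, mul_inv_cancel₀ hσ.ne', one_smul]; abel
      rw [e, norm_smul, Real.norm_of_nonneg hσ.le]
      have := hξ j hj
      rwa [le_div_iff₀' hσ] at this
  have h0 := hD ι s _ G hrob
  set c : ℝ≥0∞ := ENNReal.ofReal ((σ ^ Module.finrank ℝ V * σ ^ 2)⁻¹) ^ (1 / p) with hc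
  have e1 : nm p (fun z => ∑ j ∈ s, H j z) = c * nm p (fun z => ∑ j ∈ s, G j z) := by
    rw [hc, ← rs_nm_Lam u hσ (pow_pos hσ 2) hp (fun z => pr z (u, ‖u‖ ^ 2))]
    congr 1
    ext z
    rw [Finset.mul_sum]
    exact Finset.sum_congr rfl fun j hj => (hG j hj).2 z
  have e2 : ∀ j ∈ s, nm p (H j) = c * nm p (G j) := by
    intro j hj
    rw [hc, ← rs_nm_Lam u hσ (pow_pos hσ 2) hp (fun z => pr z (u, ‖u‖ ^ 2))]
    congr 1
    ext z
    exact (hG j hj).2 z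
  have e3 : (∑ j ∈ s, nm p (H j) ^ (2 : ℝ)) ^ (1 / 2 : ℝ) = c * (∑ j ∈ s, nm p (G j) ^ (2 : ℝ)) ^ (1 / 2 : ℝ) := by
    have : ∑ j ∈ s, nm p (H j) ^ (2 : ℝ) = c ^ (2 : ℝ) * ∑ j ∈ s, nm p (G j) ^ (2 : ℝ) := by
      rw [Finset.mul_sum]
      exact Finset.sum_congr rfl fun j hj => by rw [e2 j hj, ENNReal.mul_rpow_of_nonneg _ _ (by norm_num)]
    rw [this, ENNReal.mul_rpow_of_nonneg _ _ (by norm_num), ← ENNReal.rpow_mul]
    norm_num
  rw [e1, e3, mul_left_comm]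
  exact mul_le_mul_right h0 c

open scoped Classical in
/-- rescaling of every cluster of a grouping. -/
theorem DecLe.group {p C Cg ρ σ : ℝ} {D : ℝ≥0∞} (hD : DecLe V p C (ρ / σ) D) (hp : 0 < p) (hC : 1 ≤ C) (hρ : 0 < ρ) (hσ : 0 < σ)
    {ι ι' : Type} {s : Finset ι} {v : ι → V} {H : ι → V × ℝ → ℂ} (h : Rob C ρ s v H) {π : ι → ι'} {u : ι' → V} (hg : Grp Cg σ s v π u) :
    ∑ J ∈ s.image π, nm p (gsum s π H J) ^ (2 : ℝ) ≤ D ^ (2 : ℝ) * ∑ θ ∈ s, nm p (H θ) ^ (2 : ℝ) := by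
  have h1 : ∀ J ∈ s.image π, nm p (gsum s π H J) ^ (2 : ℝ) ≤ D ^ (2 : ℝ) * ∑ θ ∈ s.filter (fun θ => π θ = J), nm p (H θ) ^ (2 : ℝ) := by
    intro J _
    have h2 := DecLe.resc hD hp hC hρ hσ (h.subset (Finset.filter_subset (fun θ => π θ = J) s)) (u J) (fun j hj => by
      rw [Finset.mem_filter] at hj
      rw [← hj.2]
      exact hg.near j hj.1)
    have h3 := ENNReal.rpow_le_rpow h2 (by norm_num : (0:ℝ) ≤ 2)
    rw [ENNReal.mul_rpow_of_nonneg _ _ (by norm_num), ← ENNReal.rpow_mul, show (1 / 2 : ℝ) * 2 = 1 by norm_num, ENNReal.rpow_one] at h3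
    exact h3
  refine (Finset.sum_le_sum h1).trans (le_of_eq ?_)
  rw [← Finset.mul_sum, Finset.sum_fiberwise_of_maps_to (fun θ hθ => Finset.mem_image_of_mem π hθ)]

open scoped Classical in
/-- sharp form of `Rob.group`: no loss in the parameter when the fine scale is at most half the coarse one -/
theorem rs_Rob_group {C Cg ρ σ : ℝ} {ι ι' : Type} {s : Finset ι} {v : ι → V} {H : ι → V × ℝ → ℂ} (h : Rob C ρ s v H) {π : ι → ι'} {u : ι' → V}
    (hg : Grp Cg σ s v π u) (hρ : 0 < ρ) (hσ : C * ρ + σ ≤ C * σ) (hρσ : ρ ≤ σ) (hC : 0 ≤ C) (hCg : Cg ≤ C) :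
    Rob C σ (s.image π) u (gsum s π H) := by
  refine ⟨fun J hJ => ?_, fun ξ t ht hξ => (hg.mult ξ t ht hξ).trans hCg, fun J hJ => ?_⟩
  · obtain ⟨θ, hθ, rfl⟩ := Finset.mem_image.1 hJ
    obtain ⟨θ', hθ', e⟩ := hg.rep θ hθ
    rw [e]
    exact h.bdd θ' hθ'
  · refine FS.sum _ fun θ hθ => ?_
    rw [Finset.mem_filter] at hθ
    refine (h.fs θ hθ.1).mono ?_
    refine (cap_subset_cap (σ := σ) (u := u J) ?_).trans (cap_mono hσ ?_)
    · rw [← hθ.2]; exact hg.near θ hθ.1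
    · exact mul_le_mul_of_nonneg_left (pow_le_pow_left₀ hρ.le hρσ 2) hC

/-- **submultiplicativity** (for `bdn_main`). -/
theorem DecLe.mul {p C ρ σ : ℝ} {D D' : ℝ≥0∞} (hp : 0 < p) (hC : 2 ≤ C) (hC' : (3 : ℝ) ^ Module.finrank ℝ V ≤ C) (hρ : 0 < ρ) (hρ1 : ρ ≤ 1 / 2) (hσ : 0 < σ)
    (hD : DecLe V p C σ D) (hD' : DecLe V p C ρ D') : DecLe V p C (σ * ρ) (D * D') := by
  classical
  intro ι s v H h
  obtain ⟨π, hg⟩ := exists_grp s v hσ
  have hσρ : 0 < σ * ρ := mul_pos hσ hρ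
  have hrob : Rob C σ (s.image π) v (gsum s π H) := by
    refine rs_Rob_group h hg hσρ ?_ ?_ (by linarith) hC'
    · nlinarith [mul_le_mul_of_nonneg_left hρ1 (mul_nonneg (by linarith : 0 ≤ C) hσ.le), mul_le_mul_of_nonneg_right hC hσ.le]
    · nlinarith
  have h1 := hD ι _ v _ hrob
  have e : σ * ρ / σ = ρ := by field_simp
  have h2 := DecLe.group (σ := σ) (ρ := σ * ρ) (by rw [e]; exact hD') hp (by linarith) hσρ hσ h hg
  have e1 : (fun z => ∑ J ∈ s.image π, gsum s π H J z) = fun z => ∑ θ ∈ s, H θ z := funext (sum_gsum s π H)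
  rw [e1] at h1
  refine h1.trans ?_
  rw [mul_assoc]
  refine mul_le_mul_right ?_ D
  have h3 := ENNReal.rpow_le_rpow h2 (by norm_num : (0:ℝ) ≤ 1 / 2)
  rw [ENNReal.mul_rpow_of_nonneg _ _ (by norm_num), ← ENNReal.rpow_mul, show (2 : ℝ) * (1 / 2) = 1 by norm_num, ENNReal.rpow_one] at h3
  exact h3

/-- **transfer** along a linear isometry (needed because the hyperplane `W = (ℝ ∙ n)ᗮ` varies in the Bourgain-Guth step). -/
theorem DecLe.transfer {V' : Type} [NormedAddCommGroup V'] [InnerProductSpace ℝ V'] [FiniteDimensional ℝ V'] [MeasurableSpace V'] [BorelSpace V']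
    (e : V ≃ₗᵢ[ℝ] V') {p C ρ : ℝ} {D : ℝ≥0∞} (h : DecLe V p C ρ D) : DecLe V' p C ρ D := by
  intro ι s v' H' hr
  set E : V × ℝ → V' × ℝ := Prod.map e id with hE
  have hmp : MeasurePreserving E volume volume := (e.measurePreserving).prod (MeasurePreserving.id volume)
  have hemb : MeasurableEmbedding E := (e.toHomeomorph.prodCongr (Homeomorph.refl ℝ)).measurableEmbedding
  have hpr : ∀ z w : V × ℝ, pr (E z) (E w) = pr z w := by
    intro z w
    simp [pr, hE]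
  have hnm : ∀ F : V' × ℝ → ℂ, nm p (fun z => F (E z)) = nm p F := by
    intro F
    unfold nm ip
    rw [hmp.lintegral_comp_emb hemb (fun z => ‖F z‖ₑ ^ p)]
  have hrob : Rob C ρ s (fun j => e.symm (v' j)) (fun j z => H' j (E z)) := by
    refine ⟨fun j hj => ?_, fun ξ t ht hξ => ?_, fun j hj => ?_⟩
    · rw [LinearIsometryEquiv.norm_map]
      exact hr.bdd j hj
    · refine hr.mult (e ξ) t ht fun j hj => ?_
      have := hξ j hj
      rwa [← e.norm_map, map_sub, LinearIsometryEquiv.apply_symm_apply] at this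
    · obtain ⟨g, h1, h2, h3⟩ := hr.fs j hj
      refine ⟨fun w => g (E w), (hmp.integrable_comp_emb hemb).2 h1, fun w hw => h2 _ fun hc => hw ?_, fun z => ?_⟩
      · obtain ⟨c1, c2⟩ := hc
        refine ⟨?_, ?_⟩
        · rw [← e.norm_map, map_sub, LinearIsometryEquiv.apply_symm_apply]
          exact c1
        · have : ‖(E w).1‖ = ‖w.1‖ := by simp [hE]
          rw [this] at c2
          exact c2
      · beta_reduce
        rw [h3, ← hmp.integral_comp hemb]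
        simp only [hpr]
  have h0 := h ι s _ _ hrob
  rw [hnm (fun z => ∑ j ∈ s, H' j z)] at h0
  simp only [hnm] at h0
  exact h0

end Claimed.Agent.BD
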