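import Claimed.Agent.Lib.BD.Top

/-!
# Box BD: STRIP DECOUPLING, any codimension   (helper203; no sorry of its own)

**`bd_strip : finrank V = κ + m → 2 ≤ p → p κ ≤ 2 (κ+2) → 0 < η → FlagPow V m p η`**: robust families (every parameter `C`) whose centres lie in `m` mutually orthogonal slabs of half width `C ρ`
(`NearFlag`: orthonormal normals `n i`, levels `c i`; = within `√m C ρ` of an affine `κ`-plane) are decoupled in `L^p(V × ℝ)` with loss `ρ^(-η)` in the LARGER range of the dimension `κ`.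
This is `d:strip-decoupling` of fractal.tex and the `κ`-plane clause of `p:weighted`.   Proof: induction on `m`, one slab at a time (`bds_step` = `bdc_cyl` of helper74 relative to the remaining slabs).
-/

set_option autoImplicit false
set_option linter.unusedSectionVars false
open MeasureTheory Set
open scoped ENNReal NNReal RealInnerProductSpace

namespace Claimed.Agent.BD

noncomputable section

variable {V W : Type} [NormedAddCommGroup V] [InnerProductSpace ℝ V] [FiniteDimensional ℝ V] [MeasurableSpace V] [BorelSpace V]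
  [NormedAddCommGroup W] [InnerProductSpace ℝ W] [FiniteDimensional ℝ W] [MeasurableSpace W] [BorelSpace W]

/-- the points `u j`, `j ∈ s`, lie in the intersection of `m` mutually orthogonal slabs of half width `lam` (i.e. within `√m lam` of an affine subspace of codimension `m`). -/
def NearFlag (m : ℕ) (lam : ℝ) {ι : Type} (s : Finset ι) (u : ι → V) : Prop :=
  ∃ (n : Fin m → V) (c : Fin m → ℝ), Orthonormal ℝ n ∧ ∀ i, ∀ j ∈ s, |inner ℝ (n i) (u j) - c i| ≤ lam

variable (V) in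
/-- `D` is a decoupling constant for the robust families whose centres lie in `m` orthogonal slabs of half width `C ρ`. -/
def FlagLe (m : ℕ) (p C ρ : ℝ) (D : ℝ≥0∞) : Prop :=
  ∀ (ι : Type) (s : Finset ι) (v : ι → V) (H : ι → V × ℝ → ℂ), Rob C ρ s v H → NearFlag m (C * ρ) s v →
    nm p (fun z => ∑ j ∈ s, H j z) ≤ D * (∑ j ∈ s, nm p (H j) ^ (2 : ℝ)) ^ (1 / 2 : ℝ)

variable (V) in
def FlagPow (m : ℕ) (p η : ℝ) : Prop :=
  ∀ C : ℝ, ∃ D : ℝ, ∀ ρ : ℝ, 0 < ρ → ρ ≤ 1 → FlagLe V m p C ρ (ENNReal.ofReal (D * ρ ^ (-η)))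

/-- decoupling slice by slice, from the inequality for every slice (the proof of `bdc_core`). -/
theorem bds_core (e : V ≃ₗᵢ[ℝ] WithLp 2 (W × ℝ)) (p : ℝ) (hp : 2 ≤ p) (D : ℝ≥0∞) {ι : Type} (s : Finset ι)
    (H : ι → V × ℝ → ℂ) (hm : ∀ j ∈ s, Measurable (H j))
    (hdec : ∀ y, nm p (fun z => ∑ j ∈ s, cySl e (H j) y z) ≤ D * (∑ j ∈ s, nm p (cySl e (H j) y) ^ (2 : ℝ)) ^ (1 / 2 : ℝ)) :
    nm p (fun z => ∑ j ∈ s, H j z) ≤ D * (∑ j ∈ s, nm p (H j) ^ (2 : ℝ)) ^ (1 / 2 : ℝ) := by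
  have hp0 : 0 < p := by linarith
  have hq : 1 ≤ p / 2 := by linarith
  have hq0 : 0 < p / 2 := by linarith
  unfold nm
  refine bdc_pow' p hp0 D _ s _ ?_
  have hms : Measurable fun z => ∑ j ∈ s, H j z := Finset.measurable_fun_sum s hm
  rw [bdc_ip_slice e p _ hms]
  have h1 : ∀ y, ip p (cySl e (fun z => ∑ j ∈ s, H j z) y) ≤ D ^ p * (∑ j ∈ s, ip p (cySl e (H j) y) ^ (2 / p)) ^ (p / 2) := by
    intro y
    exact bdc_pow p hp0 D _ s _ (hdec y)
  refine (lintegral_mono h1).trans ?_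
  have hmeas : Measurable fun y => (∑ j ∈ s, ip p (cySl e (H j) y) ^ (2 / p)) ^ (p / 2) :=
    (Finset.measurable_fun_sum s fun j hj => (bdc_ip_meas e p (H j) (hm j hj)).pow_const _).pow_const _
  rw [lintegral_const_mul _ hmeas]
  gcongr
  have h2 := bdc_mink volume s (fun j y => ip p (cySl e (H j) y) ^ (2 / p))
    (fun j hj => ((bdc_ip_meas e p (H j) (hm j hj)).pow_const _).aemeasurable) (p / 2) hq
  have h3 : ∀ j ∈ s, (∫⁻ y, (ip p (cySl e (H j) y) ^ (2 / p)) ^ (p / 2)) ^ (1 / (p / 2)) = ip p (H j) ^ (2 / p) := by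
    intro j hj
    rw [bdc_ip_slice e p (H j) (hm j hj)]
    congr 1
    · refine lintegral_congr fun y => ?_
      rw [← ENNReal.rpow_mul]
      have : 2 / p * (p / 2) = 1 := by field_simp
      rw [this, ENNReal.rpow_one]
    · field_simp
  rw [Finset.sum_congr rfl h3] at h2
  have h4 := ENNReal.rpow_le_rpow h2 hq0.le
  rw [← ENNReal.rpow_mul] at h4
  have : 1 / (p / 2) * (p / 2) = 1 := by field_simp
  rw [this, ENNReal.rpow_one] at h4
  exact h4

/-- inner products with a vector orthogonal to the normal of the splitting. -/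
theorem bds_inner (e : V ≃ₗᵢ[ℝ] WithLp 2 (W × ℝ)) (a x : V) (ha : cyA e a = 0) : inner ℝ a x = inner ℝ (cyW e a) (cyW e x) := by
  conv_lhs => rw [← bdc_J_WA e a, ← bdc_J_WA e x, bdc_J_inner]
  simp [ha]

/-- **one more slab**: the constant of the model hyperplane `W` with `m` slabs serves `V` with `m + 1` slabs. -/
theorem bds_step (hW : Module.finrank ℝ V = Module.finrank ℝ W + 1) (m : ℕ) (p : ℝ) (hp : 2 ≤ p) (C : ℝ) (hC : 1 ≤ C) :
    ∃ C' : ℝ, ∀ (ρ : ℝ) (D : ℝ≥0∞), 0 < ρ → ρ ≤ 1 → FlagLe W m p C' ρ D → FlagLe V (m + 1) p C ρ D := by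
  obtain ⟨C', hC'⟩ := bdc_rob_slice (V := V) (W := W) (3 * C) (by linarith)
  refine ⟨max C' C, fun ρ D hρ hρ1 hD ι s v H hR hN => ?_⟩
  obtain ⟨n, c, hn, hc⟩ := hN
  have hn0 : ‖n 0‖ = 1 := hn.1 0
  obtain ⟨e, he⟩ := bdc_split (W := W) hW (n 0) hn0
  have hb : ∀ j ∈ s, ‖v j - c 0 • n 0‖ ≤ 3 * C := by
    intro j hj
    have h1 : |inner ℝ (n 0) (v j)| ≤ ‖v j‖ := by
      have := abs_real_inner_le_norm (n 0) (v j)
      rwa [hn0, one_mul] at this
    have h2 : |c 0| ≤ 2 * C := by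
      have h3 := hc 0 j hj
      have h4 := hR.bdd j hj
      have h5 : C * ρ ≤ C := by nlinarith
      have h6 : |c 0| ≤ |inner ℝ (n 0) (v j)| + |inner ℝ (n 0) (v j) - c 0| := by
        have := abs_sub_abs_le_abs_sub (c 0) (inner ℝ (n 0) (v j))
        rw [abs_sub_comm] at this
        linarith
      linarith
    calc ‖v j - c 0 • n 0‖ ≤ ‖v j‖ + ‖c 0 • n 0‖ := norm_sub_le _ _
      _ = ‖v j‖ + |c 0| := by rw [norm_smul, hn0, mul_one, Real.norm_eq_abs]
      _ ≤ 3 * C := by have := hR.bdd j hj; linarith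
  obtain ⟨G, hG1, hG2, hG3⟩ := bdc_gal_dec (c 0 • n 0) p C ρ s v H hR (3 * C) (by linarith) hρ.le hb
  rw [hG3, Finset.sum_congr rfl fun j hj => by rw [hG2 j hj]]
  have hA : ∀ j ∈ s, |cyA e (v j - c 0 • n 0)| ≤ 3 * C * ρ := fun j hj => by
    rw [he, inner_sub_right, real_inner_smul_right, real_inner_self_eq_norm_sq, hn0]
    have := hc 0 j hj
    have h5 : C * ρ ≤ 3 * C * ρ := by nlinarith
    simpa using this.trans h5
  have hsl := hC' e ρ hρ ι s _ G hG1 hA
  have hz : ∀ i : Fin m, cyA e (n i.succ) = 0 := fun i => by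
    rw [he]
    exact hn.2 (Fin.succ_ne_zero i).symm
  refine bds_core e p hp D s G (fun j hj => (bdc_fs_cont (hG1.fs j hj)).measurable) fun y => ?_
  refine hD ι s _ _ ((hsl y).mono (le_max_left _ _) hρ.le) ⟨fun i => cyW e (n i.succ), fun i => c i.succ, ?_, fun i j hj => ?_⟩
  · rw [orthonormal_iff_ite]
    intro i i'
    rw [← bds_inner e _ _ (hz i), (orthonormal_iff_ite.1 hn) i.succ i'.succ]
    simp [Fin.succ_inj]
  · rw [← bds_inner e _ _ (hz i), inner_sub_right, real_inner_smul_right, hn.2 (Fin.succ_ne_zero i), mul_zero, sub_zero]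
    refine (hc i.succ j hj).trans ?_
    exact mul_le_mul_of_nonneg_right (le_max_right _ _) hρ.le

theorem FlagLe.mono_C {m : ℕ} {p C C' ρ : ℝ} {D : ℝ≥0∞} (h : FlagLe V m p C' ρ D) (hC : C ≤ C') (hρ : 0 ≤ ρ) : FlagLe V m p C ρ D := by
  intro ι s v H hR ⟨n, c, hn, hc⟩
  exact h ι s v H (hR.mono hC hρ) ⟨n, c, hn, fun i j hj => (hc i j hj).trans (mul_le_mul_of_nonneg_right hC hρ)⟩

/-- **strip decoupling, any codimension**: `finrank V = κ + m`, centres in `m` orthogonal slabs of half width `C ρ`, `2 ≤ p ≤ 2(κ+2)/κ`. -/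
theorem bd_strip_all (κ : ℕ) {p : ℝ} (hp : 2 ≤ p) (hpq : p * κ ≤ 2 * ((κ : ℝ) + 2)) {η : ℝ} (hη : 0 < η) (m : ℕ) :
    ∀ (V : Type) [NormedAddCommGroup V] [InnerProductSpace ℝ V] [FiniteDimensional ℝ V] [MeasurableSpace V] [BorelSpace V],
      Module.finrank ℝ V = κ + m → FlagPow V m p η := by
  induction m with
  | zero =>
    intro V _ _ _ _ _ hV C
    obtain ⟨D, hD⟩ := bd_all κ V hV p hp hpq η hη C
    exact ⟨D, fun ρ h0 h1 ι s v H hR _ => hD ρ h0 h1 ι s v H hR⟩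
  | succ m ih =>
    intro V _ _ _ _ _ hV C
    have hW : Module.finrank ℝ V = Module.finrank ℝ (EuclideanSpace ℝ (Fin (κ + m))) + 1 := by
      rw [hV, finrank_euclideanSpace, Fintype.card_fin]
      rfl
    obtain ⟨C', hC'⟩ := bds_step (V := V) (W := EuclideanSpace ℝ (Fin (κ + m))) hW m p hp (max C 1) (le_max_right _ _)
    obtain ⟨D, hD⟩ := ih (EuclideanSpace ℝ (Fin (κ + m))) (by rw [finrank_euclideanSpace, Fintype.card_fin]) C'
    exact ⟨D, fun ρ h0 h1 => (hC' ρ _ h0 h1 (hD ρ h0 h1)).mono_C (le_max_left _ _) h0.le⟩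

/-- **BD, strip exit.** -/
theorem bd_strip {κ m : ℕ} (hV : Module.finrank ℝ V = κ + m) {p : ℝ} (hp : 2 ≤ p) (hpq : p * κ ≤ 2 * ((κ : ℝ) + 2)) {η : ℝ} (hη : 0 < η) : FlagPow V m p η :=
  bd_strip_all κ hp hpq hη m V hV

/-- Stores the on-demand equation lemmas of the definitions above in THIS module (rule 6 hygiene). -/
theorem bd_strip_forced : True := by
  have := @NearFlag.eq_1
  have := @FlagLe.eq_1
  have := @FlagPow.eq_1
  trivial

end

end Claimed.Agent.BD
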