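import Claimed.Agent.Lib.BD.BG
import Claimed.Agent.Lib.BD.Crit
import Claimed.Agent.Lib.BD.Cyl
import Claimed.Agent.Lib.BD.IterExit

/-!
# Box BD: TOP ASSEMBLY   (captain helper203; NO sorry of its own)

**`bd_main : 2 ≤ p → p k ≤ 2 (k+2) → 0 < η → DecPow V p η`**, `k = finrank V`: `ℓ²` decoupling for the paraboloid `τ = |ξ|²` over `V`, ALL robust families (every parameter `C`), all scales `0 < ρ ≤ 1`, GLOBAL `L^p(V × ℝ)` norms, loss `ρ^(-η)`.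
Local / weighted forms: multiply by `η((· - z)/R)`, `R ≥ ρ⁻²` (`Rob.localize`, `ip_localize_le`, `lintegral_ip_localize` of `Loc.lean`).

Induction on `k` (`bd_all`): `k = 0` `decPow_zero`; `k → k+1`: model hyperplane `W = EuclideanSpace ℝ (Fin k)`, `narPow_of` (`bdc_cyl`), subcritical `p`: `bd_sub`, endpoint: `critStmt`.
`bd_sub`: for every fixed parameter `Cf ≥ max 2 3^k`, `D m = bdD V p Cf m` = normalised best constant at `ρ = 2^-m`; hypotheses of `bdn_main'`: `bdD_le_pow` (trivial bound), `bdD_sub` (`DecLe.mul`), `bdA_le_pow` (narrow constant),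
`bdD_rec` (`bg_stmt` + `bd9_iterStmt`); then `Rob.scale` for the scales between the dyadic ones.
-/

set_option autoImplicit false
set_option linter.unusedSectionVars false
open MeasureTheory Set
open scoped ENNReal NNReal RealInnerProductSpace

namespace Claimed.Agent.BD

noncomputable section

/-! ## 1. best constants -/

/-- the normalised best constant of a family of inequalities `X ≤ D Y`. -/
def bdBest (S : Set ℝ≥0∞) : ℝ := max 1 (sInf S).toReal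

theorem bdt_one_le_best (S : Set ℝ≥0∞) : 1 ≤ bdBest S := le_max_left _ _

theorem bdt_best {X Y : ℝ≥0∞} {S : Set ℝ≥0∞} (h : ∀ D ∈ S, X ≤ D * Y) (hfin : ∃ D ∈ S, D ≠ ∞) :
    X ≤ ENNReal.ofReal (bdBest S) * Y := by
  obtain ⟨D0, hD0, hD0t⟩ := hfin
  have hm : sInf S ≠ ∞ := ne_top_of_le_ne_top hD0t (sInf_le hD0)
  have h1 : sInf S ≤ ENNReal.ofReal (bdBest S) := by
    rw [← ENNReal.ofReal_toReal hm]
    exact ENNReal.ofReal_le_ofReal (le_max_right _ _)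
  have h2 : (1 : ℝ≥0∞) ≤ ENNReal.ofReal (bdBest S) := ENNReal.one_le_ofReal.2 (bdt_one_le_best S)
  by_cases hYt : Y = ∞
  · rw [hYt, ENNReal.mul_top (by intro h; rw [h] at h2; simp at h2)]
    exact le_top
  by_cases hY0 : Y = 0
  · have := h D0 hD0
    rw [hY0, mul_zero] at this
    exact this.trans zero_le
  have h3 : X / Y ≤ sInf S := le_sInf fun D hD => (ENNReal.div_le_iff hY0 hYt).2 (h D hD)
  exact ((ENNReal.div_le_iff hY0 hYt).1 h3).trans (by gcongr)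

theorem bdt_best_le {S : Set ℝ≥0∞} {r : ℝ} (h : ENNReal.ofReal r ∈ S) (hr : 1 ≤ r) : bdBest S ≤ r := by
  unfold bdBest
  refine max_le hr ?_
  have := ENNReal.toReal_mono ENNReal.ofReal_ne_top (sInf_le h)
  rwa [ENNReal.toReal_ofReal (by linarith)] at this

variable {V : Type} [NormedAddCommGroup V] [InnerProductSpace ℝ V] [FiniteDimensional ℝ V] [MeasurableSpace V] [BorelSpace V]

variable (V) in
/-- the best decoupling constant at `ρ = 2^-m`, parameter `C`. -/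
def bdD (p C : ℝ) (m : ℕ) : ℝ := bdBest {D | DecLe V p C ((2 : ℝ) ^ (-(m : ℝ))) D}

variable (V) in
/-- the best narrow constant at `σ = 2^-a`. -/
def bdA (p C lam : ℝ) (a : ℕ) : ℝ := bdBest {A | NarLe V p C lam ((2 : ℝ) ^ (-(a : ℝ))) A}

theorem bdD_spec {p C : ℝ} {m : ℕ} (hfin : ∃ D, DecLe V p C ((2 : ℝ) ^ (-(m : ℝ))) D ∧ D ≠ ∞) :
    DecLe V p C ((2 : ℝ) ^ (-(m : ℝ))) (ENNReal.ofReal (bdD V p C m)) := by
  intro ι s v H hR
  exact bdt_best (fun D hD => hD ι s v H hR) hfin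

theorem bdA_spec {p C lam : ℝ} {a : ℕ} (hfin : ∃ A, NarLe V p C lam ((2 : ℝ) ^ (-(a : ℝ))) A ∧ A ≠ ∞) :
    NarLe V p C lam ((2 : ℝ) ^ (-(a : ℝ))) (ENNReal.ofReal (bdA V p C lam a)) := by
  intro ι s v H hR hN
  exact bdt_best (fun D hD => hD ι s v H hR hN) hfin

/-! ## 2. the narrow constant from the induction hypothesis -/

theorem narPow_of {W : Type} [NormedAddCommGroup W] [InnerProductSpace ℝ W] [FiniteDimensional ℝ W] [MeasurableSpace W] [BorelSpace W]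
    (hW : Module.finrank ℝ V = Module.finrank ℝ W + 1) {p : ℝ} (hp : 2 ≤ p) (h : ∀ η : ℝ, 0 < η → DecPow W p η) : NarPow V p := by
  intro C lam ε hε
  obtain ⟨C', hC'⟩ := bdc_cyl (V := V) (W := W) hW p hp (max (max C lam) 1) (le_max_right _ _)
  obtain ⟨D, hD⟩ := h ε hε C'
  refine ⟨D, fun σ hσ hσ1 ι s u G hR hN => ?_⟩
  obtain ⟨n, hn, c, hc⟩ := hN
  refine hC' σ _ hσ hσ1 (hD σ hσ hσ1) ι s u G (hR.mono ((le_max_left _ _).trans (le_max_left _ _)) hσ.le) n c hn fun j hj => (hc j hj).trans ?_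
  exact mul_le_mul_of_nonneg_right ((le_max_right _ _).trans (le_max_left _ _)) hσ.le

/-! ## 3. the hypotheses of the numeric bootstrap -/

theorem bdt_pow_pos (m : ℕ) : (0 : ℝ) < (2 : ℝ) ^ (-(m : ℝ)) := Real.rpow_pos_of_pos two_pos _

theorem bdt_pow_le_one (m : ℕ) : (2 : ℝ) ^ (-(m : ℝ)) ≤ 1 :=
  Real.rpow_le_one_of_one_le_of_nonpos one_le_two (by simp)

theorem bdt_pow_mul (m n : ℕ) : (2 : ℝ) ^ (-(m : ℝ)) * (2 : ℝ) ^ (-(n : ℝ)) = (2 : ℝ) ^ (-((m + n : ℕ) : ℝ)) := by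
  rw [← Real.rpow_add two_pos]
  congr 1
  push_cast
  ring

theorem bdt_pow_div {M a : ℕ} (h : a ≤ M) : (2 : ℝ) ^ (-(M : ℝ)) / (2 : ℝ) ^ (-(a : ℝ)) = (2 : ℝ) ^ (-((M - a : ℕ) : ℝ)) := by
  rw [← Real.rpow_sub two_pos]
  congr 1
  rw [Nat.cast_sub h]
  ring

theorem bdt_pow_neg (m : ℕ) (η : ℝ) : ((2 : ℝ) ^ (-(m : ℝ))) ^ (-η) = (2 : ℝ) ^ (η * m) := by
  rw [← Real.rpow_mul two_pos.le]
  congr 1
  ring

theorem bdt_pow_half {n : ℕ} (hn : 1 ≤ n) : (2 : ℝ) ^ (-(n : ℝ)) ≤ 1 / 2 := by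
  have h1 : (2 : ℝ) ^ (-(n : ℝ)) ≤ (2 : ℝ) ^ (-(1 : ℝ)) := by
    apply Real.rpow_le_rpow_of_exponent_le one_le_two
    have : (1 : ℝ) ≤ n := by exact_mod_cast hn
    linarith
  rwa [Real.rpow_neg_one, ← one_div] at h1

/-- a power bound for `DecLe` gives one for `bdD`. -/
theorem bdD_le_pow {p C D η : ℝ} (h : ∀ ρ : ℝ, 0 < ρ → ρ ≤ 1 → DecLe V p C ρ (ENNReal.ofReal (D * ρ ^ (-η)))) (hη : 0 ≤ η) (m : ℕ) :
    bdD V p C m ≤ max 1 D * (2 : ℝ) ^ (η * m) := by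
  have h1 := h _ (bdt_pow_pos m) (bdt_pow_le_one m)
  rw [bdt_pow_neg] at h1
  have h2 : (1 : ℝ) ≤ (2 : ℝ) ^ (η * m) := Real.one_le_rpow one_le_two (by positivity)
  refine bdt_best_le (r := max 1 D * (2 : ℝ) ^ (η * m)) (h1.mono_D (ENNReal.ofReal_le_ofReal ?_)) ?_
  · exact mul_le_mul_of_nonneg_right (le_max_right _ _) (by linarith)
  · calc (1 : ℝ) = 1 * 1 := by norm_num
      _ ≤ _ := mul_le_mul (le_max_left _ _) h2 zero_le_one (by positivity)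

theorem bdA_le_pow {p C lam D η : ℝ} (h : ∀ σ : ℝ, 0 < σ → σ ≤ 1 → NarLe V p C lam σ (ENNReal.ofReal (D * σ ^ (-η)))) (hη : 0 ≤ η) (m : ℕ) :
    bdA V p C lam m ≤ max 1 D * (2 : ℝ) ^ (η * m) := by
  have h1 := h _ (bdt_pow_pos m) (bdt_pow_le_one m)
  rw [bdt_pow_neg] at h1
  have h2 : (1 : ℝ) ≤ (2 : ℝ) ^ (η * m) := Real.one_le_rpow one_le_two (by positivity)
  refine bdt_best_le (r := max 1 D * (2 : ℝ) ^ (η * m)) ?_ ?_
  · intro ι s u G hR hN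
    refine (h1 ι s u G hR hN).trans ?_
    gcongr
    exact le_max_right _ _
  · calc (1 : ℝ) = 1 * 1 := by norm_num
      _ ≤ _ := mul_le_mul (le_max_left _ _) h2 zero_le_one (by positivity)

theorem bdD_sub {p C : ℝ} (hp : 1 ≤ p) (hC : 2 ≤ C) (hC' : (3 : ℝ) ^ Module.finrank ℝ V ≤ C) (m n : ℕ) :
    bdD V p C (m + n) ≤ 1 * bdD V p C m * bdD V p C n := by
  have hfin : ∀ m : ℕ, ∃ D, DecLe V p C ((2 : ℝ) ^ (-(m : ℝ))) D ∧ D ≠ ∞ := fun m => by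
    obtain ⟨D, hD⟩ := decPow_trivial (V := V) hp C
    exact ⟨_, hD _ (bdt_pow_pos m) (bdt_pow_le_one m), ENNReal.ofReal_ne_top⟩
  have h1 : ∀ m, 1 ≤ bdD V p C m := fun m => bdt_one_le_best _
  rw [one_mul]
  rcases Nat.eq_zero_or_pos n with rfl | hn
  · rw [add_zero]
    exact le_mul_of_one_le_right (by linarith [h1 m]) (h1 0)
  · refine bdt_best_le ?_ (by nlinarith [h1 m, h1 n])
    have := DecLe.mul (by linarith) hC hC' (bdt_pow_pos n) (bdt_pow_half hn) (bdt_pow_pos m) (bdD_spec (hfin m)) (bdD_spec (hfin n))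
    rw [bdt_pow_mul, ← ENNReal.ofReal_mul (by linarith [h1 m])] at this
    exact this

theorem bdt_fin {p : ℝ} (hp : 1 ≤ p) (C : ℝ) (m : ℕ) : ∃ D, DecLe V p C ((2 : ℝ) ^ (-(m : ℝ))) D ∧ D ≠ ∞ := by
  obtain ⟨D, hD⟩ := decPow_trivial (V := V) hp C
  exact ⟨_, hD _ (bdt_pow_pos m) (bdt_pow_le_one m), ENNReal.ofReal_ne_top⟩

/-- the conversion of the constant of `BgStmt` to a real number. -/
theorem bdt_conv {p : ℝ} (hp : 0 < p) (A D1 N Cst y : ℝ) (hA : 0 ≤ A) (hD1 : 0 ≤ D1) (hy : 0 ≤ y) {ι : Type} (S : Finset ι) (D w : ι → ℝ) (hD : ∀ l ∈ S, 0 < D l) :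
    (ENNReal.ofReal A + 1) * ENNReal.ofReal D1 + (ENNReal.ofReal N * (ENNReal.ofReal (Cst * y) * ∏ l ∈ S, ENNReal.ofReal (D l) ^ w l) ^ p) ^ (1 / p)
      ≤ ENNReal.ofReal ((A + 1) * D1 + (max N 0) ^ (1 / p) * max Cst 0 * y * ∏ l ∈ S, D l ^ w l) := by
  have hP : 0 ≤ ∏ l ∈ S, D l ^ w l := Finset.prod_nonneg fun l hl => (Real.rpow_pos_of_pos (hD l hl) _).le
  have hN : 0 ≤ (max N 0) ^ (1 / p) := Real.rpow_nonneg (le_max_right _ _) _
  have hC : 0 ≤ max Cst 0 := le_max_right _ _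
  rw [ENNReal.ofReal_add (by positivity) (by positivity)]
  refine add_le_add (le_of_eq ?_) ?_
  · rw [ENNReal.ofReal_mul (by positivity), ENNReal.ofReal_add hA zero_le_one, ENNReal.ofReal_one]
  · rw [ENNReal.mul_rpow_of_nonneg _ _ (by positivity), ← ENNReal.rpow_mul, mul_one_div, div_self hp.ne', ENNReal.rpow_one]
    have e1 : ∏ l ∈ S, ENNReal.ofReal (D l) ^ w l = ENNReal.ofReal (∏ l ∈ S, D l ^ w l) := by
      rw [ENNReal.ofReal_prod_of_nonneg fun l hl => (Real.rpow_pos_of_pos (hD l hl) _).le]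
      exact Finset.prod_congr rfl fun l hl => ENNReal.ofReal_rpow_of_pos (hD l hl)
    have e2 : (max N 0) ^ (1 / p) * max Cst 0 * y * ∏ l ∈ S, D l ^ w l = (max N 0) ^ (1 / p) * ((max Cst 0 * y) * ∏ l ∈ S, D l ^ w l) := by ring
    rw [e1, e2, ENNReal.ofReal_mul hN, ENNReal.ofReal_mul (mul_nonneg hC hy)]
    refine mul_le_mul' ?_ (mul_le_mul' (ENNReal.ofReal_le_ofReal (mul_le_mul_of_nonneg_right (le_max_left _ _) hy)) le_rfl)
    rw [← ENNReal.ofReal_rpow_of_nonneg (le_max_right _ _) (by positivity)]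
    exact ENNReal.rpow_le_rpow (ENNReal.ofReal_le_ofReal (le_max_left _ _)) (by positivity)

theorem bdD_rec (hk : 1 ≤ Module.finrank ℝ V) {p C : ℝ} (hp : 2 ≤ p) (hC : 2 ≤ C) (hC' : (3 : ℝ) ^ Module.finrank ℝ V ≤ C) (hnar : NarPow V p)
    (s : ℕ) (hs : 1 ≤ s) (ε : ℝ) (hε : 0 < ε) (a : ℕ) :
    ∃ (Cc : ℝ) (j0 : ℕ), ∀ j ≥ j0,
      bdD V p C (2 ^ s * j) ≤ (bdA V p (7 * (C + 1)) (2 ^ (Module.finrank ℝ V + 3)) a + 1) * bdD V p C (2 ^ s * j - a - 0)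
        + Cc * (2 : ℝ) ^ ((ε + (Module.finrank ℝ V : ℝ) / 2 ^ s) * ((2 ^ s * j : ℕ) : ℝ))
          * ∏ l ∈ Finset.Icc 2 s, bdD V p C (2 ^ s * j - 2 ^ s * j / 2 ^ (l - 1) - 0) ^ bdnW (bdKap (Module.finrank ℝ V) p) s l := by
  have hp1 : 1 ≤ p := by linarith
  have hp0 : 0 < p := by linarith
  obtain ⟨E, hE, hit⟩ := bd9_iterStmt hk hp (by linarith : 1 ≤ C) s hs
  have hσ0 := bdt_pow_pos a
  have hσ1 := bdt_pow_le_one a
  obtain ⟨N, hN⟩ := bg_stmt hk hp hC hC' E _ hE hσ0 hσ1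
  have hR : 1 ≤ (((2 : ℝ) ^ (-(a : ℝ)))⁻¹) ^ 2 := one_le_pow₀ ((one_le_inv₀ hσ0).2 hσ1)
  obtain ⟨Cst, j0, hj⟩ := hit ε _ _ hε hσ0 hR
  refine ⟨(max N 0) ^ (1 / p) * max Cst 0, max j0 (a + 1), fun j hjj => ?_⟩
  have hjM : j ≤ 2 ^ s * j := Nat.le_mul_of_pos_left _ (by positivity)
  have hMa : a + 1 ≤ 2 ^ s * j := ((le_max_right _ _).trans hjj).trans hjM
  have h1 : ∀ m, 1 ≤ bdD V p C m := fun m => bdt_one_le_best _
  have hA1 : 1 ≤ bdA V p (7 * (C + 1)) (2 ^ (Module.finrank ℝ V + 3)) a := bdt_one_le_best _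
  have hfinA : ∃ A, NarLe V p (7 * (C + 1)) (2 ^ (Module.finrank ℝ V + 3)) ((2 : ℝ) ^ (-(a : ℝ))) A ∧ A ≠ ∞ := by
    obtain ⟨CA, hCA⟩ := hnar (7 * (C + 1)) (2 ^ (Module.finrank ℝ V + 3)) 1 one_pos
    exact ⟨_, hCA _ hσ0 hσ1, ENNReal.ofReal_ne_top⟩
  have hM := hj j ((le_max_left _ _).trans hjj) (fun l => ENNReal.ofReal (bdD V p C (2 ^ s * j - 2 ^ s * j / 2 ^ (l - 1))))
    (fun l _ => bdD_spec (bdt_fin hp1 C _))
  have h2ρ : 2 * (2 : ℝ) ^ (-((2 ^ s * j : ℕ) : ℝ)) ≤ (2 : ℝ) ^ (-(a : ℝ)) := by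
    calc 2 * (2 : ℝ) ^ (-((2 ^ s * j : ℕ) : ℝ)) = (2 : ℝ) ^ (1 + -((2 ^ s * j : ℕ) : ℝ)) := by
          rw [Real.rpow_add two_pos, Real.rpow_one]
      _ ≤ _ := by
          apply Real.rpow_le_rpow_of_exponent_le one_le_two
          have : ((a + 1 : ℕ) : ℝ) ≤ ((2 ^ s * j : ℕ) : ℝ) := by exact_mod_cast hMa
          push_cast at this ⊢
          linarith
  have hstep := hN _ (ENNReal.ofReal (bdA V p (7 * (C + 1)) (2 ^ (Module.finrank ℝ V + 3)) a)) (ENNReal.ofReal (bdD V p C (2 ^ s * j - a))) _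
    (bdt_pow_pos _) h2ρ (bdA_spec hfinA) (by rw [bdt_pow_div (by omega)]; exact bdD_spec (bdt_fin hp1 C _)) hM
  simp only [Nat.sub_zero]
  refine bdt_best_le (hstep.mono_D ?_) ?_
  · exact bdt_conv hp0 _ _ N Cst _ (by linarith) (by linarith [h1 (2 ^ s * j - a)]) (Real.rpow_pos_of_pos two_pos _).le _ _ _
      (fun l _ => by linarith [h1 (2 ^ s * j - 2 ^ s * j / 2 ^ (l - 1))])
  · have t1 : 1 ≤ (bdA V p (7 * (C + 1)) (2 ^ (Module.finrank ℝ V + 3)) a + 1) * bdD V p C (2 ^ s * j - a) := by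
      nlinarith [h1 (2 ^ s * j - a)]
    have t2 : 0 ≤ (max N 0) ^ (1 / p) * max Cst 0 * (2 : ℝ) ^ ((ε + (Module.finrank ℝ V : ℝ) / 2 ^ s) * ((2 ^ s * j : ℕ) : ℝ))
        * ∏ l ∈ Finset.Icc 2 s, bdD V p C (2 ^ s * j - 2 ^ s * j / 2 ^ (l - 1)) ^ bdnW (bdKap (Module.finrank ℝ V) p) s l := by
      refine mul_nonneg (mul_nonneg (mul_nonneg (Real.rpow_nonneg (le_max_right _ _) _) (le_max_right _ _)) (Real.rpow_pos_of_pos two_pos _).le) ?_
      exact Finset.prod_nonneg fun l _ => Real.rpow_nonneg (by linarith [h1 (2 ^ s * j - 2 ^ s * j / 2 ^ (l - 1))]) _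
    linarith

/-! ## 4. the subcritical range -/

/-- the dyadic scale below `ρ`. -/
theorem bdt_dyadic {ρ : ℝ} (h0 : 0 < ρ) (h1 : ρ ≤ 1) : ∃ m : ℕ, (2 : ℝ) ^ (-(m : ℝ)) ≤ ρ ∧ ρ ≤ 2 * (2 : ℝ) ^ (-(m : ℝ)) := by
  have hlog : 0 ≤ -Real.logb 2 ρ := by
    have := Real.logb_nonpos (b := 2) one_lt_two h0.le h1
    linarith
  refine ⟨⌈-Real.logb 2 ρ⌉₊, ?_, ?_⟩
  · have h2 : -Real.logb 2 ρ ≤ (⌈-Real.logb 2 ρ⌉₊ : ℝ) := Nat.le_ceil _
    calc (2 : ℝ) ^ (-(⌈-Real.logb 2 ρ⌉₊ : ℝ)) ≤ (2 : ℝ) ^ (Real.logb 2 ρ) := Real.rpow_le_rpow_of_exponent_le one_le_two (by linarith)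
      _ = ρ := Real.rpow_logb two_pos (by norm_num) h0
  · have h2 : (⌈-Real.logb 2 ρ⌉₊ : ℝ) < -Real.logb 2 ρ + 1 := Nat.ceil_lt_add_one hlog
    calc ρ = (2 : ℝ) ^ (Real.logb 2 ρ) := (Real.rpow_logb two_pos (by norm_num) h0).symm
      _ ≤ (2 : ℝ) ^ (1 + -(⌈-Real.logb 2 ρ⌉₊ : ℝ)) := Real.rpow_le_rpow_of_exponent_le one_le_two (by linarith)
      _ = _ := by rw [Real.rpow_add two_pos, Real.rpow_one]

theorem bd_sub (hk : 1 ≤ Module.finrank ℝ V) {p : ℝ} (hp : 2 ≤ p) (hpq : p * Module.finrank ℝ V < 2 * ((Module.finrank ℝ V : ℝ) + 2)) (hnar : NarPow V p) :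
    ∀ η : ℝ, 0 < η → DecPow V p η := by
  intro η hη C
  have hp1 : 1 ≤ p := by linarith
  set Cf : ℝ := max (max 2 ((3 : ℝ) ^ Module.finrank ℝ V)) (max C 0 * 2 ^ 2) with hCf
  have hC2 : 2 ≤ Cf := (le_max_left _ _).trans (le_max_left _ _)
  have hC3 : (3 : ℝ) ^ Module.finrank ℝ V ≤ Cf := (le_max_right _ _).trans (le_max_left _ _)
  obtain ⟨Dt, hDt⟩ := decPow_trivial (V := V) hp1 Cf
  have key := bdn_main' (bdD V p Cf) (fun _ a => bdA V p (7 * (Cf + 1)) (2 ^ (Module.finrank ℝ V + 3)) a + 1) ((Module.finrank ℝ V : ℝ) / 2)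
    (bdKap (Module.finrank ℝ V) p) (Module.finrank ℝ V : ℝ) 1 (max 1 Dt) 0 0 0 (fun m => by linarith [bdt_one_le_best {D | DecLe V p Cf ((2 : ℝ) ^ (-(m : ℝ))) D}, show bdD V p Cf m = bdBest _ from rfl])
    (by positivity) (bdD_le_pow hDt (by positivity)) (bd9_kap_half hk hpq) (bd9_kap hk hp).2.2.2.1 (by positivity) (bdD_sub hp1 hC2 hC3)
    (fun _ a => by
      have : 1 ≤ bdA V p (7 * (Cf + 1)) (2 ^ (Module.finrank ℝ V + 3)) a := bdt_one_le_best _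
      linarith)
    (fun _ ε hε => by
      obtain ⟨CA, hCA⟩ := hnar (7 * (Cf + 1)) (2 ^ (Module.finrank ℝ V + 3)) ε hε
      refine ⟨max 1 CA + 1, fun a => ?_⟩
      have h1 := bdA_le_pow hCA hε.le a
      have h2 : (1 : ℝ) ≤ (2 : ℝ) ^ (ε * a) := Real.one_le_rpow one_le_two (by positivity)
      nlinarith)
    (fun s hs ε hε a _ => bdD_rec hk hp hC2 hC3 hnar s hs ε hε a)
  obtain ⟨Cε, hCε⟩ := key η hη
  refine ⟨Cε * 2 ^ η, fun ρ h0 h1 ι s v H hR => ?_⟩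
  obtain ⟨m, hm1, hm2⟩ := bdt_dyadic h0 h1
  have hR' : Rob Cf ((2 : ℝ) ^ (-(m : ℝ))) s v H :=
    (((hR.mono (le_max_left C 0) h0.le).scale (le_max_right _ _) one_le_two (bdt_pow_pos m) hm1 hm2).mono (le_max_right _ _) (bdt_pow_pos m).le)
  refine (bdD_spec (bdt_fin hp1 Cf m) ι s v H hR').trans ?_
  gcongr
  refine (hCε m).trans ?_
  have hC0 : 0 ≤ Cε := by
    have h3 := hCε 0
    have h4 : 1 ≤ bdD V p Cf 0 := bdt_one_le_best _
    simp only [Nat.cast_zero, mul_zero, Real.rpow_zero, mul_one] at h3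
    linarith
  rw [mul_assoc]
  refine mul_le_mul_of_nonneg_left ?_ hC0
  have h5 : (2 : ℝ) ^ (η * m) = ((2 : ℝ) ^ (-(m : ℝ))) ^ (-η) := (bdt_pow_neg m η).symm
  have h6 : ρ / 2 ≤ (2 : ℝ) ^ (-(m : ℝ)) := by linarith
  calc (2 : ℝ) ^ (η * m) = ((2 : ℝ) ^ (-(m : ℝ))) ^ (-η) := h5
    _ ≤ (ρ / 2) ^ (-η) := Real.rpow_le_rpow_of_nonpos (by positivity) h6 (by linarith)
    _ = 2 ^ η * ρ ^ (-η) := by
        rw [Real.div_rpow h0.le two_pos.le, Real.rpow_neg two_pos.le, div_inv_eq_mul, mul_comm]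

/-! ## 5. the theorem -/

/-- **`ℓ²` decoupling for the paraboloid**, all dimensions, `2 ≤ p ≤ 2(k+2)/k`, robust families, global norms. -/
theorem bd_all (k : ℕ) : ∀ (V : Type) [NormedAddCommGroup V] [InnerProductSpace ℝ V] [FiniteDimensional ℝ V] [MeasurableSpace V] [BorelSpace V],
    Module.finrank ℝ V = k → ∀ p : ℝ, 2 ≤ p → p * k ≤ 2 * ((k : ℝ) + 2) → ∀ η : ℝ, 0 < η → DecPow V p η := by
  induction k with
  | zero =>
    intro V _ _ _ _ _ hV p hp _ η hη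
    exact decPow_zero (by linarith) hV hη.le
  | succ k ih =>
    intro V _ _ _ _ _ hV p hp hpq
    have hk : 1 ≤ Module.finrank ℝ V := by omega
    have hW : Module.finrank ℝ V = Module.finrank ℝ (EuclideanSpace ℝ (Fin k)) + 1 := by
      rw [hV, finrank_euclideanSpace, Fintype.card_fin]
    have hk0 : (0 : ℝ) ≤ k := Nat.cast_nonneg k
    have hsub : ∀ p' : ℝ, 2 ≤ p' → p' * ((k + 1 : ℕ) : ℝ) < 2 * (((k + 1 : ℕ) : ℝ) + 2) → ∀ η : ℝ, 0 < η → DecPow V p' η := by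
      intro p' hp' hpq'
      refine bd_sub hk hp' (by rw [hV]; exact hpq') (narPow_of hW hp' ?_)
      refine ih (EuclideanSpace ℝ (Fin k)) (by rw [finrank_euclideanSpace, Fintype.card_fin]) p' hp' ?_
      push_cast at hpq'
      nlinarith
    by_cases hc : p * ((k + 1 : ℕ) : ℝ) < 2 * (((k + 1 : ℕ) : ℝ) + 2)
    · exact hsub p hp hc
    · have hk1 : (0 : ℝ) < ((k + 1 : ℕ) : ℝ) := by positivity
      refine critStmt V p ?_ fun p' hp' hlt => hsub p' hp' ?_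
      · by_contra h2
        apply hc
        have : p = 2 := le_antisymm (not_lt.1 h2) hp
        rw [this]
        linarith
      · calc p' * ((k + 1 : ℕ) : ℝ) < p * ((k + 1 : ℕ) : ℝ) := mul_lt_mul_of_pos_right hlt hk1
          _ ≤ _ := hpq

/-- **BD, exit.** -/
theorem bd_main {p : ℝ} (hp : 2 ≤ p) (hpq : p * Module.finrank ℝ V ≤ 2 * ((Module.finrank ℝ V : ℝ) + 2)) {η : ℝ} (hη : 0 < η) : DecPow V p η :=
  bd_all _ V rfl p hp hpq η hη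

/-- Stores the on-demand equation lemmas of the definitions above in THIS module (rule 6 hygiene). -/
theorem bd_top_forced : True := by
  have := @bdBest.eq_1
  have := @bdD.eq_1
  have := @bdA.eq_1
  trivial

end

end Claimed.Agent.BD
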